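import Vale.Agent.P226.Ehrhard1

open MeasureTheory ProbabilityTheory Set Real Filter Topology

namespace Vale.Agent.P226

lemma g1_Phi_lt {m : ℝ} (h0 : 0 ≤ m) (h1 : m ≤ 1) : g1 {y | Phi y < m} = ENNReal.ofReal m := by
  rcases h0.eq_or_lt with h | h
  · have : {y | Phi y < m} = ∅ := eq_empty_of_forall_notMem fun y hy => by
      have h2 : Phi y < m := hy
      linarith [Phi_pos y]
    rw [this, ← h]; simp
  rcases h1.eq_or_lt with h' | h'
  · have : {y | Phi y < m} = univ := eq_univ_of_forall fun y => by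
      change Phi y < m
      linarith [Phi_lt_one y]
    rw [this, h']; simp
  obtain ⟨s, rfl⟩ := exists_Phi_eq h h'
  have : {y | Phi y < Phi s} = Iio s := by
    ext y; exact strictMono_Phi.lt_iff_lt
  rw [this, ← g1_Iio, ofReal_measureReal]

lemma two_Qt_le {r : ℝ} (hr : 1 ≤ r) : 2 * Qt (r + 1) ≤ Qt r := by
  have hd : ∀ w, HasDerivAt (fun w => Qt w - 2 * Qt (w + 1)) (-phi w - 2 * -phi (w + 1)) w :=
    fun w => (hasDerivAt_Qt w).fun_sub (((hasDerivAt_Qt (w + 1)).comp_add_const w 1).const_mul 2)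
  have h : AntitoneOn (fun w => Qt w - 2 * Qt (w + 1)) (Ici r) := by
    refine antitoneOn_of_deriv_nonpos (convex_Ici r)
      (fun w _ => (hd w).continuousAt.continuousWithinAt)
      (fun w _ => (hd w).differentiableAt.differentiableWithinAt) fun w hw => ?_
    rw [interior_Ici] at hw
    have hw1 : r < w := hw
    rw [(hd w).deriv]
    have e : phi w = phi (w + 1) * exp (w + 1 / 2) := by
      unfold phi
      rw [div_mul_eq_mul_div, ← exp_add]
      congr 2; ring
    have h2 := add_one_le_exp (w + 1 / 2)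
    have h3 := phi_pos (w + 1)
    rw [e]; nlinarith
  have hl : Tendsto (fun w => Qt w - 2 * Qt (w + 1)) atTop (𝓝 (0 - 2 * 0)) :=
    tendsto_Qt_atTop.sub ((tendsto_Qt_atTop.comp (tendsto_atTop_add_const_right _ 1
      tendsto_id)).const_mul 2)
  rw [mul_zero, sub_zero] at hl
  have : 0 ≤ Qt r - 2 * Qt (r + 1) := by
    refine le_of_tendsto hl ?_
    filter_upwards [eventually_ge_atTop r] with w hw
    exact h (mem_Ici.2 le_rfl) hw hw
  linarith

lemma iso_interval {a b y y' r : ℝ} (hy : y < y') (h : Phi y' ≤ Phi b - Phi a) (hr : 0 ≤ r) :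
    Phi (y + r) < Phi (b + r) - Phi (a - r) := by
  set C := |a| + |b| + |y'| + 1 with hC
  have hC0 : 0 < C := by positivity
  set R := r + C * r / (y' - y) + C + |y'| + 1 with hR
  have hgap : 0 < y' - y := sub_pos.2 hy
  have h0 : 0 ≤ C * r / (y' - y) := by positivity
  have hy' := abs_nonneg y'
  have hR0 : 0 < R := by positivity
  have h1 := tri_convex (p1 := a) (p2 := -b) (p3 := y') (v1 := -R) (v2 := -R) (v3 := R - C)
    (θ := r / R) (by positivity) (by rw [div_le_one hR0]; linarith)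
    (by rw [Phi_neg, Qt]; linarith) (by
      have h2 := two_Qt_le (r := y' + (R - C)) (by linarith [neg_abs_le y'])
      have h3 : Phi (a + -R) ≤ Qt (y' + (R - C) + 1) := by
        rw [← Phi_neg]
        exact strictMono_Phi.monotone (by linarith [le_abs_self a, le_abs_self y', abs_nonneg b])
      have h4 : Phi (-b + -R) ≤ Qt (y' + (R - C) + 1) := by
        rw [← Phi_neg]
        exact strictMono_Phi.monotone (by linarith [neg_abs_le b, le_abs_self y', abs_nonneg a])
      unfold Qt at h2 h3 h4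
      linarith)
  rw [show a + r / R * -R = a - r by field_simp; ring,
    show -b + r / R * -R = -(b + r) by field_simp; ring, Phi_neg, Qt] at h1
  have h5 : y + r < y' + r / R * (R - C) := by
    have e : r / R * (R - C) = r - C * r / R := by field_simp
    have h6 : C * r / R < y' - y := by
      rw [div_lt_iff₀ hR0]
      have : (y' - y) * (C * r / (y' - y)) = C * r := by field_simp
      have h7 : C * r / (y' - y) < R := by linarith
      nlinarith
    rw [e]; linarith
  linarith [strictMono_Phi h5]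

section gen
variable {V W : Type} [MeasurableSpace V] [MeasurableSpace W]

lemma measurableSet_ehr (ν : Measure W) [IsProbabilityMeasure ν] {A : Set (V × W)}
    (hA : MeasurableSet A) : MeasurableSet {q : V × ℝ | Phi q.2 < ν.real (Prod.mk q.1 ⁻¹' A)} :=
  measurableSet_lt (continuous_Phi.measurable.comp measurable_snd)
    ((measurable_measure_prodMk_left hA).ennreal_toReal.comp measurable_fst)

lemma ehr_measure (ν : Measure W) [IsProbabilityMeasure ν] {A : Set ((V × ℝ) × W)}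
    (hA : MeasurableSet A) (v : V) :
    (g1.prod g1) {p : ℝ × ℝ | Phi p.2 < ν.real (Prod.mk (v, p.1) ⁻¹' A)} =
      (g1.prod ν) {p : ℝ × W | ((v, p.1), p.2) ∈ A} := by
  have m1 : MeasurableSet {p : ℝ × ℝ | Phi p.2 < ν.real (Prod.mk (v, p.1) ⁻¹' A)} :=
    (show Measurable (fun p : ℝ × ℝ => (((v, p.1), p.2) : (V × ℝ) × ℝ)) by fun_prop)
      (measurableSet_ehr ν hA)
  have m2 : MeasurableSet {p : ℝ × W | ((v, p.1), p.2) ∈ A} :=
    (show Measurable (fun p : ℝ × W => (((v, p.1), p.2) : (V × ℝ) × W)) by fun_prop) hA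
  rw [Measure.prod_apply m1, Measure.prod_apply m2]
  refine lintegral_congr fun x => ?_
  have := g1_Phi_lt (m := ν.real (Prod.mk (v, x) ⁻¹' A)) measureReal_nonneg measureReal_le_one
  rw [ofReal_measureReal] at this
  exact this

end gen

section two
variable {V : Type} [AddCommGroup V] [Module ℝ V]

/-- reassociation -/
def asc (K : Set (V × ℝ × ℝ)) : Set ((V × ℝ) × ℝ) := {q | (q.1.1, q.1.2, q.2) ∈ K}

/-- Ehrhard symmetrisation in the last coordinate -/
def symz (K : Set (V × ℝ × ℝ)) : Set (V × ℝ × ℝ) :=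
  {q | Phi q.2.2 < g1.real (Prod.mk (q.1, q.2.1) ⁻¹' asc K)}

/-- rotation of the last two coordinates -/
def rotz (θ : ℝ) (K : Set (V × ℝ × ℝ)) : Set (V × ℝ × ℝ) :=
  {q | (q.1, ContinuousLinearMap.rotation θ q.2) ∈ K}

/-- recession direction -/
def Rec (K : Set (V × ℝ × ℝ)) (c s : ℝ) : Prop :=
  ∀ v x y, (v, x, y) ∈ K → ∀ t, 0 ≤ t → (v, x + t * c, y + t * s) ∈ K

lemma convex_asc {K : Set (V × ℝ × ℝ)} (hK : Convex ℝ K) : Convex ℝ (asc K) :=
  hK.linear_preimage (LinearEquiv.prodAssoc ℝ V ℝ ℝ).toLinearMap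

lemma convex_symz {K : Set (V × ℝ × ℝ)} (hK : Convex ℝ K) : Convex ℝ (symz K) :=
  (ehrhard_one _ (convex_asc hK)).linear_preimage (LinearEquiv.prodAssoc ℝ V ℝ ℝ).symm.toLinearMap

lemma convex_rotz (θ : ℝ) {K : Set (V × ℝ × ℝ)} (hK : Convex ℝ K) : Convex ℝ (rotz θ K) :=
  hK.linear_preimage (LinearMap.prodMap LinearMap.id
    (ContinuousLinearMap.rotation θ : ℝ × ℝ →L[ℝ] ℝ × ℝ).toLinearMap)

omit [AddCommGroup V] [Module ℝ V] in
lemma rec_symz_down (K : Set (V × ℝ × ℝ)) : Rec (symz K) 0 (-1) := by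
  intro v x y h t ht
  have h1 : Phi y < g1.real (Prod.mk (v, x) ⁻¹' asc K) := h
  change Phi (y + t * -1) < g1.real (Prod.mk (v, x + t * 0) ⁻¹' asc K)
  rw [mul_zero, add_zero]
  exact (strictMono_Phi.monotone (by linarith)).trans_lt h1

lemma rec_symz {K : Set (V × ℝ × ℝ)} (hK : Convex ℝ K) {c s : ℝ} (hs : 0 ≤ s) (h1 : Rec K c s)
    (h2 : Rec K c (-s)) : Rec (symz K) c s := by
  intro v x y h t ht
  have hcv : ∀ w : V × ℝ, Convex ℝ (Prod.mk w ⁻¹' asc K) := fun w => convex_slice (convex_asc hK) w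
  have h3 : Phi y < g1.real (Prod.mk (v, x) ⁻¹' asc K) := h
  obtain ⟨a, ha, b, hb, hab, y', hy, e⟩ := exists_Icc_of_lt (hcv (v, x)) h3
  have hr : 0 ≤ t * s := mul_nonneg ht hs
  have ha' : (v, x, a) ∈ K := ha
  have hb' : (v, x, b) ∈ K := hb
  have m1 : a - t * s ∈ Prod.mk (v, x + t * c) ⁻¹' asc K := by
    have := h2 v x a ha' t ht
    rw [show a + t * -s = a - t * s by ring] at this
    exact this
  have m2 : b + t * s ∈ Prod.mk (v, x + t * c) ⁻¹' asc K := h1 v x b hb' t ht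
  have h4 : g1.real (Icc (a - t * s) (b + t * s)) ≤ g1.real (Prod.mk (v, x + t * c) ⁻¹' asc K) :=
    measureReal_mono ((hcv _).ordConnected.out m1 m2) (measure_ne_top _ _)
  rw [g1_Icc (by linarith)] at h4
  have h5 : Phi (y + t * s) < g1.real (Prod.mk (v, x + t * c) ⁻¹' asc K) :=
    (iso_interval hy e.le hr).trans_le h4
  exact h5

omit [AddCommGroup V] [Module ℝ V] in
lemma rec_rotz {K : Set (V × ℝ × ℝ)} {θ α : ℝ} (h : Rec K (cos (α - θ)) (sin (α - θ))) :
    Rec (rotz θ K) (cos α) (sin α) := by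
  intro v x y hx t ht
  have := h v _ _ hx t ht
  change (v, ContinuousLinearMap.rotation θ (x + t * cos α, y + t * sin α)) ∈ K
  convert this using 2
  simp only [ContinuousLinearMap.rotation_apply, smul_eq_mul, cos_sub, sin_sub, Prod.mk.injEq]
  constructor <;> ring

variable [MeasurableSpace V]

omit [AddCommGroup V] [Module ℝ V] in
lemma measurableSet_asc {K : Set (V × ℝ × ℝ)} (hm : MeasurableSet K) : MeasurableSet (asc K) :=
  (show Measurable (fun q : (V × ℝ) × ℝ => (q.1.1, q.1.2, q.2)) by fun_prop) hm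

omit [AddCommGroup V] [Module ℝ V] in
lemma measurableSet_symz {K : Set (V × ℝ × ℝ)} (hm : MeasurableSet K) : MeasurableSet (symz K) :=
  (show Measurable (fun q : V × ℝ × ℝ => ((q.1, q.2.1), q.2.2)) by fun_prop)
    (measurableSet_ehr g1 (measurableSet_asc hm))

omit [AddCommGroup V] [Module ℝ V] in
lemma measurableSet_rotz (θ : ℝ) {K : Set (V × ℝ × ℝ)} (hm : MeasurableSet K) :
    MeasurableSet (rotz θ K) :=
  (measurable_fst.prodMk ((ContinuousLinearMap.rotation θ).continuous.measurable.comp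
    measurable_snd)) hm

omit [AddCommGroup V] [Module ℝ V] in
lemma measure_symz {K : Set (V × ℝ × ℝ)} (hm : MeasurableSet K) (v : V) :
    (g1.prod g1) (Prod.mk v ⁻¹' symz K) = (g1.prod g1) (Prod.mk v ⁻¹' K) :=
  ehr_measure g1 (measurableSet_asc hm) v

omit [AddCommGroup V] [Module ℝ V] in
lemma measure_rotz (θ : ℝ) {K : Set (V × ℝ × ℝ)} (hm : MeasurableSet K) (v : V) :
    (g1.prod g1) (Prod.mk v ⁻¹' rotz θ K) = (g1.prod g1) (Prod.mk v ⁻¹' K) := by
  have h := IsGaussian.map_rotation_eq_self (μ := g1) (by simp) θ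
  conv_rhs => rw [← h]
  rw [Measure.map_apply (ContinuousLinearMap.rotation θ).continuous.measurable
    (measurable_prodMk_left hm)]
  rfl

lemma exists_cone (K : Set (V × ℝ × ℝ)) (hK : Convex ℝ K) (hm : MeasurableSet K) (n : ℕ) :
    ∃ K' : Set (V × ℝ × ℝ), Convex ℝ K' ∧ MeasurableSet K' ∧
      (∀ v, (g1.prod g1) (Prod.mk v ⁻¹' K') = (g1.prod g1) (Prod.mk v ⁻¹' K)) ∧
      Rec K' (cos (π / 2 - π / 2 * (1 / 2) ^ n)) (sin (π / 2 - π / 2 * (1 / 2) ^ n)) ∧
      Rec K' (cos (π / 2 - π / 2 * (1 / 2) ^ n)) (-sin (π / 2 - π / 2 * (1 / 2) ^ n)) := by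
  induction n with
  | zero =>
    have h : Rec (rotz (π / 2) (symz K)) (cos 0) (sin 0) :=
      rec_rotz (by simpa using rec_symz_down K)
    refine ⟨rotz (π / 2) (symz K), convex_rotz _ (convex_symz hK),
      measurableSet_rotz _ (measurableSet_symz hm), fun v => by
        rw [measure_rotz _ (measurableSet_symz hm), measure_symz hm], ?_, ?_⟩
    · simpa using h
    · simpa using h
  | succ n ih =>
    obtain ⟨K', h1, h2, h3, h4, h5⟩ := ih
    set b := π / 2 - π / 2 * (1 / 2) ^ n with hb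
    have hp : (1 / 2 : ℝ) ^ n ≤ 1 := pow_le_one₀ (by norm_num) (by norm_num)
    have hp0 : (0 : ℝ) < (1 / 2) ^ n := by positivity
    have hs : 0 ≤ sin b := sin_nonneg_of_nonneg_of_le_pi (by nlinarith [pi_pos])
      (by nlinarith [pi_pos])
    have e : π / 2 - π / 2 * (1 / 2) ^ (n + 1) = π / 4 + b / 2 := by rw [hb, pow_succ]; ring
    rw [e]
    refine ⟨rotz (π / 4 - b / 2) (symz K'), convex_rotz _ (convex_symz h1),
      measurableSet_rotz _ (measurableSet_symz h2), fun v => by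
        rw [measure_rotz _ (measurableSet_symz h2), measure_symz h2, h3], ?_, ?_⟩
    · refine rec_rotz ?_
      rw [show π / 4 + b / 2 - (π / 4 - b / 2) = b by ring]
      exact rec_symz h1 hs h4 h5
    · rw [← sin_neg, ← cos_neg]
      refine rec_rotz ?_
      rw [show -(π / 4 + b / 2) - (π / 4 - b / 2) = -(π / 2) by ring]
      simpa using rec_symz_down K'

lemma exists_gap {a m : ℝ} (h : Phi a < m) :
    ∃ a', a < a' ∧ ∀ᶠ N in atTop, Phi a' + 2 * Qt N < m := by
  have h1 : ∀ᶠ a' in 𝓝[>] a, Phi a' < m :=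
    (continuous_Phi.continuousAt.eventually (gt_mem_nhds h)).filter_mono nhdsWithin_le_nhds
  obtain ⟨a', h2, h3⟩ := (h1.and self_mem_nhdsWithin).exists
  refine ⟨a', h3, ?_⟩
  have hl : Tendsto (fun N => Phi a' + 2 * Qt N) atTop (𝓝 (Phi a' + 2 * 0)) :=
    (tendsto_Qt_atTop.const_mul 2).const_add _
  rw [mul_zero, add_zero] at hl
  exact hl.eventually (gt_mem_nhds h2)

lemma exists_point {A : Set (ℝ × ℝ)} {a N : ℝ} (h : Phi a + 2 * Qt N < (g1.prod g1).real A) :
    ∃ x y, (x, y) ∈ A ∧ x ≤ -a ∧ |y| ≤ N := by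
  by_contra hne
  push Not at hne
  have hsub : A ⊆ (Ioi (-a) ×ˢ univ) ∪ ((univ ×ˢ Ioi N) ∪ (univ ×ˢ Iio (-N))) := by
    rintro ⟨x, y⟩ hp
    by_cases hx : x ≤ -a
    · right
      rcases lt_abs.1 (hne x y hp hx) with h1 | h1
      · left; exact ⟨trivial, h1⟩
      · right; exact ⟨trivial, by change y < -N; linarith⟩
    · left; exact ⟨not_le.1 hx, trivial⟩
  have h1 := (measureReal_mono (μ := g1.prod g1) hsub).trans ((measureReal_union_le _ _).trans
    (add_le_add le_rfl (measureReal_union_le _ _)))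
  simp only [measureReal_prod_prod, probReal_univ, mul_one, one_mul, g1_Ioi, g1_Iio, Qt_neg,
    Phi_neg] at h1
  linarith

theorem ehrhard_two {V : Type} [AddCommGroup V] [Module ℝ V] [MeasurableSpace V]
    (K : Set (V × ℝ × ℝ)) (hK : Convex ℝ K) (hm : MeasurableSet K) :
    Convex ℝ {q : V × ℝ | Phi q.2 < (g1.prod g1).real (Prod.mk q.1 ⁻¹' K)} := by
  rintro ⟨v0, a⟩ h0 ⟨v1, b⟩ h1 s θ hs hθ hst
  obtain ⟨a', ha, ea⟩ := exists_gap (show Phi a < _ from h0)
  obtain ⟨b', hb, eb⟩ := exists_gap (show Phi b < _ from h1)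
  obtain ⟨N, hNa, hNb⟩ := (ea.and eb).exists
  simp only at hNa hNb
  change Phi (s * a + θ * b) < (g1.prod g1).real (Prod.mk (s • v0 + θ • v1) ⁻¹' K)
  have hc : s * a + θ * b < s * a' + θ * b' := by
    rcases hθ.eq_or_lt with h | h
    · rw [← h] at hst ⊢
      rw [add_zero] at hst
      simpa [hst] using ha
    · nlinarith
  set c := s * a + θ * b
  set c' := s * a' + θ * b' with hc'
  set δ := (c' - c) / 2 with hδ
  have hδ0 : 0 < δ := by rw [hδ]; linarith
  have hl : Tendsto (fun M => Phi (c' - δ) * (1 - 2 * Qt M)) atTop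
      (𝓝 (Phi (c' - δ) * (1 - 2 * 0))) :=
    ((tendsto_Qt_atTop.const_mul 2).const_sub 1).const_mul _
  rw [mul_zero, sub_zero, mul_one] at hl
  obtain ⟨M, hM, hM0⟩ := ((hl.eventually (lt_mem_nhds (strictMono_Phi
    (show c < c' - δ by rw [hδ]; linarith)))).and (eventually_ge_atTop 0)).exists
  have hang : Tendsto (fun n : ℕ => π / 2 - π / 2 * (1 / 2 : ℝ) ^ n) atTop (𝓝 (π / 2 - π / 2 * 0)) :=
    ((tendsto_pow_atTop_nhds_zero_of_lt_one (by norm_num) (by norm_num)).const_mul _).const_sub _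
  rw [mul_zero, sub_zero] at hang
  have hl2 : Tendsto (fun n : ℕ => δ * sin (π / 2 - π / 2 * (1 / 2 : ℝ) ^ n) -
      (M + N) * cos (π / 2 - π / 2 * (1 / 2 : ℝ) ^ n)) atTop
      (𝓝 (δ * sin (π / 2) - (M + N) * cos (π / 2))) :=
    (((continuous_sin.tendsto _).comp hang).const_mul _).sub
      (((continuous_cos.tendsto _).comp hang).const_mul _)
  have hl3 := (continuous_sin.tendsto _).comp hang
  rw [sin_pi_div_two, cos_pi_div_two, mul_one, mul_zero, sub_zero] at hl2
  rw [sin_pi_div_two] at hl3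
  obtain ⟨n, hn1, hn2⟩ := ((hl2.eventually (lt_mem_nhds hδ0)).and
    (hl3.eventually (lt_mem_nhds one_pos))).exists
  obtain ⟨K', k1, k2, k3, k4, k5⟩ := exists_cone K hK hm n
  have hcos : 0 < cos (π / 2 - π / 2 * (1 / 2 : ℝ) ^ n) := by
    have hp : (1 / 2 : ℝ) ^ n ≤ 1 := pow_le_one₀ (by norm_num) (by norm_num)
    have hp0 : (0 : ℝ) < (1 / 2) ^ n := by positivity
    exact cos_pos_of_mem_Ioo ⟨by nlinarith [pi_pos], by nlinarith [pi_pos]⟩
  simp only [Function.comp] at hn2
  set C := cos (π / 2 - π / 2 * (1 / 2 : ℝ) ^ n)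
  set S := sin (π / 2 - π / 2 * (1 / 2 : ℝ) ^ n)
  have k3' : ∀ v, (g1.prod g1).real (Prod.mk v ⁻¹' K) = (g1.prod g1).real (Prod.mk v ⁻¹' K') :=
    fun v => by rw [measureReal_def, measureReal_def, k3]
  rw [k3'] at hNa hNb ⊢
  obtain ⟨x0, y0, p0, hx0, hy0⟩ := exists_point hNa
  obtain ⟨x1, y1, p1, hx1, hy1⟩ := exists_point hNb
  have pt : (s • v0 + θ • v1, s * x0 + θ * x1, s * y0 + θ * y1) ∈ K' := k1 p0 p1 hs hθ hst
  have hxt : s * x0 + θ * x1 ≤ -c' := by rw [hc']; nlinarith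
  have hyt : |s * y0 + θ * y1| ≤ N := by
    have b0 := abs_le.1 hy0
    have b1 := abs_le.1 hy1
    have e : N = s * N + θ * N := by rw [← add_mul, hst, one_mul]
    rw [abs_le]; constructor <;> nlinarith [b0.1, b0.2, b1.1, b1.2]
  set xt := s * x0 + θ * x1
  set yt := s * y0 + θ * y1
  have hsub : Ici (-(c' - δ)) ×ˢ Icc (-M) M ⊆ Prod.mk (s • v0 + θ • v1) ⁻¹' K' := by
    rintro ⟨x, y⟩ ⟨hx, hy⟩
    simp only [mem_Ici, mem_Icc] at hx hy
    have hdx : δ ≤ x - xt := by linarith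
    have b0 := abs_le.1 hyt
    have q1 : (y - yt) * C ≤ (x - xt) * S := by nlinarith [hy.2, b0.1]
    have q2 : -(y - yt) * C ≤ (x - xt) * S := by nlinarith [hy.1, b0.2]
    have t1 : 0 ≤ ((x - xt) / C + (y - yt) / S) / 2 := by
      rw [div_add_div _ _ hcos.ne' hn2.ne']
      exact div_nonneg (div_nonneg (by linarith) (by positivity)) (by norm_num)
    have t2 : 0 ≤ ((x - xt) / C - (y - yt) / S) / 2 := by
      rw [div_sub_div _ _ hcos.ne' hn2.ne']
      exact div_nonneg (div_nonneg (by linarith) (by positivity)) (by norm_num)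
    have := k5 _ _ _ (k4 _ _ _ pt _ t1) _ t2
    change (s • v0 + θ • v1, x, y) ∈ K'
    convert this using 3
    · field_simp; ring
    · field_simp; ring
  refine hM.trans_le (le_trans (le_of_eq ?_) (measureReal_mono hsub))
  rw [measureReal_prod_prod, g1_Ici, Qt_neg, g1_Icc (by linarith), Phi_neg, Qt]
  ring

end two

theorem ehrhard_pi (d : ℕ) {V : Type} [AddCommGroup V] [Module ℝ V] [MeasurableSpace V]
    (K : Set (V × (Fin d → ℝ))) (hK : Convex ℝ K) (hm : MeasurableSet K) :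
    Convex ℝ {q : V × ℝ | Phi q.2 < (Measure.pi (fun _ : Fin d => g1)).real (Prod.mk q.1 ⁻¹' K)} := by
  induction d generalizing V with
  | zero =>
    have e : {q : V × ℝ | Phi q.2 < (Measure.pi (fun _ : Fin 0 => g1)).real (Prod.mk q.1 ⁻¹' K)} =
        (LinearMap.inl ℝ V (Fin 0 → ℝ) ∘ₗ LinearMap.fst ℝ V ℝ) ⁻¹' K := by
      ext q
      change _ ↔ (q.1, 0) ∈ K
      by_cases h : (q.1, (0 : Fin 0 → ℝ)) ∈ K
      · have : Prod.mk q.1 ⁻¹' K = univ := eq_univ_of_forall fun z => by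
          rw [Subsingleton.elim z 0]; exact h
        rw [mem_ofPred_eq, this, probReal_univ]
        exact iff_of_true (Phi_lt_one _) h
      · have : Prod.mk q.1 ⁻¹' K = ∅ := eq_empty_of_forall_notMem fun z hz => by
          rw [Subsingleton.elim z 0] at hz; exact h hz
        rw [mem_ofPred_eq, this, measureReal_empty]
        exact iff_of_false (not_lt.2 (Phi_nonneg _)) h
    rw [e]
    exact hK.linear_preimage _
  | succ d ih =>
    set e := MeasurableEquiv.piFinSuccAbove (fun _ : Fin (d + 1) => ℝ) 0 with he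
    set K1 : Set ((V × ℝ) × (Fin d → ℝ)) := {q | (q.1.1, e.symm (q.1.2, q.2)) ∈ K} with hK1
    have c1 : Convex ℝ K1 := by
      rintro ⟨⟨v, x⟩, z⟩ h ⟨⟨v', x'⟩, z'⟩ h' a b ha hb hab
      have := hK h h' ha hb hab
      change (a • v + b • v', e.symm (a * x + b * x', a • z + b • z')) ∈ K
      convert this using 1
      refine Prod.ext rfl ?_
      ext i
      refine Fin.cases ?_ (fun j => ?_) i
      · simp [he, MeasurableEquiv.piFinSuccAbove_symm_apply, Fin.insertNthEquiv]
      · simp [he, MeasurableEquiv.piFinSuccAbove_symm_apply, Fin.insertNthEquiv]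
    have m1 : MeasurableSet K1 :=
      (show Measurable (fun q : (V × ℝ) × (Fin d → ℝ) => (q.1.1, e.symm (q.1.2, q.2))) by
        fun_prop) hm
    have c2 := (ih K1 c1 m1).linear_preimage (LinearEquiv.prodAssoc ℝ V ℝ ℝ).symm.toLinearMap
    have m2 := (show Measurable (fun q : V × ℝ × ℝ => ((q.1, q.2.1), q.2.2)) by fun_prop)
      (measurableSet_ehr (Measure.pi (fun _ : Fin d => g1)) m1)
    have h3 := ehrhard_two _ c2 m2
    convert h3 using 4 with q
    have h4 := ehr_measure (Measure.pi (fun _ : Fin d => g1)) m1 q.1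
    have h5 := ((measurePreserving_piFinSuccAbove (fun _ : Fin (d + 1) => g1) 0).symm
      e).measure_preimage (measurable_prodMk_left (x := q.1) hm).nullMeasurableSet
    rw [measureReal_def, measureReal_def, ← h5]
    exact congrArg ENNReal.toReal h4.symm

theorem ehrhard_std (d : ℕ) (K : Set (ℝ × EuclideanSpace ℝ (Fin d))) (hK : Convex ℝ K)
    (hm : MeasurableSet K) :
    Convex ℝ {q : ℝ × ℝ | Phi q.2 <
      (stdGaussian (EuclideanSpace ℝ (Fin d))).real (Prod.mk q.1 ⁻¹' K)} := by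
  have c1 := hK.linear_preimage (LinearMap.prodMap (LinearMap.id : ℝ →ₗ[ℝ] ℝ)
    (WithLp.linearEquiv 2 ℝ (Fin d → ℝ)).symm.toLinearMap)
  have hto : Measurable (WithLp.toLp 2 : (Fin d → ℝ) → EuclideanSpace ℝ (Fin d)) := by fun_prop
  have m1 := (measurable_fst.prodMk (hto.comp measurable_snd)) hm
  have h := ehrhard_pi d _ c1 m1
  convert h using 4 with q
  rw [← map_pi_eq_stdGaussian, map_measureReal_apply hto (measurable_prodMk_left hm)]
  rfl

end Vale.Agent.P226
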