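import Vale.Agent.P226.Lines

open Real

namespace Vale.Agent.P226

lemma heron_aux {a b c A ρ : ℝ} (hb : 0 ≤ b) (hc : 0 ≤ c) (hab : b ≤ a) (hac : c ≤ a)
    (hA : A ≤ a + b + c) (h3 : ρ ≤ b + c) (hρ : 0 ≤ ρ) (h2 : 2 * ρ ≤ A) :
    (A - ρ) * ρ ≤ a * b + a * c + b * c := by
  have h0 : (A - ρ) * ρ ≤ (a + b + c - ρ) * ρ := by gcongr
  rcases le_total ρ a with h | h
  · nlinarith [mul_nonneg hb hc, mul_nonneg (sub_nonneg.2 h3) (sub_nonneg.2 h)]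
  · nlinarith [mul_nonneg (sub_nonneg.2 h) (sub_nonneg.2 (hab.trans h)),
      mul_nonneg (sub_nonneg.2 h) (sub_nonneg.2 (hac.trans h)),
      mul_nonneg (sub_nonneg.2 (hab.trans h)) (sub_nonneg.2 (hac.trans h)),
      mul_nonneg hρ (show 0 ≤ a + b + c - 2 * ρ by linarith)]

lemma heron {a b c A ρ : ℝ} (ha : 0 ≤ a) (hb : 0 ≤ b) (hc : 0 ≤ c)
    (hA : A ≤ a + b + c) (h1 : ρ ≤ a + b) (h2 : ρ ≤ a + c) (h3 : ρ ≤ b + c) (hρ : 0 ≤ ρ)
    (h4 : 2 * ρ ≤ A) : (A - ρ) * ρ ≤ a * b + a * c + b * c := by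
  rcases le_total a b with hab | hab <;> rcases le_total a c with hac | hac <;>
    rcases le_total b c with hbc | hbc
  · linarith [heron_aux ha hb hac hbc (show A ≤ c + a + b by linarith) h1 hρ h4]
  · linarith [heron_aux ha hc hab hbc (show A ≤ b + a + c by linarith) h2 hρ h4]
  · linarith [heron_aux ha hc hab (hac.trans hab) (show A ≤ b + a + c by linarith) h2 hρ h4]
  · linarith [heron_aux ha hc hab hbc (show A ≤ b + a + c by linarith) h2 hρ h4]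
  · linarith [heron_aux ha hb hac hbc (show A ≤ c + a + b by linarith) h1 hρ h4]
  · linarith [heron_aux ha hb hac (hab.trans hac) (show A ≤ c + a + b by linarith) h1 hρ h4]
  · exact heron_aux hb hc hab hac hA h3 hρ h4
  · exact heron_aux hb hc hab hac hA h3 hρ h4

lemma cap_contra {p W e a b P β n E : ℝ} (hp : 0 < p) (hP : p ≤ P) (hP1 : P ≤ 0.1) (he : 0 < e)
    (ha : 0 ≤ a) (hb : 0 ≤ b) (hab : 4 * b ≤ a * (1 - 8 * P))
    (hW0 : W ≤ p * (β * (n * p + E))) (hn : β * n ≤ a * (6.2831 * e))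
    (hE : β * E ≤ b * (6.2831 * e))
    (hnum : (a * P + b) * (1 - (4 - 4 * P) * P) < 4 - 4 * P)
    (h : 1 ≤ (1 - 2 * p) ^ 2 * (1 + W / (2 * π * e))) : False := by
  have hpi := pi_gt_d6
  have hW : W ≤ p * ((a * p + b) * (6.2831 * e)) := by
    refine hW0.trans (mul_le_mul_of_nonneg_left ?_ hp.le)
    nlinarith [mul_le_mul_of_nonneg_right hn hp.le]
  have h1 : W / (2 * π * e) ≤ p * (a * p + b) := by
    rw [div_le_iff₀ (by positivity)]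
    have : 0 ≤ p * (a * p + b) * e := by positivity
    nlinarith
  have h2 : (1 - 2 * p) ^ 2 * (1 + W / (2 * π * e)) ≤ (1 - 2 * p) ^ 2 * (1 + p * (a * p + b)) := by
    gcongr
  have h3 : (1 - 2 * p) ^ 2 ≤ 1 - (4 - 4 * P) * p := by nlinarith
  have h4 : (a * p + b) * (1 - 2 * p) ^ 2 ≤ (a * p + b) * (1 - (4 - 4 * P) * p) := by
    gcongr
  have h5 : (a * p + b) * (1 - (4 - 4 * P) * p) ≤ (a * P + b) * (1 - (4 - 4 * P) * P) := by
    have h6 : 0 ≤ a - (4 - 4 * P) * b - a * (4 - 4 * P) * (p + P) := by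
      have : a * (4 - 4 * P) * (p + P) ≤ a * (8 * P) := by
        rw [mul_assoc]
        apply mul_le_mul_of_nonneg_left _ ha
        nlinarith
      nlinarith [mul_nonneg hb (hp.le.trans hP)]
    nlinarith [mul_nonneg (sub_nonneg.2 hP) h6]
  have h7 : (a * p + b) * (1 - 2 * p) ^ 2 < 4 - 4 * p := by linarith
  nlinarith [mul_lt_mul_of_pos_left h7 hp]

variable {s1 s2 s3 s4 s5 p1 p2 p3 p4 p5 k1 k2 k3 k4 k5 t1 t2 t3 t4 t5 : ℝ}

lemma Cel.s_mono (c1 : Cel s1 p1 k1 t1) (c2 : Cel s2 p2 k2 t2) (h : p2 ≤ p1) : s1 ≤ s2 :=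
  c1.s_le (by rw [← c2.hp]; exact h)

lemma rhoA (c1 : Cel s1 p1 k1 t1) (c2 : Cel s2 p2 k2 t2) (c3 : Cel s3 p3 k3 t3)
    (h3 : s3 ≤ 0.86) {ε η : ℝ} (hsum : p1 + p2 + p3 + ε = 1)
    (hη : η ≤ 0.1533 * ε) (hε : ε ≤ 0.1413) (hF : 0.358098 ≤ t1 + t2 + t3 + η) :
    0.0546 ≤ t3 - η := by
  rcases le_total 0.67 s3 with h | h
  · linarith [c3.T2 h h3, c1.G2, c1.G3, c2.G2, c2.G3]
  · linarith [c3.p_ge h, pt067.2.2.1, c1.G1, c1.G2, c1.G3, c2.G1, c2.G2, c2.G3]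

lemma partA (c1 : Cel s1 p1 k1 t1) (c2 : Cel s2 p2 k2 t2) (c3 : Cel s3 p3 k3 t3)
    (c4 : Cel s4 p4 k4 t4) (o1 : p2 ≤ p1) (o2 : p3 ≤ p2) {ε η : ℝ} (hε0 : 0 ≤ ε)
    (hsum : p1 + p2 + p3 + p4 + ε = 1) (hF : 0.358098 ≤ t1 + t2 + t3 + t4 + η)
    (hs4 : 1.34 ≤ s4) (m20 : η ≤ 2 * p4 * ε) (m18 : 0.0155 ≤ p4 → η ≤ 1.8 * p4 * ε)
    (m17 : 0.075 ≤ p4 → η ≤ 1.7 * p4 * ε) {a12 a13 a23 w1 w2 w3 : ℝ}
    (h12 : 0 ≤ a12) (h13 : 0 ≤ a13) (h23 : 0 ≤ a23) (hw1 : 0 ≤ w1) (hw2 : 0 ≤ w2) (hw3 : 0 ≤ w3)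
    (e1 : t1 = a12 + a13 + w1) (e2 : t2 = a12 + a23 + w2) (e3 : t3 = a13 + a23 + w3)
    (hw : w1 + w2 + w3 ≤ t4 + η)
    (hcap : ∀ e, 0 < e → e ^ 2 ≤ a12 * a13 + a12 * a23 + a13 * a23 →
      1 ≤ (1 - 2 * p4) ^ 2 * (1 + (16 * t4 + η) / (2 * π * e))) : False := by
  have hp4 : p4 ≤ 0.0901227 := (c4.p_le hs4).trans pt134.2.2.2
  have hp0 := c4.p_pos
  obtain ⟨β, P, hβ0, hb1, hb2, hpP, hβP, hcase⟩ : ∃ β P : ℝ, 0 ≤ β ∧ t4 ≤ β * p4 * p4 ∧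
      η ≤ β * p4 * ε ∧ p4 ≤ P ∧ β * P ≤ 0.1533 ∧
      ((β = 2 ∧ P = 0.0155) ∨ (β = 1.8 ∧ P = 0.075) ∨ (β = 1.7 ∧ P = 0.0901227)) := by
    rcases le_total p4 0.0155 with h | h
    · exact ⟨2, 0.0155, by norm_num, c4.m20 le_rfl, m20, h, by norm_num, Or.inl ⟨rfl, rfl⟩⟩
    · rcases le_total p4 0.075 with h' | h'
      · exact ⟨1.8, 0.075, by norm_num, c4.m18 le_rfl h, m18 h, h', by norm_num,
          Or.inr (Or.inl ⟨rfl, rfl⟩)⟩
      · exact ⟨1.7, 0.0901227, by norm_num, c4.m17 le_rfl h', m17 h', hp4, by norm_num,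
          Or.inr (Or.inr ⟨rfl, rfl⟩)⟩
  have hsl : β * p4 ≤ 0.1533 := le_trans (mul_le_mul_of_nonneg_left hpP hβ0) hβP
  have hη : t4 + η ≤ 0.1533 * (p4 + ε) := by
    linarith [mul_le_mul_of_nonneg_right hsl hp0.le, mul_le_mul_of_nonneg_right hsl hε0]
  rcases le_total 0.86 s3 with h3 | h3
  · linarith [c3.T8 h3, c3.p_le h3, pt086.2.2.2, c1.G2, c2.G2]
  have h2 : s2 ≤ 0.86 := (c2.s_mono c3 o2).trans h3
  have h1 : s1 ≤ 0.86 := (c1.s_mono c2 o1).trans h2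
  have hε : p4 + ε ≤ 0.1413 := by linarith [c1.T1 h1, c2.T1 h2, c3.T1 h3]
  have r3 := rhoA c1 c2 c3 h3 (ε := p4 + ε) (η := t4 + η) (by linarith) hη hε (by linarith)
  have r2 := rhoA c1 c3 c2 h2 (ε := p4 + ε) (η := t4 + η) (by linarith) hη hε (by linarith)
  have r1 := rhoA c3 c2 c1 h1 (ε := p4 + ε) (η := t4 + η) (by linarith) hη hε (by linarith)
  have hh := heron (A := 0.157387) (ρ := 0.0546) h12 h13 h23 (by linarith) (by linarith)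
    (by linarith) (by linarith) (by norm_num) (by norm_num)
  have hc := hcap 0.0749 (by norm_num) (by linarith)
  have hW : 16 * t4 + η ≤ p4 * (β * (15 * p4 + 0.1413)) := by
    have : β * p4 * ε ≤ β * p4 * (0.1413 - p4) :=
      mul_le_mul_of_nonneg_left (by linarith) (mul_nonneg hβ0 hp0.le)
    linarith
  rcases hcase with ⟨rfl, rfl⟩ | ⟨rfl, rfl⟩ | ⟨rfl, rfl⟩
  · exact cap_contra (a := 63.75) (b := 0.6006) hp0 hpP (by norm_num) (by norm_num) (by norm_num)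
      (by norm_num) (by norm_num) hW (by norm_num) (by norm_num) (by norm_num) hc
  · exact cap_contra (a := 57.38) (b := 0.5405) hp0 hpP (by norm_num) (by norm_num) (by norm_num)
      (by norm_num) (by norm_num) hW (by norm_num) (by norm_num) (by norm_num) hc
  · exact cap_contra (a := 54.19) (b := 0.5105) hp0 hpP (by norm_num) (by norm_num) (by norm_num)
      (by norm_num) (by norm_num) hW (by norm_num) (by norm_num) (by norm_num) hc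

lemma partD (c1 : Cel s1 p1 k1 t1) (c2 : Cel s2 p2 k2 t2) (c3 : Cel s3 p3 k3 t3)
    (c4 : Cel s4 p4 k4 t4) (c5 : Cel s5 p5 k5 t5) (o1 : p2 ≤ p1) (o2 : p3 ≤ p2) (o3 : p4 ≤ p3)
    (o4 : p5 ≤ p4) {ε η : ℝ} (hε0 : 0 ≤ ε)
    (hsum : p1 + p2 + p3 + p4 + p5 + ε = 1) (hF : 0.358098 ≤ t1 + t2 + t3 + t4 + t5 + η)
    (hs4 : s4 ≤ 1.34) (hs5 : s5 ≤ 1.65) (hη : η ≤ 0.356 * ε) : False := by
  have hp5 := c5.p_pos
  have g4 : 0.67 ≤ s4 := c4.s_ge_067 (by linarith)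
  have g5 : 0.67 ≤ s5 := c5.s_ge_067 (by linarith)
  have l34 := c3.s_mono c4 o3
  have l45 := c4.s_mono c5 o4
  rcases le_total 0.86 s3 with h3 | h3
  · linarith [c1.G1, c2.G1, c3.T6 h3 (by linarith), c4.T6 (by linarith) (by linarith),
      c5.T6 (by linarith) hs5]
  · have h2 : s2 ≤ 0.86 := (c2.s_mono c3 o2).trans h3
    have h1 : s1 ≤ 0.86 := (c1.s_mono c2 o1).trans h2
    linarith [c1.T1 h1, c2.T1 h2, c3.T1 h3, c4.T4 g4 hs4, c5.T5 g5 hs5]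

lemma rhoC (c1 : Cel s1 p1 k1 t1) (c2 : Cel s2 p2 k2 t2) (c3 : Cel s3 p3 k3 t3)
    (c4 : Cel s4 p4 k4 t4) (h3 : s3 ≤ 0.86) (g4 : 1.17 ≤ s4) (h4 : s4 ≤ 1.34) {ε η : ℝ}
    (hsum : p1 + p2 + p3 + p4 + ε = 1) (hε : 0 ≤ ε)
    (hη : η ≤ 0.0891 * ε) (hF : 0.358098 ≤ t1 + t2 + t3 + t4 + η) :
    0.0488 ≤ t3 - t4 - η := by
  have q1 := c4.T9 g4 h4
  have q2 := (c4.p_le g4).trans pt117.2.2.2
  have q3 := pt134.2.2.1.trans (c4.p_ge h4)
  rcases le_total 0.67 s3 with h | h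
  · linarith [c3.T2 h h3, c1.G1, c1.G2, c1.G3, c2.G1, c2.G2, c2.G3]
  · linarith [c3.p_ge h, pt067.2.2.1, c1.G1, c1.G2, c1.G3, c2.G1, c2.G2, c2.G3]

lemma partC (c1 : Cel s1 p1 k1 t1) (c2 : Cel s2 p2 k2 t2) (c3 : Cel s3 p3 k3 t3)
    (c4 : Cel s4 p4 k4 t4) (c5 : Cel s5 p5 k5 t5) (o1 : p2 ≤ p1) (o2 : p3 ≤ p2) (o3 : p4 ≤ p3)
    {ε η : ℝ} (hε0 : 0 ≤ ε)
    (hsum : p1 + p2 + p3 + p4 + p5 + ε = 1) (hF : 0.358098 ≤ t1 + t2 + t3 + t4 + t5 + η)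
    (hs4 : s4 ≤ 1.34) (hs5 : 1.65 ≤ s5) (m20 : η ≤ 2 * p5 * ε)
    (m18 : 0.0155 ≤ p5 → η ≤ 1.8 * p5 * ε) {a12 a13 a14 a23 a24 a34 w1 w2 w3 w4 : ℝ}
    (h12 : 0 ≤ a12) (h13 : 0 ≤ a13) (h14 : 0 ≤ a14) (h23 : 0 ≤ a23) (h24 : 0 ≤ a24)
    (h34 : 0 ≤ a34) (hw1 : 0 ≤ w1) (hw2 : 0 ≤ w2) (hw3 : 0 ≤ w3) (hw4 : 0 ≤ w4)
    (e1 : t1 = a12 + a13 + a14 + w1) (e2 : t2 = a12 + a23 + a24 + w2)
    (e3 : t3 = a13 + a23 + a34 + w3) (e4 : t4 = a14 + a24 + a34 + w4)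
    (hw : w1 + w2 + w3 + w4 ≤ t5 + η)
    (g13 : t1 + t3 - 2 * a13 ≤ 0.159155) (g14 : t1 + t4 - 2 * a14 ≤ 0.159155)
    (g23 : t2 + t3 - 2 * a23 ≤ 0.159155) (g24 : t2 + t4 - 2 * a24 ≤ 0.159155)
    (hcap : ∀ e, 0 < e →
      e ^ 2 ≤ a12 * (a13 + a14) + a12 * (a23 + a24) + (a13 + a14) * (a23 + a24) →
      1 ≤ (1 - 2 * p5) ^ 2 * (1 + (25 * t5 + η) / (2 * π * e))) : False := by
  have hp5 : p5 ≤ 0.0494715 := (c5.p_le hs5).trans pt165.2.2.2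
  have hp0 := c5.p_pos
  have hp40 := c4.p_pos
  have g4 : 0.67 ≤ s4 := c4.s_ge_067 (by linarith)
  have l34 := c3.s_mono c4 o3
  obtain ⟨β, hβ0, hb1, hb2, hsl, hcase⟩ : ∃ β : ℝ, 0 ≤ β ∧ t5 ≤ β * p5 * p5 ∧
      η ≤ β * p5 * ε ∧ β * p5 ≤ 0.0891 ∧ ((β = 2 ∧ p5 ≤ 0.0155) ∨ β = 1.8) := by
    rcases le_total p5 0.0155 with h | h
    · exact ⟨2, by norm_num, c5.m20 le_rfl, m20, by linarith, Or.inl ⟨rfl, h⟩⟩
    · exact ⟨1.8, by norm_num, c5.m18 le_rfl h, m18 h, by linarith, Or.inr rfl⟩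
  have hη : t5 + η ≤ 0.0891 * (p5 + ε) := by
    linarith [mul_le_mul_of_nonneg_right hsl hp0.le, mul_le_mul_of_nonneg_right hsl hε0]
  have hW : ∀ E, p5 + ε ≤ E → 25 * t5 + η ≤ p5 * (β * (24 * p5 + E)) := by
    intro E hE
    have : β * p5 * ε ≤ β * p5 * (E - p5) :=
      mul_le_mul_of_nonneg_left (by linarith) (mul_nonneg hβ0 hp0.le)
    linarith
  have generic : p5 + ε ≤ 0.028 → False := by
    intro hε
    have q4 := c4.T7 g4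
    have hh := heron (A := 0.1017) (ρ := 0.0372) h12 (add_nonneg h13 h14) (add_nonneg h23 h24)
      (by linarith [c3.G1]) (by linarith [c2.G1, c3.G1])
      (by linarith [c1.G2, c1.G3, c3.G1]) (by linarith) (by norm_num) (by norm_num)
    have hc := hcap 0.0489 (by norm_num) (by linarith)
    have hW' := hW 0.028 hε
    rcases hcase with ⟨rfl, h⟩ | rfl
    · exact cap_contra (a := 156.3) (b := 0.1823) hp0 h (by norm_num) (by norm_num) (by norm_num)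
        (by norm_num) (by norm_num) hW' (by norm_num) (by norm_num) (by norm_num) hc
    · exact cap_contra (a := 140.61) (b := 0.1641) (P := 0.028) hp0 (by linarith) (by norm_num)
        (by norm_num) (by norm_num)
        (by norm_num) (by norm_num) hW' (by norm_num) (by norm_num) (by norm_num) hc
  rcases le_total 0.86 s3 with h3 | h3
  · apply generic
    linarith [c1.G1, c2.G1, c3.T6 h3 (by linarith), c4.T6 (by linarith) (by linarith)]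
  have h2 : s2 ≤ 0.86 := (c2.s_mono c3 o2).trans h3
  have h1 : s1 ≤ 0.86 := (c1.s_mono c2 o1).trans h2
  rcases le_total s4 1.17 with h4 | h4
  · apply generic
    linarith [c1.T1 h1, c2.T1 h2, c3.T1 h3, c4.T4' g4 h4]
  have hε : p5 + ε ≤ 0.0442 := by linarith [c1.T1 h1, c2.T1 h2, c3.T1 h3, c4.T4 g4 hs4]
  have r3 := rhoC c1 c2 c3 c4 h3 h4 hs4 (ε := p5 + ε) (η := t5 + η) (by linarith) (by linarith)
    hη (by linarith)
  have r2 := rhoC c1 c3 c2 c4 h2 h4 hs4 (ε := p5 + ε) (η := t5 + η) (by linarith) (by linarith)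
    hη (by linarith)
  have r1 := rhoC c3 c2 c1 c4 h1 h4 hs4 (ε := p5 + ε) (η := t5 + η) (by linarith) (by linarith)
    hη (by linarith)
  have q1 := c4.T9 h4 hs4
  have q2 := (c4.p_le h4).trans pt117.2.2.2
  have hh := heron (A := 0.1514) (ρ := 0.0488) h12 (add_nonneg h13 h14) (add_nonneg h23 h24)
    (by linarith) (by linarith) (by linarith) (by linarith) (by norm_num) (by norm_num)
  have hc := hcap 0.0707 (by norm_num) (by linarith)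
  have hW' := hW 0.0442 hε
  rcases hcase with ⟨rfl, h⟩ | rfl
  · exact cap_contra (a := 108.1) (b := 0.1991) hp0 h (by norm_num) (by norm_num) (by norm_num)
      (by norm_num) (by norm_num) hW' (by norm_num) (by norm_num) (by norm_num) hc
  · exact cap_contra (a := 97.26) (b := 0.1792) (P := 0.0442) hp0 (by linarith) (by norm_num)
      (by norm_num) (by norm_num)
      (by norm_num) (by norm_num) hW' (by norm_num) (by norm_num) (by norm_num) hc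

end Vale.Agent.P226
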