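import Vale.Agent.P226.Arith

open Real

namespace Vale.Agent.P226

lemma Cel.ranges {s p k t y : ℝ} (c : Cel s p k t) (h43 : t ≤ 2 * k - 3.7233 * k ^ 2)
    (hs : s ≤ 1.34) (hy : y ≤ 4 / 3 * k) :
    (0.3445782 ≤ p) ∨
    (0.2514288 ≤ p ∧ p ≤ 0.3445783 ∧ t ≤ -0.0620206 + 0.5985825 * p ∧
      y ≤ -0.0691530 + 0.5290667 * p) ∨
    (0.1948945 ≤ p ∧ p ≤ 0.2514289 ∧ t ≤ -0.0502971 + 0.5482632 * p ∧
      y ≤ -0.0436444 + 0.4276000 * p) ∨
    (0.1210004 ≤ p ∧ p ≤ 0.1948946 ∧ t ≤ -0.0298828 + 0.4433910 * p ∧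
      y ≤ -0.0227992 + 0.3206667 * p) ∨
    (0.0901226 ≤ p ∧ p ≤ 0.1210005 ∧ t ≤ -0.0159551 + 0.3260939 * p ∧
      y ≤ -0.0112136 + 0.2249334 * p) := by
  have lin : ∀ k0 : ℝ, t ≤ (2 - 2 * 3.7233 * k0) * k + 3.7233 * k0 ^ 2 := fun k0 => by
    nlinarith [sq_nonneg (k - k0)]
  have hp := c.p_pos
  rcases le_total s 0.4 with h1 | h1
  · exact Or.inl (pt040.2.2.1.trans (c.p_ge h1))
  rcases le_total s 0.67 with h2 | h2
  · have := c.ch_040_067 h1 h2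
    exact Or.inr (Or.inl ⟨pt067.2.2.1.trans (c.p_ge h2), (c.p_le h1).trans pt040.2.2.2,
      by linarith [lin 0.066], by linarith⟩)
  rcases le_total s 0.86 with h3 | h3
  · have := c.ch_067_086 h2 h3
    exact Or.inr (Or.inr (Or.inl ⟨pt086.2.2.1.trans (c.p_ge h3), (c.p_le h2).trans pt067.2.2.2,
      by linarith [lin 0.039], by linarith⟩))
  rcases le_total s 1.17 with h4 | h4
  · have := c.ch_086_117 h3 h4
    exact Or.inr (Or.inr (Or.inr (Or.inl ⟨pt117.2.2.1.trans (c.p_ge h4),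
      (c.p_le h3).trans pt086.2.2.2, by linarith [lin 0.021], by linarith⟩)))
  · have := c.ch_117_134 h4 hs
    exact Or.inr (Or.inr (Or.inr (Or.inr ⟨pt134.2.2.1.trans (c.p_ge hs),
      (c.p_le h4).trans pt117.2.2.2, by linarith [lin 0.009], by linarith⟩)))

variable {s1 s2 s3 s4 p1 p2 p3 p4 k1 k2 k3 k4 t1 t2 t3 t4 : ℝ}

set_option maxHeartbeats 4000000 in
lemma partB (c1 : Cel s1 p1 k1 t1) (c2 : Cel s2 p2 k2 t2) (c3 : Cel s3 p3 k3 t3)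
    (c4 : Cel s4 p4 k4 t4) (o1 : p2 ≤ p1) (o2 : p3 ≤ p2) (o3 : p4 ≤ p3)
    (d1 : t1 ≤ 2 * k1 - 3.7233 * k1 ^ 2) (d2 : t2 ≤ 2 * k2 - 3.7233 * k2 ^ 2)
    (d3 : t3 ≤ 2 * k3 - 3.7233 * k3 ^ 2) (d4 : t4 ≤ 2 * k4 - 3.7233 * k4 ^ 2) {F : ℝ}
    (hsum : p1 + p2 + p3 + p4 = 1) (hFe : F = t1 + t2 + t3 + t4) (hF : 0.358098 ≤ F)
    (hs4 : s4 ≤ 1.34)
    (f1 : 0.4005438 * F + 0.7775553 * t1 - 0.1954749 * t4 - 0.1376351 ≤ 4 / 3 * k1)
    (f2 : 0.4005438 * F + 0.7775553 * t2 - 0.1954749 * t4 - 0.1376351 ≤ 4 / 3 * k2)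
    (f3 : 0.4005438 * F + 0.7775553 * t3 - 0.1954749 * t4 - 0.1376351 ≤ 4 / 3 * k3) : False := by
  have hs3 : s3 ≤ 1.34 := (c3.s_mono c4 o3).trans hs4
  have hs2 : s2 ≤ 1.34 := (c2.s_mono c3 o2).trans hs3
  have hs1 : s1 ≤ 1.34 := (c1.s_mono c2 o1).trans hs2
  have r1 := c1.ranges d1 hs1 f1
  have r2 := c2.ranges d2 hs2 f2
  have r3 := c3.ranges d3 hs3 f3
  have r4 := c4.ranges d4 hs4 le_rfl
  have g11 := c1.G1
  have g13 := c1.G3
  have g21 := c2.G1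
  have g23 := c2.G3
  have g31 := c3.G1
  have g33 := c3.G3
  clear c1 c2 c3 c4 d1 d2 d3 d4 hs1 hs2 hs3 hs4 f1 f2 f3
  rcases r4 with r4 | r4 | r4 | r4 | r4
  · linarith only [r4, o1, o2, o3, hsum]
  · linarith only [r4.1, o1, o2, o3, hsum]
  all_goals
    obtain ⟨r41, r42, r43, -⟩ := r4
    rcases r3 with r3 | ⟨r31, r32, r33, r34⟩ | ⟨r31, r32, r33, r34⟩ | ⟨r31, r32, r33, r34⟩ |
      ⟨r31, r32, r33, r34⟩
    · linarith only [r3, r41, o1, o2, hsum]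
    all_goals first
      | linarith only [r32, r41, o3]
      | (rcases r2 with r2 | ⟨r21, r22, r23, r24⟩ | ⟨r21, r22, r23, r24⟩ | ⟨r21, r22, r23, r24⟩ |
          ⟨r21, r22, r23, r24⟩
         · rcases r1 with r1 | ⟨r11, r12, r13, r14⟩ | ⟨r11, r12, r13, r14⟩ | ⟨r11, r12, r13, r14⟩ |
              ⟨r11, r12, r13, r14⟩
           · linarith
           · linarith
           all_goals linarith only [r2, r12, o1]
         all_goals first
          | linarith only [r22, r31, o2]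
          | (rcases r1 with r1 | ⟨r11, r12, r13, r14⟩ | ⟨r11, r12, r13, r14⟩ |
              ⟨r11, r12, r13, r14⟩ | ⟨r11, r12, r13, r14⟩
             · linarith
             all_goals first
              | linarith only [r12, r21, o1]
              | linarith only [r12, r22, r32, r42, hsum]
              | linarith))

end Vale.Agent.P226
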