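import Mathlib

open MeasureTheory ProbabilityTheory Set Real Filter Topology

namespace Vale.Agent.P226

/-- the standard normal density -/
noncomputable def phi (s : ℝ) : ℝ := exp (-s ^ 2 / 2) / √(2 * π)

/-- the standard normal distribution function -/
noncomputable def Phi (s : ℝ) : ℝ := ∫ x in Iic s, phi x

/-- the standard normal upper tail -/
noncomputable def Qt (s : ℝ) : ℝ := 1 - Phi s

/-- the integrated upper tail -/
noncomputable def psi (s : ℝ) : ℝ := phi s - s * Qt s

/-- the standard normal law on the line -/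
noncomputable abbrev g1 : Measure ℝ := gaussianReal 0 1

lemma sqrt_two_pi_pos : 0 < √(2 * π) := sqrt_pos.2 (by positivity)

lemma phi_pos (s : ℝ) : 0 < phi s := div_pos (exp_pos _) sqrt_two_pi_pos

lemma phi_neg (s : ℝ) : phi (-s) = phi s := by simp [phi]

lemma phi_eq_pdf (s : ℝ) : phi s = gaussianPDFReal 0 1 s := by
  simp [phi, gaussianPDFReal, div_eq_inv_mul]

lemma phi_zero : phi 0 = 1 / √(2 * π) := by simp [phi]

lemma phi_le (s : ℝ) : phi s ≤ 1 / √(2 * π) := by
  unfold phi
  apply div_le_div_of_nonneg_right _ sqrt_two_pi_pos.le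
  apply exp_le_one_iff.2
  nlinarith [sq_nonneg s]

lemma continuous_phi : Continuous phi := by unfold phi; fun_prop

lemma hasDerivAt_phi (s : ℝ) : HasDerivAt phi (-s * phi s) s := by
  unfold phi
  have h1 : HasDerivAt (fun s : ℝ => -s ^ 2 / 2) (-s) s := by
    have := ((hasDerivAt_pow 2 s).fun_neg).div_const 2
    refine this.congr_deriv ?_
    simp; ring
  have h2 := (h1.exp).div_const (√(2 * π))
  refine h2.congr_deriv ?_
  ring

lemma integrable_phi : Integrable phi := by
  have : phi = gaussianPDFReal 0 1 := funext phi_eq_pdf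
  rw [this]; exact integrable_gaussianPDFReal 0 1

lemma integral_phi : ∫ x, phi x = 1 := by
  have : phi = gaussianPDFReal 0 1 := funext phi_eq_pdf
  rw [this]; exact integral_gaussianPDFReal_eq_one 0 one_ne_zero

lemma g1_eq : g1 = volume.withDensity (fun x => ENNReal.ofReal (phi x)) := by
  rw [g1, gaussianReal_of_var_ne_zero 0 one_ne_zero]
  congr 1
  ext x
  simp [gaussianPDF, phi_eq_pdf]

instance nullSingleton_g1 : NullSingletonClass g1 := nullSingletonClass_gaussianReal one_ne_zero

lemma g1_real (s : Set ℝ) : g1.real s = ∫ x in s, phi x := by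
  rw [Measure.real, g1, gaussianReal_apply_eq_integral 0 one_ne_zero, ENNReal.toReal_ofReal]
  · simp [phi_eq_pdf]
  · exact integral_nonneg fun x => gaussianPDFReal_nonneg _ _ _

lemma integral_g1 (f : ℝ → ℝ) : ∫ x, f x ∂g1 = ∫ x, phi x * f x := by
  rw [g1, integral_gaussianReal_eq_integral_smul one_ne_zero]
  simp [phi_eq_pdf]

lemma g1_Iic (s : ℝ) : g1.real (Iic s) = Phi s := g1_real _

lemma g1_Iio (s : ℝ) : g1.real (Iio s) = Phi s := by
  rw [← g1_Iic, measureReal_congr Iio_ae_eq_Iic]

lemma g1_Ioi (s : ℝ) : g1.real (Ioi s) = Qt s := by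
  rw [Qt, ← g1_Iic, ← compl_Iic, probReal_compl_eq_one_sub measurableSet_Iic]

lemma g1_Ici (s : ℝ) : g1.real (Ici s) = Qt s := by
  rw [← g1_Ioi, measureReal_congr Ioi_ae_eq_Ici]

lemma Phi_sub_Phi (a b : ℝ) : Phi b - Phi a = ∫ x in a..b, phi x :=
  intervalIntegral.integral_Iic_sub_Iic integrable_phi.integrableOn integrable_phi.integrableOn

lemma g1_Ioc {a b : ℝ} (h : a ≤ b) : g1.real (Ioc a b) = Phi b - Phi a := by
  rw [Phi_sub_Phi, intervalIntegral.integral_of_le h, g1_real]

lemma g1_Icc {a b : ℝ} (h : a ≤ b) : g1.real (Icc a b) = Phi b - Phi a := by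
  rw [← g1_Ioc h, measureReal_congr Ioc_ae_eq_Icc]

lemma g1_Ioo {a b : ℝ} (h : a ≤ b) : g1.real (Ioo a b) = Phi b - Phi a := by
  rw [← g1_Ioc h, measureReal_congr Ioo_ae_eq_Ioc]

lemma hasDerivAt_Phi (s : ℝ) : HasDerivAt Phi (phi s) s := by
  have h : Phi = fun t => Phi 0 + ∫ x in (0 : ℝ)..t, phi x := by
    ext t; rw [← Phi_sub_Phi]; ring
  rw [h]
  exact (intervalIntegral.integral_hasDerivAt_right (continuous_phi.intervalIntegrable _ _)
    continuous_phi.measurable.stronglyMeasurable.stronglyMeasurableAtFilter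
    continuous_phi.continuousAt).const_add _

lemma continuous_Phi : Continuous Phi :=
  continuous_iff_continuousAt.2 fun s => (hasDerivAt_Phi s).continuousAt

lemma strictMono_Phi : StrictMono Phi :=
  strictMono_of_deriv_pos fun s => by rw [(hasDerivAt_Phi s).deriv]; exact phi_pos s

lemma hasDerivAt_Qt (s : ℝ) : HasDerivAt Qt (-phi s) s := by
  unfold Qt
  simpa using (hasDerivAt_Phi s).const_sub 1

lemma continuous_Qt : Continuous Qt :=
  continuous_iff_continuousAt.2 fun s => (hasDerivAt_Qt s).continuousAt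

lemma strictAnti_Qt : StrictAnti Qt := fun a b h => by
  unfold Qt; linarith [strictMono_Phi h]

lemma Qt_eq_integral (s : ℝ) : Qt s = ∫ x in Ioi s, phi x := by rw [← g1_Ioi, g1_real]

lemma Phi_neg (s : ℝ) : Phi (-s) = Qt s := by
  rw [Qt_eq_integral, Phi, ← integral_comp_neg_Ioi]
  simp [phi_neg]

lemma Qt_neg (s : ℝ) : Qt (-s) = Phi s := by rw [← Phi_neg, neg_neg]

lemma Phi_zero : Phi 0 = 1 / 2 := by
  have h := Phi_neg 0
  rw [neg_zero, Qt] at h
  linarith

lemma Qt_zero : Qt 0 = 1 / 2 := by rw [Qt, Phi_zero]; norm_num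

lemma tendsto_Phi_atTop : Tendsto Phi atTop (𝓝 1) := by
  have := (aecover_Iic (μ := (volume : Measure ℝ)) (l := atTop) (b := fun x : ℝ => x)
    tendsto_id).integral_tendsto_of_countably_generated integrable_phi
  rw [integral_phi] at this
  exact this

lemma tendsto_Qt_atTop : Tendsto Qt atTop (𝓝 0) := by
  have := tendsto_Phi_atTop.const_sub 1
  rw [sub_self] at this
  exact this

lemma tendsto_Phi_atBot : Tendsto Phi atBot (𝓝 0) := by
  have := tendsto_Qt_atTop.comp tendsto_neg_atBot_atTop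
  refine this.congr fun s => ?_
  simp [Qt_neg]

lemma Phi_nonneg (s : ℝ) : 0 ≤ Phi s := by rw [← g1_Iic]; exact measureReal_nonneg

lemma Qt_nonneg (s : ℝ) : 0 ≤ Qt s := by rw [← g1_Ioi]; exact measureReal_nonneg

lemma Phi_pos (s : ℝ) : 0 < Phi s :=
  lt_of_le_of_lt (Phi_nonneg (s - 1)) (strictMono_Phi (by linarith))

lemma Qt_pos (s : ℝ) : 0 < Qt s := by rw [← Phi_neg]; exact Phi_pos _

lemma Phi_lt_one (s : ℝ) : Phi s < 1 := by
  have := Qt_pos s
  unfold Qt at this; linarith

lemma Qt_lt_one (s : ℝ) : Qt s < 1 := by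
  have := Phi_pos s
  unfold Qt; linarith

lemma exists_Phi_eq {p : ℝ} (h0 : 0 < p) (h1 : p < 1) : ∃ s, Phi s = p := by
  obtain ⟨a, ha⟩ := (tendsto_Phi_atBot.eventually (gt_mem_nhds h0)).exists
  obtain ⟨b, hb⟩ := (tendsto_Phi_atTop.eventually (lt_mem_nhds h1)).exists
  exact intermediate_value_univ a b continuous_Phi ⟨ha.le, hb.le⟩

lemma exists_Qt_eq {p : ℝ} (h0 : 0 < p) (h1 : p < 1) : ∃ s, Qt s = p := by
  obtain ⟨s, hs⟩ := exists_Phi_eq h0 h1
  exact ⟨-s, by rw [Qt_neg, hs]⟩

lemma tendsto_phi_atTop : Tendsto phi atTop (𝓝 0) := by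
  have h : Tendsto (fun s : ℝ => -s ^ 2 / 2) atTop atBot := by
    have h1 : Tendsto (fun s : ℝ => s ^ 2) atTop atTop := tendsto_pow_atTop two_ne_zero
    exact (tendsto_neg_atTop_atBot.comp h1).atBot_div_const (by norm_num)
  have := (tendsto_exp_atBot.comp h).div_const (√(2 * π))
  rw [zero_div] at this
  exact this

lemma integrable_id_mul_phi : Integrable (fun x => x * phi x) := by
  have h : Integrable (fun x : ℝ => x) g1 := IsGaussian.integrable_id
  rw [g1_eq, integrable_withDensity_iff_integrable_smul' (by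
    exact (continuous_phi.measurable.ennreal_ofReal)) (by simp)] at h
  refine h.congr (Eventually.of_forall fun x => ?_)
  simp [ENNReal.toReal_ofReal (phi_pos x).le, mul_comm]

lemma integral_Ioi_mul_phi (s : ℝ) : ∫ x in Ioi s, x * phi x = phi s := by
  have := integral_Ioi_of_hasDerivAt_of_tendsto' (f := fun x => -phi x) (f' := fun x => x * phi x)
    (a := s) (m := 0) (fun x _ => by simpa using (hasDerivAt_phi x).fun_neg)
    integrable_id_mul_phi.integrableOn (by simpa using tendsto_phi_atTop.neg)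
  simpa using this

lemma hasDerivAt_psi (s : ℝ) : HasDerivAt psi (-Qt s) s := by
  unfold psi
  have := (hasDerivAt_phi s).fun_sub ((hasDerivAt_id' s).fun_mul (hasDerivAt_Qt s))
  refine this.congr_deriv ?_
  ring

lemma psi_eq_integral (s : ℝ) : psi s = ∫ x in Ioi s, (x - s) * phi x := by
  simp_rw [sub_mul]
  rw [integral_sub integrable_id_mul_phi.integrableOn
    (integrable_phi.const_mul s).integrableOn, integral_Ioi_mul_phi, integral_const_mul,
    ← Qt_eq_integral, psi]

lemma psi_nonneg (s : ℝ) : 0 ≤ psi s := by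
  rw [psi_eq_integral]
  exact setIntegral_nonneg measurableSet_Ioi fun x hx =>
    mul_nonneg (sub_nonneg.2 (le_of_lt hx)) (phi_pos x).le

lemma tendsto_psi_atTop : Tendsto psi atTop (𝓝 0) := by
  refine tendsto_of_tendsto_of_tendsto_of_le_of_le' tendsto_const_nhds tendsto_phi_atTop
    (Eventually.of_forall psi_nonneg) ?_
  filter_upwards [eventually_ge_atTop 0] with s hs
  have := mul_nonneg hs (Qt_nonneg s)
  unfold psi; linarith

lemma integrableOn_Qt_Ioi (s : ℝ) : IntegrableOn Qt (Ioi s) := by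
  have := integrableOn_Ioi_deriv_of_nonneg' (g := fun x => -psi x) (g' := Qt) (a := s) (l := 0)
    (fun x _ => by simpa using (hasDerivAt_psi x).fun_neg) (fun x _ => Qt_nonneg x)
    (by simpa using tendsto_psi_atTop.neg)
  exact this

lemma integral_Ioi_Qt (s : ℝ) : ∫ x in Ioi s, Qt x = psi s := by
  have := integral_Ioi_of_hasDerivAt_of_tendsto' (f := fun x => -psi x) (f' := Qt)
    (a := s) (m := 0) (fun x _ => by simpa using (hasDerivAt_psi x).fun_neg)
    (integrableOn_Qt_Ioi s) (by simpa using tendsto_psi_atTop.neg)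
  simpa using this

end Vale.Agent.P226
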