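import Vale.Agent.P226.Basic

open MeasureTheory ProbabilityTheory Set Real Filter Topology

namespace Vale.Agent.P226

lemma cap_prod_g1_eq : g1.prod g1 =
    (volume : Measure (ℝ × ℝ)).withDensity (fun z => ENNReal.ofReal (phi z.1 * phi z.2)) := by
  have hm : Measurable fun x => ENNReal.ofReal (phi x) := continuous_phi.measurable.ennreal_ofReal
  rw [g1_eq, prod_withDensity hm hm, Measure.volume_eq_prod]
  congr 1
  ext z
  rw [ENNReal.ofReal_mul (phi_pos _).le]

lemma cap_phi_mul (x y : ℝ) : phi x * phi y = exp (-(x ^ 2 + y ^ 2) / 2) / (2 * π) := by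
  unfold phi
  rw [div_mul_div_comm, ← exp_add, mul_self_sqrt (by positivity)]
  congr 2
  ring

lemma cap_integrable_rho : Integrable (fun z : ℝ × ℝ => phi z.1 * phi z.2) := by
  rw [Measure.volume_eq_prod]
  exact integrable_phi.mul_prod integrable_phi

lemma cap_radial (R : ℝ) (hR : 0 ≤ R) :
    ∫ r in Ioi (0 : ℝ), r * max (exp (-r ^ 2 / 2) / (2 * π) - exp (-R ^ 2 / 2) / (2 * π)) 0 =
      (1 - exp (-R ^ 2 / 2)) / (2 * π) - exp (-R ^ 2 / 2) / (2 * π) * (R ^ 2 / 2) := by
  set lam := exp (-R ^ 2 / 2) / (2 * π) with hlam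
  have h1 : ∫ r in Ioi (0 : ℝ), r * max (exp (-r ^ 2 / 2) / (2 * π) - lam) 0 =
      ∫ r in Ioc (0 : ℝ) R, r * max (exp (-r ^ 2 / 2) / (2 * π) - lam) 0 := by
    refine setIntegral_eq_of_subset_of_forall_sdiff_eq_zero measurableSet_Ioi Ioc_subset_Ioi_self ?_
    rintro r ⟨h0, h1⟩
    have h2 : R < r := by
      by_contra h
      exact h1 ⟨h0, not_lt.1 h⟩
    have h3 : exp (-r ^ 2 / 2) ≤ exp (-R ^ 2 / 2) := exp_le_exp.2 (by nlinarith)
    have h4 : exp (-r ^ 2 / 2) / (2 * π) ≤ lam :=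
      div_le_div_of_nonneg_right h3 (by positivity)
    rw [max_eq_right (by linarith), mul_zero]
  have h2 : ∫ r in Ioc (0 : ℝ) R, r * max (exp (-r ^ 2 / 2) / (2 * π) - lam) 0 =
      ∫ r in Ioc (0 : ℝ) R, r * (exp (-r ^ 2 / 2) / (2 * π) - lam) := by
    refine setIntegral_congr_fun measurableSet_Ioc fun r hr => ?_
    have h3 : exp (-R ^ 2 / 2) ≤ exp (-r ^ 2 / 2) := exp_le_exp.2 (by nlinarith [hr.1, hr.2])
    have h4 : lam ≤ exp (-r ^ 2 / 2) / (2 * π) :=
      div_le_div_of_nonneg_right h3 (by positivity)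
    rw [max_eq_left (by linarith)]
  rw [h1, h2, ← intervalIntegral.integral_of_le hR]
  have h3 : ∀ r ∈ uIcc (0 : ℝ) R, HasDerivAt
      (fun r : ℝ => -exp (-r ^ 2 / 2) / (2 * π) - lam * (r ^ 2 / 2))
      (r * (exp (-r ^ 2 / 2) / (2 * π) - lam)) r := by
    intro r _
    have a1 : HasDerivAt (fun s : ℝ => -s ^ 2 / 2) (-r) r := by
      have := ((hasDerivAt_pow 2 r).fun_neg).div_const 2
      refine this.congr_deriv ?_
      simp; ring
    have a2 : HasDerivAt (fun s : ℝ => s ^ 2 / 2) r r := by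
      have := (hasDerivAt_pow 2 r).div_const 2
      refine this.congr_deriv ?_
      simp
    have := ((a1.exp.fun_neg).div_const (2 * π)).fun_sub (a2.const_mul lam)
    refine this.congr_deriv ?_
    ring
  rw [intervalIntegral.integral_eq_sub_of_hasDerivAt h3
    (Continuous.intervalIntegrable (by fun_prop) _ _)]
  simp
  ring

theorem prod_g1_le_of_volume (T : Set (ℝ × ℝ)) (hT : MeasurableSet T) {a : ℝ} (ha : 0 ≤ a)
    (hv : volume T ≤ ENNReal.ofReal a) : (g1.prod g1).real T ≤ 1 - exp (-a / (2 * π)) := by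
  set R := √(a / π) with hR
  have hR2 : R ^ 2 = a / π := sq_sqrt (by positivity)
  set lam := exp (-R ^ 2 / 2) / (2 * π) with hlam
  have hlam0 : 0 ≤ lam := by positivity
  have hfin : volume T ≠ ⊤ := ne_top_of_le_ne_top ENNReal.ofReal_ne_top hv
  have h0 : ∀ z : ℝ × ℝ, 0 ≤ phi z.1 * phi z.2 := fun z => (mul_pos (phi_pos _) (phi_pos _)).le
  have h1 : (g1.prod g1).real T = ∫ z in T, phi z.1 * phi z.2 := by
    rw [Measure.real, cap_prod_g1_eq, withDensity_apply _ hT,
      ← ofReal_integral_eq_lintegral_ofReal cap_integrable_rho.integrableOn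
        (Eventually.of_forall h0), ENNReal.toReal_ofReal (integral_nonneg h0)]
  have hint : Integrable (fun z : ℝ × ℝ => max (phi z.1 * phi z.2 - lam) 0) := by
    refine cap_integrable_rho.mono' ?_ (Eventually.of_forall fun z => ?_)
    · have := continuous_phi
      exact Continuous.aestronglyMeasurable (by fun_prop)
    · rw [Real.norm_of_nonneg (le_max_right _ _)]
      exact max_le (by linarith) (h0 z)
  have hc : IntegrableOn (fun _ : ℝ × ℝ => lam) T := integrableOn_const hfin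
  have h2 : ∫ z in T, phi z.1 * phi z.2 ≤ ∫ z in T, (lam + max (phi z.1 * phi z.2 - lam) 0) :=
    setIntegral_mono cap_integrable_rho.integrableOn (hc.add hint.integrableOn) fun z => by
      have := le_max_left (phi z.1 * phi z.2 - lam) 0
      simp only
      linarith
  rw [integral_add hc hint.integrableOn, setIntegral_const, smul_eq_mul] at h2
  have h3 : ∫ z in T, max (phi z.1 * phi z.2 - lam) 0 ≤
      ∫ z : ℝ × ℝ, max (phi z.1 * phi z.2 - lam) 0 :=
    setIntegral_le_integral hint (Eventually.of_forall fun z => le_max_right _ _)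
  have h4 : volume.real T ≤ a := ENNReal.toReal_le_of_le_ofReal ha hv
  have h5 : ∫ z : ℝ × ℝ, max (phi z.1 * phi z.2 - lam) 0 =
      ((1 - exp (-R ^ 2 / 2)) / (2 * π) - lam * (R ^ 2 / 2)) * (2 * π) := by
    rw [← integral_comp_polarCoord_symm]
    have e : ∀ p : ℝ × ℝ, p.1 • max (phi (polarCoord.symm p).1 * phi (polarCoord.symm p).2 - lam) 0
        = (p.1 * max (exp (-p.1 ^ 2 / 2) / (2 * π) - lam) 0) * (1 : ℝ) := by
      intro p
      rw [cap_phi_mul, polarCoord_symm_apply, smul_eq_mul, mul_one]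
      simp only
      rw [show (p.1 * cos p.2) ^ 2 + (p.1 * sin p.2) ^ 2 = p.1 ^ 2 by
        rw [mul_pow, mul_pow, ← mul_add, cos_sq_add_sin_sq, mul_one]]
    simp only [e]
    rw [polarCoord_target, Measure.volume_eq_prod,
      setIntegral_prod_mul (fun r : ℝ => r * max (exp (-r ^ 2 / 2) / (2 * π) - lam) 0)
        (fun _ : ℝ => (1 : ℝ)), cap_radial R (sqrt_nonneg _)]
    congr 1
    simp only [integral_const, MeasurableSet.univ, measureReal_restrict_apply, univ_inter,
      volume_real_Ioo, smul_eq_mul, mul_one]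
    rw [max_eq_left (by linarith [pi_pos])]
    ring
  have h6 : ((1 - exp (-R ^ 2 / 2)) / (2 * π) - lam * (R ^ 2 / 2)) * (2 * π) =
      1 - exp (-a / (2 * π)) - lam * a := by
    rw [hR2, show -(a / π) / 2 = -a / (2 * π) by ring]
    field_simp
  have h7 := mul_le_mul_of_nonneg_right h4 hlam0
  linarith

lemma cap_charFunDual_g1 (L : StrongDual ℝ ℝ) :
    charFunDual g1 L = Complex.exp (-((L 1 : ℝ) : ℂ) ^ 2 / 2) := by
  have h : charFunDual g1 L = charFun g1 (L 1) := by
    rw [charFunDual_apply, charFun_apply_real]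
    congr 1
    ext x
    have : L x = L 1 * x := by
      conv_lhs => rw [show x = x • (1 : ℝ) by simp, map_smul, smul_eq_mul, mul_comm]
    rw [this]; push_cast; rfl
  rw [h, g1, charFun_gaussianReal]
  congr 1
  simp [neg_div]

lemma cap_map3 {d : ℕ} (n e1 e2 : EuclideanSpace ℝ (Fin d)) (hn : ‖n‖ = 1) (h1 : ‖e1‖ = 1)
    (h2 : ‖e2‖ = 1) (hn1 : inner ℝ n e1 = 0) (hn2 : inner ℝ n e2 = 0) (h12 : inner ℝ e1 e2 = 0) :
    (stdGaussian (EuclideanSpace ℝ (Fin d))).map
      (fun x => (inner ℝ n x, (inner ℝ e1 x, inner ℝ e2 x))) = g1.prod (g1.prod g1) := by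
  let T : EuclideanSpace ℝ (Fin d) →L[ℝ] ℝ × ℝ × ℝ :=
    (innerSL ℝ n).prod ((innerSL ℝ e1).prod (innerSL ℝ e2))
  change (stdGaussian (EuclideanSpace ℝ (Fin d))).map T = _
  refine Measure.ext_of_charFunDual ?_
  ext L
  rw [charFunDual_map, charFunDual_stdGaussian, charFunDual_prod, charFunDual_prod,
    cap_charFunDual_g1, cap_charFunDual_g1, cap_charFunDual_g1, ← Complex.exp_add,
    ← Complex.exp_add]
  set a : ℝ := L (1, 0, 0) with ha
  set b : ℝ := L (0, 1, 0) with hb
  set c : ℝ := L (0, 0, 1) with hc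
  have e : L.comp T = innerSL ℝ (a • n + b • e1 + c • e2) := by
    ext x
    have : T x = (inner ℝ n x) • ((1, 0, 0) : ℝ × ℝ × ℝ) + (inner ℝ e1 x) • (0, 1, 0) +
        (inner ℝ e2 x) • (0, 0, 1) := by
      simp [T]
    rw [ContinuousLinearMap.comp_apply, this, map_add, map_add, map_smul, map_smul, map_smul]
    simp only [innerSL_apply_apply, inner_add_left, real_inner_smul_left, smul_eq_mul]
    ring
  have e2' : ‖a • n + b • e1 + c • e2‖ ^ 2 = a ^ 2 + b ^ 2 + c ^ 2 := by
    rw [← real_inner_self_eq_norm_sq]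
    have k0 : inner ℝ n n = (1 : ℝ) := by rw [real_inner_self_eq_norm_sq, hn]; norm_num
    have k1 : inner ℝ e1 e1 = (1 : ℝ) := by rw [real_inner_self_eq_norm_sq, h1]; norm_num
    have k2 : inner ℝ e2 e2 = (1 : ℝ) := by rw [real_inner_self_eq_norm_sq, h2]; norm_num
    simp only [inner_add_left, inner_add_right, real_inner_smul_left, real_inner_smul_right,
      k0, k1, k2, hn1, hn2, h12, real_inner_comm n e1,
      real_inner_comm n e2, real_inner_comm e1 e2]
    ring
  rw [e, innerSL_apply_norm]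
  congr 1
  rw [← Complex.ofReal_pow, e2']
  simp only [ContinuousLinearMap.comp_apply, ContinuousLinearMap.inl_apply,
    ContinuousLinearMap.inr_apply]
  rw [show ((1 : ℝ), (0 : ℝ × ℝ)) = (1, 0, 0) from rfl, ← ha, ← hb, ← hc]
  push_cast
  ring

lemma cap_area {l h m a1 a2 S : ℝ} (hl : 0 < l) (hh : 0 < h) (hS : 0 ≤ S) :
    volume {z : ℝ × ℝ | 0 < l * z.1 + a1 ∧ 0 < m * z.1 + h * z.2 + a2 ∧
      (l * z.1 + a1) + (m * z.1 + h * z.2 + a2) < S} ≤ ENNReal.ofReal (S ^ 2 / (2 * l * h)) := by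
  have hm : MeasurableSet {z : ℝ × ℝ | 0 < l * z.1 + a1 ∧ 0 < m * z.1 + h * z.2 + a2 ∧
      (l * z.1 + a1) + (m * z.1 + h * z.2 + a2) < S} := by
    refine (IsOpen.measurableSet ?_)
    refine IsOpen.and ?_ (IsOpen.and ?_ ?_) <;> exact isOpen_lt (by fun_prop) (by fun_prop)
  rw [Measure.volume_eq_prod, Measure.prod_apply hm]
  have hle : (-a1 / l) ≤ (S - a1) / l := div_le_div_of_nonneg_right (by linarith) hl.le
  calc _ ≤ ∫⁻ x, (Ioc (-a1 / l) ((S - a1) / l)).indicator
        (fun x => ENNReal.ofReal ((S - a1 - l * x) / h)) x := by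
        refine lintegral_mono fun x => ?_
        by_cases hx : x ∈ Ioc (-a1 / l) ((S - a1) / l)
        · rw [indicator_of_mem hx]
          refine (measure_mono (t := Ioo (-(m * x + a2) / h)
            ((S - (l * x + a1) - (m * x + a2)) / h)) ?_).trans (le_of_eq ?_)
          · rintro y ⟨_, h2, h3⟩
            simp only at h2 h3
            constructor
            · rw [div_lt_iff₀ hh]; linarith
            · rw [lt_div_iff₀ hh]; linarith
          · rw [Real.volume_Ioo]
            congr 1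
            ring
        · rw [indicator_of_notMem hx]
          refine le_of_eq (measure_mono_null (t := ∅) ?_ measure_empty)
          rintro y ⟨h1, h2, h3⟩
          simp only at h1 h2 h3
          refine hx ⟨?_, ?_⟩
          · rw [div_lt_iff₀ hl]; linarith
          · rw [le_div_iff₀ hl]; linarith
    _ = ENNReal.ofReal (∫ x in Ioc (-a1 / l) ((S - a1) / l), (S - a1 - l * x) / h) := by
        rw [lintegral_indicator measurableSet_Ioc, ofReal_integral_eq_lintegral_ofReal]
        · exact (Continuous.integrableOn_Ioc (by fun_prop))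
        · refine (ae_restrict_iff' measurableSet_Ioc).2 (Eventually.of_forall fun x hx => ?_)
          have := (le_div_iff₀ hl).1 hx.2
          exact div_nonneg (by linarith) hh.le
    _ = _ := by
        congr 1
        rw [← intervalIntegral.integral_of_le hle]
        have h3 : ∀ x ∈ uIcc (-a1 / l) ((S - a1) / l), HasDerivAt
            (fun x : ℝ => ((S - a1) * x - l * (x ^ 2 / 2)) / h) ((S - a1 - l * x) / h) x := by
          intro x _
          have a2 : HasDerivAt (fun s : ℝ => s ^ 2 / 2) x x := by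
            have := (hasDerivAt_pow 2 x).div_const 2
            refine this.congr_deriv ?_
            simp
          have := (((hasDerivAt_id' x).const_mul (S - a1)).fun_sub (a2.const_mul l)).div_const h
          refine this.congr_deriv ?_
          ring
        rw [intervalIntegral.integral_eq_sub_of_hasDerivAt h3
          (Continuous.intervalIntegrable (by fun_prop) _ _)]
        field_simp
        ring

lemma cap_integral {c : ℝ} (hc : 0 ≤ c) :
    ∫ x in Ioi (0 : ℝ), phi x * (1 - exp (-(c * x ^ 2))) = (1 - 1 / √(1 + 2 * c)) / 2 := by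
  have e : ∀ x, phi x * exp (-(c * x ^ 2)) = exp (-(1 / 2 + c) * x ^ 2) / √(2 * π) := by
    intro x
    unfold phi
    rw [div_mul_eq_mul_div, ← exp_add]
    congr 2
    ring
  have hi : Integrable fun x : ℝ => exp (-(1 / 2 + c) * x ^ 2) / √(2 * π) :=
    (integrable_exp_neg_mul_sq (by positivity)).div_const _
  simp only [mul_sub, mul_one, e]
  rw [integral_sub integrable_phi.integrableOn hi.integrableOn, ← Qt_eq_integral, Qt_zero,
    integral_div, integral_gaussian_Ioi]
  have h1 : √(π / (1 / 2 + c)) = √(2 * π) / √(1 + 2 * c) := by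
    rw [← sqrt_div (by positivity)]
    congr 1
    field_simp
  have h2 := sqrt_two_pi_pos
  rw [h1]
  field_simp

lemma cap_core {l h m d1 d2 ω W e : ℝ} (he : 0 < e) (hl : 0 < l) (hh : 0 < h) (hω : 0 < ω)
    (hlh : e ≤ l * h) (hW : ω ^ 2 ≤ W) :
    (g1.prod (g1.prod g1)).real {z : ℝ × ℝ × ℝ | 0 < l * z.2.1 + d1 * z.1 ∧
      0 < m * z.2.1 + h * z.2.2 + d2 * z.1 ∧
      (l * z.2.1 + d1 * z.1) + (m * z.2.1 + h * z.2.2 + d2 * z.1) < ω * z.1} ≤
      (1 - 1 / √(1 + W / (2 * π * e))) / 2 := by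
  have hW0 : 0 ≤ W := (sq_nonneg ω).trans hW
  set c := W / (4 * π * e) with hc
  have hc0 : 0 ≤ c := by positivity
  have hm : MeasurableSet {z : ℝ × ℝ × ℝ | 0 < l * z.2.1 + d1 * z.1 ∧
      0 < m * z.2.1 + h * z.2.2 + d2 * z.1 ∧
      (l * z.2.1 + d1 * z.1) + (m * z.2.1 + h * z.2.2 + d2 * z.1) < ω * z.1} := by
    refine (IsOpen.measurableSet ?_)
    refine IsOpen.and ?_ (IsOpen.and ?_ ?_) <;> exact isOpen_lt (by fun_prop) (by fun_prop)
  let F : ℝ → ℝ := (Ioi (0 : ℝ)).indicator fun x => 1 - exp (-(c * x ^ 2))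
  have hF0 : ∀ x, 0 ≤ F x := fun x => indicator_nonneg (fun x _ => by
    have : exp (-(c * x ^ 2)) ≤ 1 := exp_le_one_iff.2 (by nlinarith [sq_nonneg x])
    linarith) x
  have hFi : Integrable F g1 := by
    refine Integrable.indicator ?_ measurableSet_Ioi
    refine (integrable_const (1 : ℝ)).mono' (Continuous.aestronglyMeasurable (by fun_prop))
      (Eventually.of_forall fun x => ?_)
    have h1 : exp (-(c * x ^ 2)) ≤ 1 := exp_le_one_iff.2 (by nlinarith [sq_nonneg x])
    have h2 := exp_pos (-(c * x ^ 2))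
    rw [Real.norm_of_nonneg (by linarith)]
    linarith
  have hI : ∫ x, F x ∂g1 = (1 - 1 / √(1 + W / (2 * π * e))) / 2 := by
    rw [integral_g1, show W / (2 * π * e) = 2 * c by rw [hc]; field_simp; ring, ← cap_integral hc0,
      ← integral_indicator measurableSet_Ioi]
    congr 1
    ext x
    by_cases hx : x ∈ Ioi (0 : ℝ)
    · simp only [F, indicator_of_mem hx]
    · simp only [F, indicator_of_notMem hx, mul_zero]
  rw [← hI]
  refine ENNReal.toReal_le_of_le_ofReal (integral_nonneg hF0) ?_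
  rw [Measure.prod_apply hm, ofReal_integral_eq_lintegral_ofReal hFi (Eventually.of_forall hF0)]
  refine lintegral_mono fun ξ => ?_
  by_cases hx : ξ ∈ Ioi (0 : ℝ)
  · have hξ : 0 < ξ := hx
    have h1 := cap_area (m := m) (a1 := d1 * ξ) (a2 := d2 * ξ) hl hh (mul_pos hω hξ).le
    have h2 : (ω * ξ) ^ 2 / (2 * l * h) ≤ W * ξ ^ 2 / (2 * e) := by
      rw [mul_pow]
      refine div_le_div₀ (by positivity) (mul_le_mul_of_nonneg_right hW (sq_nonneg _))
        (by positivity) (by linarith)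
    have h3 := prod_g1_le_of_volume _ (measurable_prodMk_left hm) (by positivity)
      (h1.trans (ENNReal.ofReal_le_ofReal h2))
    simp only [F, indicator_of_mem hx]
    rw [show -(c * ξ ^ 2) = -(W * ξ ^ 2 / (2 * e)) / (2 * π) by rw [hc]; field_simp; ring]
    rw [← ofReal_measureReal]
    exact ENNReal.ofReal_le_ofReal h3
  · refine le_of_eq_of_le (measure_mono_null (t := ∅) ?_ measure_empty) zero_le
    rintro y ⟨h1, h2, h3⟩
    simp only at h1 h2 h3
    have : 0 < ω * ξ := by linarith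
    exact hx ((mul_pos_iff_of_pos_left hω).1 this)

theorem cap_bound {d : ℕ} (u1 u2 u3 : EuclideanSpace ℝ (Fin d)) {α β γ W e : ℝ}
    (he : 0 < e) (hα : 0 < α) (hdet : e ^ 2 ≤ α * β - γ ^ 2) (hW : ‖u1 + u2 + u3‖ ^ 2 ≤ W)
    (hQ : ∀ s1 s2 r : ℝ, α * s1 ^ 2 - 2 * γ * s1 * s2 + β * s2 ^ 2 ≤
      ‖s1 • u1 + s2 • u2 + r • (u1 + u2 + u3)‖ ^ 2) :
    (stdGaussian (EuclideanSpace ℝ (Fin d))).real
      {x | 0 < inner ℝ x u1 ∧ 0 < inner ℝ x u2 ∧ 0 < inner ℝ x u3}
      ≤ (1 - 1 / √(1 + W / (2 * π * e))) / 2 := by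
  set w := u1 + u2 + u3 with hw
  have hW0 : 0 ≤ W := (sq_nonneg _).trans hW
  by_cases hw0 : w = 0
  · have : {x : EuclideanSpace ℝ (Fin d) |
        0 < inner ℝ x u1 ∧ 0 < inner ℝ x u2 ∧ 0 < inner ℝ x u3} = ∅ := by
      ext x
      simp only [mem_ofPred_eq, mem_empty_iff_false, iff_false]
      rintro ⟨h1, h2, h3⟩
      have : inner ℝ x w = (0 : ℝ) := by rw [hw0, inner_zero_right]
      rw [hw, inner_add_right, inner_add_right] at this
      linarith
    rw [this, measureReal_empty]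
    have h1 : 1 ≤ √(1 + W / (2 * π * e)) := by
      rw [le_sqrt (by norm_num) (by positivity)]
      have : 0 ≤ W / (2 * π * e) := by positivity
      linarith
    have h2 : 1 / √(1 + W / (2 * π * e)) ≤ 1 := by
      rw [div_le_one (by linarith)]; exact h1
    linarith
  set ω := ‖w‖ with hω
  have hω0 : 0 < ω := norm_pos_iff.2 hw0
  set n := ω⁻¹ • w with hn
  have hn1 : ‖n‖ = 1 := by
    rw [hn, norm_smul, norm_inv, Real.norm_of_nonneg hω0.le, inv_mul_cancel₀ hω0.ne']
  have hnn : inner ℝ n n = (1 : ℝ) := by rw [real_inner_self_eq_norm_sq, hn1]; norm_num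
  have hwn : w = ω • n := by rw [hn, smul_smul, mul_inv_cancel₀ hω0.ne', one_smul]
  set d1 : ℝ := inner ℝ n u1 with hd1
  set d2 : ℝ := inner ℝ n u2 with hd2
  set v1 := u1 - d1 • n with hv1
  set v2 := u2 - d2 • n with hv2
  have hQ' : ∀ s1 s2 : ℝ, α * s1 ^ 2 - 2 * γ * s1 * s2 + β * s2 ^ 2 ≤
      ‖s1 • v1 + s2 • v2‖ ^ 2 := by
    intro s1 s2
    have := hQ s1 s2 (-(s1 * d1 + s2 * d2) / ω)
    have e1 : s1 • u1 + s2 • u2 + (-(s1 * d1 + s2 * d2) / ω) • w = s1 • v1 + s2 • v2 := by
      conv_lhs => rw [hwn]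
      rw [smul_smul, div_mul_cancel₀ _ hω0.ne', hv1, hv2]
      module
    rwa [e1] at this
  have hnv1 : inner ℝ n v1 = (0 : ℝ) := by
    rw [hv1, inner_sub_right, real_inner_smul_right, hnn, ← hd1]; ring
  have hnv2 : inner ℝ n v2 = (0 : ℝ) := by
    rw [hv2, inner_sub_right, real_inner_smul_right, hnn, ← hd2]; ring
  set l := ‖v1‖ with hl
  have hαl : α ≤ l ^ 2 := by simpa using hQ' 1 0
  have hl0 : 0 < l := by
    rcases (norm_nonneg v1).eq_or_lt with h | h
    · rw [← hl] at h
      rw [← h] at hαl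
      linarith
    · exact h
  set e1 := l⁻¹ • v1 with he1
  have he1n : ‖e1‖ = 1 := by
    rw [he1, norm_smul, norm_inv, Real.norm_of_nonneg hl0.le, inv_mul_cancel₀ hl0.ne']
  have h11 : inner ℝ e1 e1 = (1 : ℝ) := by rw [real_inner_self_eq_norm_sq, he1n]; norm_num
  have hv1e : v1 = l • e1 := by rw [he1, smul_smul, mul_inv_cancel₀ hl0.ne', one_smul]
  set m : ℝ := inner ℝ e1 v2 with hm
  set v := v2 - m • e1 with hv
  set h := ‖v‖ with hh
  have hβ : α * (m / l) ^ 2 + 2 * γ * (m / l) + β ≤ h ^ 2 := by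
    have := hQ' (-(m / l)) 1
    have e2 : (-(m / l)) • v1 + (1 : ℝ) • v2 = v := by
      rw [hv, he1, smul_smul, div_eq_mul_inv]
      module
    rw [e2] at this
    linarith
  have hlh2 : e ^ 2 ≤ (l * h) ^ 2 := by
    have k1 : e ^ 2 ≤ α * (α * (m / l) ^ 2 + 2 * γ * (m / l) + β) := by
      nlinarith [sq_nonneg (α * (m / l) + γ)]
    have k2 := mul_le_mul_of_nonneg_left hβ hα.le
    have k3 := mul_le_mul_of_nonneg_right hαl (sq_nonneg h)
    rw [mul_pow]
    linarith
  have hlh : e ≤ l * h :=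
    (pow_le_pow_iff_left₀ he.le (mul_nonneg hl0.le (norm_nonneg v)) two_ne_zero).1 hlh2
  have hh0 : 0 < h := (mul_pos_iff_of_pos_left hl0).1 (he.trans_le hlh)
  set e2 := h⁻¹ • v with he2
  have he2n : ‖e2‖ = 1 := by
    rw [he2, norm_smul, norm_inv, Real.norm_of_nonneg hh0.le, inv_mul_cancel₀ hh0.ne']
  have hve : v = h • e2 := by rw [he2, smul_smul, mul_inv_cancel₀ hh0.ne', one_smul]
  have hne1 : inner ℝ n e1 = (0 : ℝ) := by rw [he1, real_inner_smul_right, hnv1, mul_zero]
  have hne2 : inner ℝ n e2 = (0 : ℝ) := by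
    rw [he2, real_inner_smul_right, hv, inner_sub_right, real_inner_smul_right, hnv2, hne1]; ring
  have he12 : inner ℝ e1 e2 = (0 : ℝ) := by
    rw [he2, real_inner_smul_right, hv, inner_sub_right, real_inner_smul_right, h11, ← hm]; ring
  have hu1 : u1 = l • e1 + d1 • n := by rw [← hv1e, hv1]; abel
  have hu2 : u2 = m • e1 + h • e2 + d2 • n := by rw [← hve, hv, hv2]; abel
  have hu3 : u3 = ω • n - u1 - u2 := by rw [← hwn, hw]; abel
  have hcore := cap_core (m := m) (d1 := d1) (d2 := d2) he hl0 hh0 hω0 hlh hW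
  rw [← cap_map3 n e1 e2 hn1 he1n he2n hne1 hne2 he12, map_measureReal_apply (by fun_prop)
    (IsOpen.measurableSet (by
      refine IsOpen.and ?_ (IsOpen.and ?_ ?_) <;> exact isOpen_lt (by fun_prop) (by fun_prop)))]
    at hcore
  refine le_trans (measureReal_mono ?_) hcore
  rintro x ⟨h1, h2, h3⟩
  have k1 : inner ℝ x u1 = l * inner ℝ e1 x + d1 * inner ℝ n x := by
    rw [real_inner_comm x e1, real_inner_comm x n, ← real_inner_smul_right,
      ← real_inner_smul_right, ← inner_add_right, ← hu1]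
  have k2 : inner ℝ x u2 = m * inner ℝ e1 x + h * inner ℝ e2 x + d2 * inner ℝ n x := by
    rw [real_inner_comm x e1, real_inner_comm x e2, real_inner_comm x n, ← real_inner_smul_right,
      ← real_inner_smul_right, ← real_inner_smul_right, ← inner_add_right, ← inner_add_right,
      ← hu2]
  have k3 : inner ℝ x u3 = ω * inner ℝ n x - inner ℝ x u1 - inner ℝ x u2 := by
    rw [real_inner_comm x n, ← real_inner_smul_right, ← inner_sub_right, ← inner_sub_right,
      ← hu3]
  simp only [mem_preimage, mem_ofPred_eq]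
  refine ⟨by linarith, by linarith, by linarith⟩

end Vale.Agent.P226
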