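import Vale.Agent.P226.Hmax

open MeasureTheory ProbabilityTheory Set Real Filter Topology
open scoped RealInnerProductSpace

namespace Vale.Agent.P226

variable {d : ℕ}

/-- the open cone where the `i`-th linear form is the strict maximum -/
def cell {ι : Type} (z : ι → Euc d) (i : ι) : Set (Euc d) := {x | ∀ j, j ≠ i → ⟪x, z j⟫ < ⟪x, z i⟫}

section
variable {ι : Type} [Fintype ι]

lemma isOpen_cell (z : ι → Euc d) (i : ι) : IsOpen (cell z i) := by
  have : cell z i = ⋂ j, ⋂ (_ : j ≠ i), {x | ⟪x, z j⟫ < ⟪x, z i⟫} := by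
    ext x; simp [cell]
  rw [this]
  exact isOpen_iInter_of_finite fun j => isOpen_iInter_of_finite fun _ =>
    isOpen_lt (by fun_prop) (by fun_prop)

lemma measurableSet_cell (z : ι → Euc d) (i : ι) : MeasurableSet (cell z i) :=
  (isOpen_cell z i).measurableSet

omit [Fintype ι] in
lemma disjoint_cell (z : ι → Euc d) : Pairwise (Function.onFun Disjoint (cell z)) := by
  intro i j hij
  rw [Function.onFun, Set.disjoint_left]
  intro x hi hj
  exact lt_asymm (hi j hij.symm) (hj i hij)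

omit [Fintype ι] in
lemma aedisjoint_cell (z : ι → Euc d) : Pairwise (Function.onFun (AEDisjoint (gam d)) (cell z)) :=
  fun _ _ hij => (disjoint_cell z hij).aedisjoint

lemma sup_eq_of_mem_cell {z : ι → Euc d} {i : ι} {x : Euc d} (hx : x ∈ cell z i) :
    sup z x = ⟪x, z i⟫ := by
  have : Nonempty ι := ⟨i⟩
  refine le_antisymm (sup_le fun j => ?_) (le_sup z x i)
  by_cases h : j = i
  · rw [h]
  · exact (hx j h).le

lemma cover_cell [Nonempty ι] {z : ι → Euc d} (hz : Function.Injective z) :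
    (gam d) (⋃ i, cell z i)ᶜ = 0 := by
  have h1 : (⋃ i, cell z i)ᶜ ⊆ ⋃ i, ⋃ j, ⋃ (_ : j ≠ i), {x | ⟪x, z j - z i⟫ = 0} := by
    intro x hx
    obtain ⟨i, hi⟩ := exists_sup_eq z x
    simp only [mem_compl_iff, mem_iUnion, not_exists] at hx
    have := hx i
    simp only [cell, mem_ofPred_eq, not_forall, not_lt] at this
    obtain ⟨j, hj, hle⟩ := this
    simp only [mem_iUnion, mem_ofPred_eq]
    refine ⟨i, j, hj, ?_⟩
    rw [inner_sub_right]
    linarith [le_sup z x j]
  refine measure_mono_null h1 ?_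
  refine measure_iUnion_null fun i => measure_iUnion_null fun j => measure_iUnion_null fun hj => ?_
  exact measure_inner_eq_zero (sub_ne_zero.2 fun h => hj (hz h))

lemma integral_eq_sum_cell [Nonempty ι] {z : ι → Euc d} (hz : Function.Injective z)
    {F : Type} [NormedAddCommGroup F] [NormedSpace ℝ F] {f : Euc d → F}
    (hf : Integrable f (gam d)) : ∫ x, f x ∂(gam d) = ∑ i, ∫ x in cell z i, f x ∂(gam d) := by
  rw [← setIntegral_univ, ← setIntegral_congr_set (ae_eq_univ.2 (cover_cell hz)),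
    integral_iUnion (measurableSet_cell z) (disjoint_cell z) hf.integrableOn, tsum_fintype]

lemma HH_eq_sum [Nonempty ι] {z : ι → Euc d} (hz : Function.Injective z) :
    HH z = ∑ i, ⟪mom (cell z i), z i⟫ := by
  rw [HH, integral_eq_sum_cell hz (integrable_sup z)]
  refine Finset.sum_congr rfl fun i _ => ?_
  rw [inner_mom]
  exact setIntegral_congr_fun (measurableSet_cell z i) fun x hx => sup_eq_of_mem_cell hx

lemma sum_mom_cell [Nonempty ι] {z : ι → Euc d} (hz : Function.Injective z) :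
    ∑ i, mom (cell z i) = 0 := by
  have := integral_eq_sum_cell hz integrable_id_gam
  rw [integral_id_stdGaussian] at this
  exact this.symm

lemma sum_measure_cell [Nonempty ι] {z : ι → Euc d} (hz : Function.Injective z) :
    ∑ i, (gam d).real (cell z i) = 1 := by
  have := integral_eq_sum_cell hz (integrable_const (1 : ℝ))
  simpa using this.symm

omit [Fintype ι] in
lemma cell_smul (z : ι → Euc d) {t : ℝ} (ht : 0 < t) : cell (fun i => t • z i) = cell z := by
  ext i x
  simp only [cell, mem_ofPred_eq, inner_smul_right, mul_lt_mul_iff_right₀ ht]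

lemma mom_union {A B : Set (Euc d)} (h : Disjoint A B) (hB : MeasurableSet B) :
    mom (A ∪ B) = mom A + mom B :=
  setIntegral_union h hB integrable_id_gam.integrableOn integrable_id_gam.integrableOn

end

/-- the propeller inequality for `k` vectors -/
def Bound (d k : ℕ) : Prop := ∀ v : Fin k → Euc d, HH v ≤ cc * √(∑ i, ‖v i‖ ^ 2)

/-- a critical configuration beating the propeller -/
structure Crit {k : ℕ} (z : Fin k → Euc d) : Prop where
  inj : Function.Injective z
  hz : ∀ i, mom (cell z i) = z i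
  hneg : ∀ i j, i ≠ j → ⟪z i, z j⟫ < 0
  hF : cc ^ 2 < ∑ i, ‖z i‖ ^ 2

lemma le_sq_of_le_mul_sqrt {S c : ℝ} (hc : 0 ≤ c) (h : S ≤ c * √S) : S ≤ c ^ 2 := by
  rcases le_or_gt S 0 with hS | hS
  · exact hS.trans (sq_nonneg c)
  · have h1 : √S * √S = S := mul_self_sqrt hS.le
    have h2 : 0 < √S := sqrt_pos.2 hS
    have h3 : √S ≤ c := by nlinarith
    nlinarith

lemma exists_max {k : ℕ} (hB : ¬ Bound d k) :
    ∃ v : Fin k → Euc d, ∑ i, ‖v i‖ ^ 2 = 1 ∧ cc < HH v ∧
      ∀ w : Fin k → Euc d, HH w ≤ HH v * √(∑ i, ‖w i‖ ^ 2) := by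
  have hzero : ∀ w : Fin k → Euc d, ∑ i, ‖w i‖ ^ 2 = 0 → HH w = 0 := by
    intro w hw
    have h1 : ∀ i, w i = 0 := fun i => by
      have := (Finset.sum_eq_zero_iff_of_nonneg (fun i _ => sq_nonneg ‖w i‖)).1 hw i
        (Finset.mem_univ i)
      simpa using this
    have h2 : w = fun i => (0 : ℝ) • w i := by ext1 i; simp [h1 i]
    rw [h2, HH_smul w le_rfl, zero_mul]
  have hnorm : ∀ w : Fin k → Euc d, 0 < ∑ i, ‖w i‖ ^ 2 →
      ∑ i, ‖(√(∑ i, ‖w i‖ ^ 2))⁻¹ • w i‖ ^ 2 = 1 := by
    intro w hw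
    simp_rw [norm_smul, mul_pow, ← Finset.mul_sum]
    rw [norm_inv, Real.norm_eq_abs, inv_pow, sq_abs, sq_sqrt hw.le, inv_mul_cancel₀ hw.ne']
  let S : Set (Fin k → Euc d) := {v | ∑ i, ‖v i‖ ^ 2 = 1}
  have hS : IsCompact S := by
    refine Metric.isCompact_of_isClosed_isBounded (isClosed_eq (by fun_prop) continuous_const) ?_
    refine (Metric.isBounded_closedBall (x := (0 : Fin k → Euc d)) (r := 1)).subset fun v hv => ?_
    rw [mem_closedBall_zero_iff, pi_norm_le_iff_of_nonneg zero_le_one]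
    intro i
    have h1 : ‖v i‖ ^ 2 ≤ ∑ i, ‖v i‖ ^ 2 :=
      Finset.single_le_sum (f := fun i => ‖v i‖ ^ 2) (fun i _ => sq_nonneg _) (Finset.mem_univ i)
    rw [hv] at h1
    nlinarith [norm_nonneg (v i)]
  unfold Bound at hB
  push Not at hB
  obtain ⟨w0, hw0⟩ := hB
  have hw0pos : 0 < ∑ i, ‖w0 i‖ ^ 2 := by
    rcases eq_or_lt_of_le (Finset.sum_nonneg (fun i _ => sq_nonneg ‖w0 i‖) :
      0 ≤ ∑ i, ‖w0 i‖ ^ 2) with h | h
    · rw [hzero w0 h.symm, ← h] at hw0; simp at hw0
    · exact h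
  obtain ⟨v, hv, hmax⟩ := hS.exists_isMaxOn ⟨_, hnorm w0 hw0pos⟩ continuous_HH.continuousOn
  have hall : ∀ w : Fin k → Euc d, 0 < ∑ i, ‖w i‖ ^ 2 → HH w ≤ HH v * √(∑ i, ‖w i‖ ^ 2) := by
    intro w hw
    have h1 := hmax (hnorm w hw)
    have h2 : 0 < √(∑ i, ‖w i‖ ^ 2) := sqrt_pos.2 hw
    simp only [mem_ofPred_eq] at h1
    rw [HH_smul w (inv_nonneg.2 h2.le), inv_mul_le_iff₀ h2] at h1
    linarith
  refine ⟨v, hv, ?_, fun w => ?_⟩
  · have h2 : 0 < √(∑ i, ‖w0 i‖ ^ 2) := sqrt_pos.2 hw0pos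
    have := hall w0 hw0pos
    exact lt_of_mul_lt_mul_right (hw0.trans_le this) h2.le
  · rcases eq_or_lt_of_le (Finset.sum_nonneg (fun i _ => sq_nonneg ‖w i‖) :
      0 ≤ ∑ i, ‖w i‖ ^ 2) with h | h
    · rw [hzero w h.symm, ← h]; simp
    · exact hall w h

lemma exists_crit {n : ℕ} (hn : Bound d (n + 1)) (hB : ¬ Bound d (n + 2)) :
    ∃ z : Fin (n + 2) → Euc d, Crit z := by
  obtain ⟨v, hv1, hvc, hmax⟩ := exists_max hB
  have hc := cc_pos
  have hvinj : Function.Injective v := by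
    intro i j hij
    by_contra hne
    obtain ⟨m, hm⟩ := Fin.exists_succAbove_eq hne
    have h1 : HH v ≤ HH (fun l => v (j.succAbove l)) := by
      refine HH_mono fun l => ?_
      by_cases hl : l = j
      · exact ⟨m, by rw [hm, hl, hij]⟩
      · obtain ⟨m', hm'⟩ := Fin.exists_succAbove_eq hl
        exact ⟨m', by rw [hm']⟩
    have h2 := hn (fun l => v (j.succAbove l))
    have h3 : ∑ l, ‖v (j.succAbove l)‖ ^ 2 ≤ 1 := by
      rw [← hv1, Fin.sum_univ_succAbove _ j]
      linarith [sq_nonneg ‖v j‖]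
    have h4 : √(∑ l, ‖v (j.succAbove l)‖ ^ 2) ≤ 1 := sqrt_le_one.2 h3
    nlinarith
  set lam := HH v with hlam
  have hlam0 : 0 < lam := hc.trans hvc
  let z : Fin (n + 2) → Euc d := fun i => mom (cell v i)
  have hnm : ∀ i, NullMeasurableSet (cell v i) (gam d) :=
    fun i => (measurableSet_cell v i).nullMeasurableSet
  have h1 : lam = ∑ i, ⟪z i, v i⟫ := HH_eq_sum hvinj
  have h2 : ∑ i, ‖z i‖ ^ 2 ≤ lam ^ 2 := by
    apply le_sq_of_le_mul_sqrt hlam0.le
    refine le_trans ?_ (hmax z)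
    have := sum_inner_mom_le hnm (aedisjoint_cell v) (cover_cell hvinj) z
    simpa only [z, real_inner_self_eq_norm_sq] using this
  have h3 : ∑ i, ‖z i - lam • v i‖ ^ 2 ≤ 0 := by
    simp_rw [norm_sub_sq_real, inner_smul_right, norm_smul, mul_pow, Finset.sum_add_distrib,
      Finset.sum_sub_distrib, ← Finset.mul_sum]
    rw [← h1, hv1, Real.norm_eq_abs, sq_abs]
    linarith
  have h4 : ∀ i, z i = lam • v i := fun i => by
    have h5 : ∑ i, ‖z i - lam • v i‖ ^ 2 = 0 :=
      le_antisymm h3 (Finset.sum_nonneg fun i _ => sq_nonneg _)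
    have := (Finset.sum_eq_zero_iff_of_nonneg (fun i _ => sq_nonneg _)).1 h5 i (Finset.mem_univ i)
    simpa [sub_eq_zero] using this
  have h5 : z = fun i => lam • v i := funext h4
  have hcell : cell z = cell v := by rw [h5, cell_smul v hlam0]
  have hF : cc ^ 2 < ∑ i, ‖z i‖ ^ 2 := by
    simp_rw [h4, norm_smul, mul_pow, ← Finset.mul_sum]
    rw [hv1, Real.norm_eq_abs, sq_abs, mul_one]
    gcongr
  refine ⟨z, ?_, fun i => by rw [hcell], ?_, hF⟩
  · intro i j hij
    rw [h4, h4] at hij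
    exact hvinj (smul_right_injective _ hlam0.ne' hij)
  · intro i j hij
    obtain ⟨m, hm⟩ := Fin.exists_succAbove_eq hij
    let w : Fin (n + 1) → Euc d := fun l => if l = m then z i + z j else z (j.succAbove l)
    let w' : Fin (n + 2) → Euc d := fun l => if l = j ∨ l = i then z i + z j else z l
    have hw : HH w' ≤ HH w := by
      refine HH_mono fun l => ?_
      by_cases hl : l = j ∨ l = i
      · exact ⟨m, by simp [w, w', hl]⟩
      · push Not at hl
        obtain ⟨m', hm'⟩ := Fin.exists_succAbove_eq hl.1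
        refine ⟨m', ?_⟩
        have : m' ≠ m := fun h => hl.2 (by rw [← hm', h, hm])
        simp [w, w', hl, this, hm']
    have hs1 := sum_inner_mom_le hnm (aedisjoint_cell v) (cover_cell hvinj) w'
    have hsplit : ∀ f g : Fin (n + 1) → ℝ, (∀ l, l ≠ m → f l = g l) →
        ∑ l, f l = ∑ l, g l + (f m - g m) := by
      intro f g h
      rw [← Finset.add_sum_erase _ f (Finset.mem_univ m),
        ← Finset.add_sum_erase _ g (Finset.mem_univ m),
        Finset.sum_congr rfl fun l hl => h l (Finset.ne_of_mem_erase hl)]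
      ring
    have hne : ∀ l, l ≠ m → ¬ (j.succAbove l = j ∨ j.succAbove l = i) := by
      intro l hl h
      rcases h with h | h
      · exact Fin.succAbove_ne j l h
      · exact hl (Fin.succAbove_right_injective (h.trans hm.symm))
    have e0 : ∑ l, ‖z l‖ ^ 2 = ‖z j‖ ^ 2 + ∑ l, ‖z (j.succAbove l)‖ ^ 2 :=
      Fin.sum_univ_succAbove _ j
    have e1 : ∑ l, ‖w l‖ ^ 2 = ∑ l, ‖z l‖ ^ 2 + 2 * ⟪z i, z j⟫ := by
      rw [hsplit _ (fun l => ‖z (j.succAbove l)‖ ^ 2) (fun l hl => by simp [w, hl]), e0]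
      simp only [w, if_true, hm, norm_add_sq_real]
      ring
    have e2 : ∑ l, ⟪mom (cell v l), w' l⟫ = ∑ l, ‖z l‖ ^ 2 + 2 * ⟪z i, z j⟫ := by
      rw [Fin.sum_univ_succAbove _ j,
        hsplit _ (fun l => ‖z (j.succAbove l)‖ ^ 2) (fun l hl => by
          simp only [w', if_neg (hne l hl)]
          exact real_inner_self_eq_norm_sq _), e0]
      simp only [w', true_or, or_true, if_true, hm]
      change ⟪z j, z i + z j⟫ + (_ + (⟪z i, z i + z j⟫ - _)) = _
      simp only [inner_add_right, real_inner_self_eq_norm_sq, real_inner_comm (z i) (z j)]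
      ring
    have h6 := hn w
    rw [e2] at hs1
    rw [e1] at h6
    have h7 := le_sq_of_le_mul_sqrt hc.le ((hs1.trans hw).trans h6)
    linarith

namespace Crit
variable {k : ℕ} {z : Fin (k + 1) → Euc d}

lemma sum_eq (h : Crit z) : ∑ i, z i = 0 := by
  have := sum_mom_cell h.inj
  simpa only [h.hz] using this

lemma HH_eq (h : Crit z) : HH z = ∑ i, ‖z i‖ ^ 2 := by
  rw [HH_eq_sum h.inj]
  simp only [h.hz, real_inner_self_eq_norm_sq]

lemma comp_perm (h : Crit z) (σ : Equiv.Perm (Fin (k + 1))) : Crit (z ∘ σ) := by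
  have hc : ∀ i, cell (z ∘ σ) i = cell z (σ i) := by
    intro i
    ext x
    simp only [cell, mem_ofPred_eq, Function.comp]
    constructor
    · intro hx j hj
      have := hx (σ.symm j) (fun h' => hj (by rw [← h']; simp))
      simpa using this
    · intro hx j hj
      exact hx (σ j) (fun h' => hj (σ.injective h'))
  refine ⟨h.inj.comp σ.injective, fun i => by rw [hc, h.hz]; rfl,
    fun i j hij => h.hneg _ _ fun h' => hij (σ.injective h'), ?_⟩
  rw [show ∑ i, ‖(z ∘ σ) i‖ ^ 2 = ∑ i, ‖z i‖ ^ 2 from Equiv.sum_comp σ fun i => ‖z i‖ ^ 2]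
  exact h.hF

end Crit

lemma cell_comp_perm {k : ℕ} (z : Fin k → Euc d) (σ : Equiv.Perm (Fin k)) (i : Fin k) :
    cell (z ∘ σ) i = cell z (σ i) := by
  ext x
  simp only [cell, mem_ofPred_eq, Function.comp]
  constructor
  · intro hx j hj
    have := hx (σ.symm j) (fun h' => hj (by rw [← h']; simp))
    simpa using this
  · intro hx j hj
    exact hx (σ j) (fun h' => hj (σ.injective h'))

lemma exists_sorted_crit {n : ℕ} (hn : Bound d (n + 1)) (hB : ¬ Bound d (n + 2)) :
    ∃ z : Fin (n + 2) → Euc d, Crit z ∧ Antitone (fun i => (gam d).real (cell z i)) := by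
  obtain ⟨z, hz⟩ := exists_crit hn hB
  let f : Fin (n + 2) → ℝ := fun i => -(gam d).real (cell z i)
  refine ⟨z ∘ Tuple.sort f, hz.comp_perm _, fun i j hij => ?_⟩
  have := Tuple.monotone_sort f hij
  simp only [f, Function.comp, neg_le_neg_iff] at this
  simpa only [cell_comp_perm] using this

lemma bound_three : Bound d 3 := by
  intro v
  have h : v = ![v 0, v 1, v 2] := by
    ext1 i; fin_cases i <;> rfl
  rw [Fin.sum_univ_three]
  conv_lhs => rw [h]
  exact HH_three_le _ _ _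

lemma bound_of_succ {k : ℕ} (h : Bound d (k + 1)) : Bound d k := by
  intro v
  rcases Nat.eq_zero_or_pos k with rfl | hk
  · have : HH v = 0 := by simp [HH, sup]
    rw [this]; have := cc_pos; positivity
  · have : Nonempty (Fin k) := ⟨⟨0, hk⟩⟩
    have h1 : HH v ≤ HH (Fin.cons 0 v : Fin (k + 1) → Euc d) :=
      HH_mono fun i => ⟨i.succ, by simp⟩
    have h2 := h (Fin.cons 0 v)
    rw [Fin.sum_univ_succ] at h2
    simp only [Fin.cons_zero, norm_zero, Fin.cons_succ] at h2
    rw [zero_pow two_ne_zero, zero_add] at h2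
    exact h1.trans h2

end Vale.Agent.P226
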