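import Vale.Agent.P226.Basic

open MeasureTheory ProbabilityTheory Set Real Filter Topology

namespace Vale.Agent.P226

lemma pi_g1_eq (d : ℕ) : Measure.pi (fun _ : Fin d => g1) =
    (volume : Measure (Fin d → ℝ)).withDensity (fun x => ENNReal.ofReal (∏ i, phi (x i))) := by
  apply Measure.pi_eq
  intro s hs
  have hms : MeasurableSet (univ.pi s) := MeasurableSet.univ_pi hs
  have hint : Integrable (fun x : Fin d → ℝ => ∏ i, phi (x i)) :=
    Integrable.fintype_prod (fun _ => integrable_phi)
  rw [withDensity_apply _ hms, ← ofReal_integral_eq_lintegral_ofReal hint.integrableOn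
    (Eventually.of_forall fun x => Finset.prod_nonneg fun i _ => (phi_pos _).le),
    ← integral_indicator hms]
  have : (univ.pi s).indicator (fun x : Fin d → ℝ => ∏ i, phi (x i))
      = fun x => ∏ i, (s i).indicator phi (x i) := by
    ext x
    by_cases hx : x ∈ univ.pi s
    · rw [indicator_of_mem hx]
      exact Finset.prod_congr rfl fun i _ => (indicator_of_mem (hx i (mem_univ i)) _).symm
    · rw [indicator_of_notMem hx]
      simp only [Set.mem_pi, mem_univ, true_imp_iff, not_forall] at hx
      obtain ⟨i, hi⟩ := hx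
      exact (Finset.prod_eq_zero (Finset.mem_univ i) (indicator_of_notMem hi _)).symm
  rw [this, volume_pi, integral_fintype_prod_eq_prod (fun i => (s i).indicator phi),
    ENNReal.ofReal_prod_of_nonneg (fun i _ => integral_nonneg
      (indicator_nonneg (fun x _ => (phi_pos x).le)))]
  refine Finset.prod_congr rfl fun i _ => ?_
  rw [integral_indicator (hs i), ← g1_real, ofReal_measureReal]

lemma prod_phi_eq (d : ℕ) (x : EuclideanSpace ℝ (Fin d)) :
    ∏ i, phi (x i) = (2 * π) ^ (-(d : ℝ) / 2) * exp (-‖x‖ ^ 2 / 2) := by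
  unfold phi
  rw [Finset.prod_div_distrib, ← exp_sum, EuclideanSpace.real_norm_sq_eq, Finset.prod_const,
    Finset.card_univ, Fintype.card_fin, sqrt_eq_rpow, ← rpow_natCast,
    ← rpow_mul (by positivity), div_eq_inv_mul, ← rpow_neg (by positivity)]
  congr 2
  · ring
  · rw [← Finset.sum_div, Finset.sum_neg_distrib]

theorem stdGaussian_eq_withDensity (d : ℕ) :
    stdGaussian (EuclideanSpace ℝ (Fin d)) =
      volume.withDensity (fun x => ENNReal.ofReal ((2 * π) ^ (-(d : ℝ) / 2) * exp (-‖x‖ ^ 2 / 2))) := by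
  rw [← map_pi_eq_stdGaussian]
  change Measure.map (WithLp.toLp 2) (Measure.pi (fun _ : Fin d => g1)) = _
  rw [pi_g1_eq]
  ext A hA
  have hm : Measurable (WithLp.toLp 2 : (Fin d → ℝ) → EuclideanSpace ℝ (Fin d)) :=
    (PiLp.volume_preserving_toLp (Fin d)).measurable
  rw [Measure.map_apply hm hA, withDensity_apply _ (hm hA), withDensity_apply _ hA,
    ← (PiLp.volume_preserving_toLp (Fin d)).setLIntegral_comp_preimage hA (by fun_prop)]
  refine lintegral_congr fun x => ?_
  rw [← prod_phi_eq]

theorem stdGaussian_shift (d : ℕ) (A : Set (EuclideanSpace ℝ (Fin d))) (hA : MeasurableSet A)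
    (v : EuclideanSpace ℝ (Fin d)) :
    (stdGaussian (EuclideanSpace ℝ (Fin d))).real {x | x + v ∈ A} =
      ∫ x in A, exp (inner ℝ x v - ‖v‖ ^ 2 / 2) ∂(stdGaussian (EuclideanSpace ℝ (Fin d))) := by
  set ρ : EuclideanSpace ℝ (Fin d) → ℝ :=
    fun x => (2 * π) ^ (-(d : ℝ) / 2) * exp (-‖x‖ ^ 2 / 2) with hρ
  have hρ0 : ∀ x, 0 ≤ ρ x := fun x => by positivity
  have hρm : Measurable fun x => ENNReal.ofReal (ρ x) := by fun_prop
  have hA' : MeasurableSet {x : EuclideanSpace ℝ (Fin d) | x + v ∈ A} :=
    (measurable_add_const v) hA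
  have key : ∀ (B : Set (EuclideanSpace ℝ (Fin d))), MeasurableSet B →
      ∀ f : EuclideanSpace ℝ (Fin d) → ℝ,
      ∫ x in B, f x ∂(stdGaussian (EuclideanSpace ℝ (Fin d))) = ∫ x in B, ρ x * f x := by
    intro B hB f
    rw [stdGaussian_eq_withDensity, restrict_withDensity hB,
      integral_withDensity_eq_integral_toReal_smul hρm (by simp)]
    refine integral_congr_ae (Eventually.of_forall fun x => ?_)
    simp only [smul_eq_mul]
    rw [ENNReal.toReal_ofReal (hρ0 x)]
  have h1 : (stdGaussian (EuclideanSpace ℝ (Fin d))).real {x | x + v ∈ A}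
      = ∫ x in {x | x + v ∈ A}, (1 : ℝ) ∂(stdGaussian (EuclideanSpace ℝ (Fin d))) := by simp
  rw [h1, key _ hA', key _ hA, ← integral_indicator hA', ← integral_indicator hA,
    ← integral_add_right_eq_self (μ := volume) (A.indicator _) v]
  refine integral_congr_ae (Eventually.of_forall fun x => ?_)
  by_cases hx : x + v ∈ A
  · have hx' : x ∈ {x : EuclideanSpace ℝ (Fin d) | x + v ∈ A} := hx
    simp only [indicator_of_mem hx, indicator_of_mem hx', hρ, mul_one, mul_assoc, ← exp_add]
    congr 2
    rw [norm_add_sq_real, inner_add_left, real_inner_self_eq_norm_sq]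
    ring
  · have hx' : x ∉ {x : EuclideanSpace ℝ (Fin d) | x + v ∈ A} := hx
    simp only [indicator_of_notMem hx, indicator_of_notMem hx']

end Vale.Agent.P226
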