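import Vale.Agent.P226.Basic

open MeasureTheory ProbabilityTheory Set Real Filter Topology

namespace Vale.Agent.P226

lemma hasDerivAt_HH (x : ℝ) {w : ℝ} (hw : 0 < w) :
    HasDerivAt (fun w => phi w / w - (1 + 1 / x ^ 2) * Qt w) (phi w * (1 / x ^ 2 - 1 / w ^ 2)) w := by
  have h := ((hasDerivAt_phi w).fun_div (hasDerivAt_id' w) hw.ne').fun_sub
    ((hasDerivAt_Qt w).const_mul (1 + 1 / x ^ 2))
  refine h.congr_deriv ?_
  field_simp
  ring

lemma HH_lt {x z : ℝ} (hz : 0 < z) (hzx : z < x) :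
    phi x / x - (1 + 1 / x ^ 2) * Qt x < phi z / z - (1 + 1 / x ^ 2) * Qt z := by
  have h : StrictAntiOn (fun w => phi w / w - (1 + 1 / x ^ 2) * Qt w) (Icc z x) := by
    refine strictAntiOn_of_deriv_neg (convex_Icc z x) (fun w hw =>
      (hasDerivAt_HH x (hz.trans_le hw.1)).continuousAt.continuousWithinAt) fun w hw => ?_
    rw [interior_Icc] at hw
    have hw0 : 0 < w := hz.trans hw.1
    rw [(hasDerivAt_HH x hw0).deriv]
    refine mul_neg_of_pos_of_neg (phi_pos w) (sub_neg.2 ?_)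
    exact one_div_lt_one_div_of_lt (by positivity) (by nlinarith [hw.2])
  exact h ⟨le_rfl, hzx.le⟩ ⟨hzx.le, le_rfl⟩ hzx

lemma HH_nonpos {x : ℝ} (hx : 0 < x) : phi x / x - (1 + 1 / x ^ 2) * Qt x ≤ 0 := by
  have h : MonotoneOn (fun w => phi w / w - (1 + 1 / x ^ 2) * Qt w) (Ici x) := by
    refine monotoneOn_of_deriv_nonneg (convex_Ici x) (fun w hw =>
      (hasDerivAt_HH x (hx.trans_le hw)).continuousAt.continuousWithinAt) (fun w hw => ?_)
      fun w hw => ?_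
    · rw [interior_Ici] at hw
      exact (hasDerivAt_HH x (hx.trans hw)).differentiableAt.differentiableWithinAt
    · rw [interior_Ici] at hw
      have hw0 : 0 < w := hx.trans hw
      have hw1 : x < w := hw
      rw [(hasDerivAt_HH x hw0).deriv]
      refine mul_nonneg (phi_pos w).le (sub_nonneg.2 ?_)
      exact one_div_le_one_div_of_le (by positivity) (by nlinarith)
  have hl : Tendsto (fun w => phi w / w - (1 + 1 / x ^ 2) * Qt w) atTop
      (𝓝 (0 - (1 + 1 / x ^ 2) * 0)) :=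
    (tendsto_phi_atTop.div_atTop tendsto_id).sub (tendsto_Qt_atTop.const_mul _)
  rw [mul_zero, sub_zero] at hl
  refine ge_of_tendsto hl ?_
  filter_upwards [eventually_ge_atTop x] with w hw
  exact h (mem_Ici.2 le_rfl) hw hw

lemma superadd {x y z : ℝ} (hx : 0 < x) (hy : 0 < y) (hz : 0 < z) (h : Qt z = Qt x + Qt y) :
    phi x / x + phi y / y < phi z / z := by
  wlog hxy : x ≤ y generalizing x y
  · have := this hy hx (by linarith) (le_of_not_ge hxy)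
    linarith
  have hzx : z < x := strictAnti_Qt.lt_iff_gt.1 (by linarith [Qt_pos y])
  have h1 := HH_lt hz hzx
  have h2 := HH_nonpos hy
  have h3 : 1 / y ^ 2 ≤ 1 / x ^ 2 := one_div_le_one_div_of_le (by positivity) (by nlinarith)
  have h4 := mul_le_mul_of_nonneg_right h3 (Qt_pos y).le
  rw [h] at h1
  nlinarith

lemma quad_case {x1 x2 x3 v1 v2 v3 : ℝ} (h1 : x1 < 0) (h2 : x2 < 0)
    (hs : Phi x1 + Phi x2 + Phi x3 = 1)
    (hv : phi x1 * v1 + phi x2 * v2 + phi x3 * v3 = 0) (hne : ¬ (v1 = 0 ∧ v2 = 0 ∧ v3 = 0)) :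
    0 < -x1 * phi x1 * v1 ^ 2 + -x2 * phi x2 * v2 ^ 2 + -x3 * phi x3 * v3 ^ 2 := by
  have p1 := phi_pos x1
  have p2 := phi_pos x2
  have p3 := phi_pos x3
  have a1 : 0 < -x1 * phi x1 := mul_pos (by linarith) p1
  have a2 : 0 < -x2 * phi x2 := mul_pos (by linarith) p2
  have hA : 0 < -x1 * phi x1 * v1 ^ 2 + -x2 * phi x2 * v2 ^ 2 := by
    by_cases e1 : v1 = 0
    · by_cases e2 : v2 = 0
      · exfalso
        rw [e1, e2] at hv
        exact hne ⟨e1, e2, by simpa [p3.ne'] using hv⟩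
      · have : 0 < -x2 * phi x2 * v2 ^ 2 := by positivity
        rw [e1]; linarith
    · have : 0 < -x1 * phi x1 * v1 ^ 2 := by positivity
      have : 0 ≤ -x2 * phi x2 * v2 ^ 2 := by positivity
      linarith
  rcases le_or_gt x3 0 with h3 | h3
  · have : 0 ≤ -x3 * phi x3 * v3 ^ 2 := mul_nonneg (mul_nonneg (by linarith) p3.le) (sq_nonneg _)
    linarith
  · have hsup := superadd (x := -x1) (y := -x2) (z := x3) (by linarith) (by linarith) h3
      (by rw [Qt_neg, Qt_neg, Qt]; linarith)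
    rw [phi_neg, phi_neg] at hsup
    obtain ⟨a, ha, rfl⟩ : ∃ a, 0 < a ∧ x1 = -a := ⟨-x1, by linarith, by ring⟩
    obtain ⟨b, hb, rfl⟩ : ∃ a, 0 < a ∧ x2 = -a := ⟨-x2, by linarith, by ring⟩
    simp only [neg_neg] at *
    set P1 := phi (-a)
    set P2 := phi (-b)
    set P3 := phi x3
    set A := a * P1 * v1 ^ 2 + b * P2 * v2 ^ 2 with hAdef
    have cs : (P1 * v1 + P2 * v2) ^ 2 ≤ (P1 / a + P2 / b) * A := by
      have e : (P1 / a + P2 / b) * A - (P1 * v1 + P2 * v2) ^ 2 =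
          P1 * P2 / (a * b) * (a * v1 - b * v2) ^ 2 := by
        rw [hAdef]; field_simp; ring
      have : 0 ≤ P1 * P2 / (a * b) * (a * v1 - b * v2) ^ 2 := by positivity
      linarith
    have e3 : (P1 * v1 + P2 * v2) ^ 2 = (P3 * v3) ^ 2 := by
      rw [show P1 * v1 + P2 * v2 = -(P3 * v3) by linarith]; ring
    have h4 : (P3 * v3) ^ 2 < P3 / x3 * A := by
      rw [← e3]; exact cs.trans_lt (mul_lt_mul_of_pos_right hsup hA)
    rw [div_mul_eq_mul_div, lt_div_iff₀ h3] at h4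
    have h5 : P3 * (x3 * P3 * v3 ^ 2) < P3 * A := by nlinarith
    have := lt_of_mul_lt_mul_left h5 p3.le
    linarith

lemma quad_pos {x1 x2 x3 v1 v2 v3 : ℝ} (hs : Phi x1 + Phi x2 + Phi x3 = 1)
    (hv : phi x1 * v1 + phi x2 * v2 + phi x3 * v3 = 0) (hne : ¬ (v1 = 0 ∧ v2 = 0 ∧ v3 = 0)) :
    0 < -x1 * phi x1 * v1 ^ 2 + -x2 * phi x2 * v2 ^ 2 + -x3 * phi x3 * v3 ^ 2 := by
  have hh : ∀ x, 0 ≤ x → 1 / 2 ≤ Phi x := fun x hx => by
    rw [← Phi_zero]; exact strictMono_Phi.monotone hx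
  have q1 := Phi_pos x1
  have q2 := Phi_pos x2
  have q3 := Phi_pos x3
  rcases lt_or_ge x1 0 with h1 | h1
  · rcases lt_or_ge x2 0 with h2 | h2
    · exact quad_case h1 h2 hs hv hne
    · have h3 : x3 < 0 := by
        by_contra h3
        linarith [hh x2 h2, hh x3 (not_lt.1 h3)]
      have := quad_case (x1 := x1) (x2 := x3) (x3 := x2) (v1 := v1) (v2 := v3) (v3 := v2) h1 h3
        (by linarith) (by linarith) (fun h => hne ⟨h.1, h.2.2, h.2.1⟩)
      linarith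
  · have h2 : x2 < 0 := by
      by_contra h2
      linarith [hh x1 h1, hh x2 (not_lt.1 h2)]
    have h3 : x3 < 0 := by
      by_contra h3
      linarith [hh x1 h1, hh x3 (not_lt.1 h3)]
    have := quad_case (x1 := x2) (x2 := x3) (x3 := x1) (v1 := v2) (v2 := v3) (v3 := v1) h2 h3
      (by linarith) (by linarith) (fun h => hne ⟨h.2.2, h.1, h.2.1⟩)
    linarith

lemma not_max_of_second {f f' : ℝ → ℝ} {t c : ℝ} (hf : ∀ s, HasDerivAt f (f' s) s)
    (h0 : f' t = 0) (h2 : HasDerivAt f' c t) (hc : 0 < c) (hm : IsLocalMax f t) : False := by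
  have hs : ∀ᶠ s in 𝓝[>] t, 0 < f' s := by
    have h3 := (hasDerivAt_iff_tendsto_slope.1 h2).mono_left (nhdsGT_le_nhdsNE t)
    filter_upwards [h3.eventually (lt_mem_nhds hc), self_mem_nhdsWithin] with s hs hst
    rw [slope_def_field, h0, sub_zero] at hs
    exact (div_pos_iff_of_pos_right (sub_pos.2 hst)).1 hs
  have hm' : ∀ᶠ s in 𝓝[>] t, f s ≤ f t := hm.filter_mono nhdsWithin_le_nhds
  obtain ⟨u, hu, hI⟩ := (mem_nhdsGT_iff_exists_Ioc_subset).1 (hs.and hm')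
  obtain ⟨ξ, hξ, e⟩ := exists_hasDerivAt_eq_slope f f' hu
    (fun s _ => (hf s).continuousAt.continuousWithinAt) (fun s _ => hf s)
  have a1 := (hI ⟨hξ.1, hξ.2.le⟩).1
  have a2 := (hI ⟨hu, le_rfl⟩).2
  rw [e] at a1
  have := (div_pos_iff_of_pos_right (sub_pos.2 hu)).1 a1
  linarith

lemma tri_convex {p1 p2 p3 v1 v2 v3 θ : ℝ} (hθ0 : 0 ≤ θ) (hθ1 : θ ≤ 1)
    (hp : Phi p1 + Phi p2 + Phi p3 ≤ 1) (hq : Phi (p1 + v1) + Phi (p2 + v2) + Phi (p3 + v3) ≤ 1) :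
    Phi (p1 + θ * v1) + Phi (p2 + θ * v2) + Phi (p3 + θ * v3) ≤ 1 := by
  by_contra hlt
  push Not at hlt
  have hne : ¬ (v1 = 0 ∧ v2 = 0 ∧ v3 = 0) := by
    rintro ⟨rfl, rfl, rfl⟩
    simp only [mul_zero, add_zero] at hlt
    linarith
  set F : ℝ × ℝ → ℝ := fun z =>
    Phi (p1 + z.1 * v1 - z.2) + Phi (p2 + z.1 * v2 - z.2) + Phi (p3 + z.1 * v3 - z.2) with hF
  have hc := continuous_Phi
  have hFc : Continuous F := by fun_prop
  obtain ⟨c, hc3⟩ := exists_Phi_eq (p := 1 / 4) (by norm_num) (by norm_num)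
  set T := |p1| + |v1| + |p2| + |v2| + |p3| + |v3| + |c| with hT
  have hFT : ∀ t ∈ Icc (0 : ℝ) 1, F (t, T) < 1 := by
    intro t ht
    have hb : ∀ p v : ℝ, |p| + |v| + |c| ≤ T → Phi (p + t * v - T) ≤ 1 / 4 := by
      intro p v h
      rw [← hc3]
      refine strictMono_Phi.monotone ?_
      have h1 : t * v ≤ |v| := by
        nlinarith [le_abs_self v, abs_nonneg v, ht.1, ht.2]
      linarith [le_abs_self p, neg_abs_le c]
    have := abs_nonneg p1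
    have := abs_nonneg p2
    have := abs_nonneg p3
    have := abs_nonneg v1
    have := abs_nonneg v2
    have := abs_nonneg v3
    have b1 := hb p1 v1 (by linarith)
    have b2 := hb p2 v2 (by linarith)
    have b3 := hb p3 v3 (by linarith)
    simp only [hF]; linarith
  have ivt : ∀ t ∈ Icc (0 : ℝ) 1, ∀ τ ∈ Icc 0 T, 1 < F (t, τ) →
      ∃ τ' ∈ Icc 0 T, τ < τ' ∧ 1 ≤ F (t, τ') := by
    intro t ht τ hτ h
    have hcont : ContinuousOn (fun s => F (t, s)) (Icc τ T) := by fun_prop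
    obtain ⟨s, hs, e⟩ := intermediate_value_Icc' hτ.2 hcont ⟨(hFT t ht).le, h.le⟩
    refine ⟨s, ⟨hτ.1.trans hs.1, hs.2⟩, lt_of_le_of_ne hs.1 ?_, e.ge⟩
    rintro rfl
    exact h.ne' e
  have hT0 : 0 ≤ T := by positivity
  obtain ⟨τ1, hτ1, hτ1p, hF1⟩ := ivt θ ⟨hθ0, hθ1⟩ 0 ⟨le_rfl, hT0⟩ (by simpa [hF] using hlt)
  have hA : IsCompact ((Icc (0 : ℝ) 1 ×ˢ Icc 0 T) ∩ {z | 1 ≤ F z}) :=
    (isCompact_Icc.prod isCompact_Icc).inter_right (isClosed_le continuous_const hFc)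
  obtain ⟨⟨t0, τ0⟩, ⟨⟨ht0, hτ0⟩, hF0⟩, hmax⟩ := hA.exists_isMaxOn
    ⟨(θ, τ1), ⟨⟨hθ0, hθ1⟩, hτ1⟩, hF1⟩ continuous_snd.continuousOn
  have hτ0p : 0 < τ0 := hτ1p.trans_le (hmax (a := (θ, τ1)) ⟨⟨⟨hθ0, hθ1⟩, hτ1⟩, hF1⟩)
  have hle : ∀ t ∈ Icc (0 : ℝ) 1, F (t, τ0) ≤ 1 := by
    intro t ht
    by_contra h
    obtain ⟨τ', h1, h2, h3⟩ := ivt t ht τ0 hτ0 (not_le.1 h)
    exact absurd (hmax (a := (t, τ')) ⟨⟨ht, h1⟩, h3⟩) (not_le.2 h2)
  have hF0' : 1 ≤ F (t0, τ0) := hF0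
  have heq : F (t0, τ0) = 1 := le_antisymm (hle t0 ht0) hF0'
  have hsh : ∀ x, Phi (x - τ0) < Phi x := fun x => strictMono_Phi (by linarith)
  have ht00 : 0 < t0 := by
    refine lt_of_le_of_ne ht0.1 ?_
    rintro rfl
    simp only [hF, zero_mul, add_zero] at heq
    linarith [hsh p1, hsh p2, hsh p3]
  have ht01 : t0 < 1 := by
    refine lt_of_le_of_ne ht0.2 ?_
    rintro rfl
    simp only [hF, one_mul] at heq
    linarith [hsh (p1 + v1), hsh (p2 + v2), hsh (p3 + v3)]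
  have hloc : IsLocalMax (fun t => F (t, τ0)) t0 := by
    filter_upwards [Icc_mem_nhds ht00 ht01] with t ht
    rw [heq]; exact hle t ht
  have lin : ∀ p v s : ℝ, HasDerivAt (fun t => p + t * v - τ0) v s := fun p v s => by
    simpa using (((hasDerivAt_id s).mul_const v).const_add p).sub_const τ0
  have d1 : ∀ s, HasDerivAt (fun t => F (t, τ0)) (phi (p1 + s * v1 - τ0) * v1 +
      phi (p2 + s * v2 - τ0) * v2 + phi (p3 + s * v3 - τ0) * v3) s := fun s =>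
    (((hasDerivAt_Phi _).comp s (lin p1 v1 s)).add ((hasDerivAt_Phi _).comp s (lin p2 v2 s))).add
      ((hasDerivAt_Phi _).comp s (lin p3 v3 s))
  have d0 := hloc.hasDerivAt_eq_zero (d1 t0)
  have d2 := (((((hasDerivAt_phi _).comp t0 (lin p1 v1 t0)).mul_const v1).add
    (((hasDerivAt_phi _).comp t0 (lin p2 v2 t0)).mul_const v2)).add
    (((hasDerivAt_phi _).comp t0 (lin p3 v3 t0)).mul_const v3))
  have hq := quad_pos heq d0 hne
  refine not_max_of_second d1 d0 d2 ?_ hloc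
  simp only at hq
  linarith

theorem ehrhard_interval {a0 b0 a1 b1 y0 y1 θ : ℝ} (hθ0 : 0 ≤ θ) (hθ1 : θ ≤ 1)
    (hy0 : Phi y0 ≤ Phi b0 - Phi a0) (hy1 : Phi y1 ≤ Phi b1 - Phi a1) :
    Phi ((1 - θ) * y0 + θ * y1) ≤ Phi ((1 - θ) * b0 + θ * b1) - Phi ((1 - θ) * a0 + θ * a1) := by
  have h := tri_convex (p1 := a0) (p2 := -b0) (p3 := y0) (v1 := a1 - a0) (v2 := b0 - b1)
    (v3 := y1 - y0) hθ0 hθ1 (by rw [Phi_neg, Qt]; linarith) (by
      rw [show -b0 + (b0 - b1) = -b1 by ring, Phi_neg, Qt, add_sub_cancel, add_sub_cancel]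
      linarith)
  rw [show -b0 + θ * (b0 - b1) = -((1 - θ) * b0 + θ * b1) by ring, Phi_neg, Qt,
    show a0 + θ * (a1 - a0) = (1 - θ) * a0 + θ * a1 by ring,
    show y0 + θ * (y1 - y0) = (1 - θ) * y0 + θ * y1 by ring] at h
  linarith

lemma exists_Icc_of_lt {J : Set ℝ} (hJ : Convex ℝ J) {y : ℝ} (h : Phi y < g1.real J) :
    ∃ a ∈ J, ∃ b ∈ J, a ≤ b ∧ ∃ y', y < y' ∧ Phi y' = Phi b - Phi a := by
  have hm : MeasurableSet J := hJ.ordConnected.measurableSet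
  have h1 : ENNReal.ofReal (Phi y) < g1 J :=
    (ENNReal.ofReal_lt_iff_lt_toReal (Phi_pos y).le (measure_ne_top _ _)).2 h
  obtain ⟨C, hCJ, hC, h2⟩ := hm.exists_lt_isCompact h1
  have h3 : Phi y < g1.real C :=
    (ENNReal.ofReal_lt_iff_lt_toReal (Phi_pos y).le (measure_ne_top _ _)).1 h2
  have hne : C.Nonempty := by
    rw [nonempty_iff_ne_empty]
    rintro rfl
    simp at h2
  obtain ⟨a, ha, ha'⟩ := hC.exists_isLeast hne
  obtain ⟨b, hb, hb'⟩ := hC.exists_isGreatest hne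
  have hab : a ≤ b := ha' hb
  have h4 : Phi y < Phi b - Phi a := by
    rw [← g1_Icc hab]
    exact h3.trans_le (measureReal_mono fun x hx => ⟨ha' hx, hb' hx⟩)
  obtain ⟨y', hy'⟩ := exists_Phi_eq (p := Phi b - Phi a) ((Phi_pos y).trans h4)
    (by linarith [Phi_lt_one b, Phi_pos a])
  exact ⟨a, hCJ ha, b, hCJ hb, hab, y', strictMono_Phi.lt_iff_lt.1 (by rw [hy']; exact h4), hy'⟩

lemma convex_slice {V W : Type} [AddCommGroup V] [Module ℝ V] [AddCommGroup W] [Module ℝ W]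
    {K : Set (V × W)} (hK : Convex ℝ K) (v : V) : Convex ℝ (Prod.mk v ⁻¹' K) := by
  intro x hx y hy a b ha hb hab
  have := hK hx hy ha hb hab
  simp only [Prod.smul_mk, Prod.mk_add_mk, ← add_smul, hab, one_smul] at this
  exact this

theorem ehrhard_one {V : Type} [AddCommGroup V] [Module ℝ V] (K : Set (V × ℝ)) (hK : Convex ℝ K) :
    Convex ℝ {q : V × ℝ | Phi q.2 < g1.real (Prod.mk q.1 ⁻¹' K)} := by
  rintro ⟨v0, y0⟩ h0 ⟨v1, y1⟩ h1 s θ hs hθ hst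
  obtain ⟨a0, ha0, b0, hb0, hab0, z0, hz0, e0⟩ := exists_Icc_of_lt (convex_slice hK v0) h0
  obtain ⟨a1, ha1, b1, hb1, hab1, z1, hz1, e1⟩ := exists_Icc_of_lt (convex_slice hK v1) h1
  obtain rfl : s = 1 - θ := by linarith
  have h2 := ehrhard_interval hθ (by linarith) e0.le e1.le
  have hab : (1 - θ) * a0 + θ * a1 ≤ (1 - θ) * b0 + θ * b1 := by gcongr
  have ha : (1 - θ) * a0 + θ * a1 ∈ Prod.mk ((1 - θ) • v0 + θ • v1) ⁻¹' K := hK ha0 ha1 hs hθ hst
  have hb : (1 - θ) * b0 + θ * b1 ∈ Prod.mk ((1 - θ) • v0 + θ • v1) ⁻¹' K := hK hb0 hb1 hs hθ hst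
  have h3 : (1 - θ) * y0 + θ * y1 < (1 - θ) * z0 + θ * z1 := by
    simp only at hz0 hz1
    rcases hθ.eq_or_lt with h | h
    · rw [← h]; simpa using hz0
    · nlinarith
  change Phi ((1 - θ) * y0 + θ * y1) < g1.real (Prod.mk ((1 - θ) • v0 + θ • v1) ⁻¹' K)
  refine (strictMono_Phi h3).trans_le (h2.trans ?_)
  rw [← g1_Icc hab]
  exact measureReal_mono ((convex_slice hK _).ordConnected.out ha hb)

end Vale.Agent.P226
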