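import Vale.Agent.P226.Geom
import Vale.Agent.P226.ArithB

open MeasureTheory ProbabilityTheory Set Real Filter Topology
open scoped RealInnerProductSpace

namespace Vale.Agent.P226

variable {d : ℕ}

lemma Crit.F_ge {k : ℕ} {z : Fin k → Euc d} (h : Crit z) : 0.358098 ≤ ∑ i, ‖z i‖ ^ 2 := by
  have h1 := h.hF
  rw [cc_sq] at h1
  refine le_trans ?_ h1.le
  rw [le_div_iff₀ (by positivity)]
  linarith [pi_lt_d6]

lemma Crit.inner_tail {k n : ℕ} {z : Fin k → Euc d} (h : Crit z) {tl : Fin n → Fin k} {i : Fin k}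
    (hi : ∀ m, i < tl m) : ⟪z i, ∑ m, z (tl m)⟫ ≤ 0 := by
  rw [inner_sum]
  exact Finset.sum_nonpos fun m _ => (h.hneg _ _ (hi m).ne).le

lemma Crit.norm_tail {k n : ℕ} {z : Fin k → Euc d} (h : Crit z) {tl : Fin n → Fin k}
    (htl : Function.Injective tl) : ‖∑ m, z (tl m)‖ ^ 2 ≤ ∑ m, ‖z (tl m)‖ ^ 2 :=
  norm_sum_sq_le (fun m => z (tl m)) fun _ _ hij => (h.hneg _ _ (htl.ne hij)).le

lemma tail_sum_le {n : ℕ} {t p : Fin n → ℝ} {b : ℝ} (h : ∀ m, t m ≤ b * p m) :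
    ∑ m, t m ≤ b * ∑ m, p m := by
  rw [Finset.mul_sum]
  exact Finset.sum_le_sum fun m _ => h m

lemma caseA {k : ℕ} {z : Fin (k + 2) → Euc d} (h : Crit z) {s : Fin (k + 2) → ℝ}
    (c : ∀ j, Cel (s j) ((gam d).real (cell z j)) (kap (s j)) (‖z j‖ ^ 2))
    {n : ℕ} (i1 i2 i3 i4 : Fin (k + 2)) (tl : Fin n → Fin (k + 2))
    (hsum : ∀ {M : Type} [AddCommMonoid M] (f : Fin (k + 2) → M),
      ∑ i, f i = f i1 + f i2 + f i3 + f i4 + ∑ m, f (tl m))
    (ha : Antitone (fun i => (gam d).real (cell z i)))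
    (l12 : i1 < i2) (l23 : i2 < i3) (l34 : i3 < i4) (l4 : ∀ m, i4 < tl m)
    (htl : Function.Injective tl) (hs : 1.34 ≤ s i4) : False := by
  have l13 := l12.trans l23
  have l14 := l13.trans l34
  have l24 := l23.trans l34
  have hv : z i1 + z i2 + z i3 + z i4 + ∑ m, z (tl m) = 0 := by rw [← hsum z, h.sum_eq]
  have hp := sum_measure_cell h.inj
  rw [hsum] at hp
  have hF := h.F_ge
  rw [hsum] at hF
  have r1 := h.inner_tail fun m => l14.trans (l4 m)
  have r2 := h.inner_tail fun m => l24.trans (l4 m)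
  have r3 := h.inner_tail fun m => l34.trans (l4 m)
  have r4 := h.inner_tail l4
  have hη := h.norm_tail htl
  have n12 := (h.hneg _ _ l12.ne).le
  have n13 := (h.hneg _ _ l13.ne).le
  have n14 := (h.hneg _ _ l14.ne).le
  have n23 := (h.hneg _ _ l23.ne).le
  have n24 := (h.hneg _ _ l24.ne).le
  have n34 := (h.hneg _ _ l34.ne).le
  have hcap := fun e he hdet => cap5 (z i1) (z i2) (z i3) (z i4) _ hv n12 n13 n14 r1 n24 r2 n34 r3
    r4 (g := 1) zero_le_one hη (A := cell z i4) (fun x hx => by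
      simp only [inner_sub_right, one_smul, sub_pos]
      exact ⟨hx _ l14.ne, hx _ l24.ne, hx _ l34.ne⟩) (e := e) he hdet
  generalize ∑ m, z (tl m) = y at hv r1 r2 r3 r4 hη
  have row : ∀ v : Euc d, ⟪v, z i1⟫ + ⟪v, z i2⟫ + ⟪v, z i3⟫ + ⟪v, z i4⟫ + ⟪v, y⟫ = 0 := by
    intro v
    rw [← inner_add_right, ← inner_add_right, ← inner_add_right, ← inner_add_right, hv,
      inner_zero_right]
  have q1 := row (z i1)
  have q2 := row (z i2)
  have q3 := row (z i3)
  have q4 := row (z i4)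
  have q5 := row y
  rw [real_inner_self_eq_norm_sq] at q1 q2 q3 q4 q5
  rw [real_inner_comm (z i1)] at q2 q3 q4 q5
  rw [real_inner_comm (z i2)] at q3 q4 q5
  rw [real_inner_comm (z i3)] at q4 q5
  rw [real_inner_comm (z i4)] at q5
  refine partA (c i1) (c i2) (c i3) (c i4) (ha l12.le) (ha l23.le)
    (ε := ∑ m, (gam d).real (cell z (tl m))) (η := ∑ m, ‖z (tl m)‖ ^ 2)
    (Finset.sum_nonneg fun _ _ => measureReal_nonneg) hp hF hs
    (tail_sum_le fun m => (c (tl m)).m20 (ha (l4 m).le))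
    (fun hq => tail_sum_le fun m => (c (tl m)).m18 (ha (l4 m).le) hq)
    (fun hq => tail_sum_le fun m => (c (tl m)).m17 (ha (l4 m).le) hq)
    (a12 := -⟪z i1, z i2⟫) (a13 := -⟪z i1, z i3⟫) (a23 := -⟪z i2, z i3⟫)
    (w1 := -⟪z i1, z i4⟫ + -⟪z i1, y⟫) (w2 := -⟪z i2, z i4⟫ + -⟪z i2, y⟫)
    (w3 := -⟪z i3, z i4⟫ + -⟪z i3, y⟫) (by linarith) (by linarith) (by linarith) (by linarith)
    (by linarith) (by linarith) (by linarith) (by linarith) (by linarith) (by linarith)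
    fun e he hdet => ?_
  have := hcap e he hdet
  norm_num at this ⊢
  exact this

lemma caseC {k : ℕ} {z : Fin (k + 2) → Euc d} (h : Crit z) {s : Fin (k + 2) → ℝ}
    (c : ∀ j, Cel (s j) ((gam d).real (cell z j)) (kap (s j)) (‖z j‖ ^ 2))
    {n : ℕ} (i1 i2 i3 i4 i5 : Fin (k + 2)) (tl : Fin n → Fin (k + 2))
    (hsum : ∀ {M : Type} [AddCommMonoid M] (f : Fin (k + 2) → M),
      ∑ i, f i = f i1 + f i2 + f i3 + f i4 + f i5 + ∑ m, f (tl m))
    (ha : Antitone (fun i => (gam d).real (cell z i)))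
    (l12 : i1 < i2) (l23 : i2 < i3) (l34 : i3 < i4) (l45 : i4 < i5) (l5 : ∀ m, i5 < tl m)
    (htl : Function.Injective tl) (hs : s i4 ≤ 1.34) : False := by
  have l13 := l12.trans l23
  have l14 := l13.trans l34
  have l24 := l23.trans l34
  have l15 := l14.trans l45
  have l25 := l24.trans l45
  have l35 := l34.trans l45
  have hp := sum_measure_cell h.inj
  rw [hsum] at hp
  have hF := h.F_ge
  rw [hsum] at hF
  have hε : 0 ≤ ∑ m, (gam d).real (cell z (tl m)) := Finset.sum_nonneg fun _ _ => measureReal_nonneg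
  rcases le_total (s i5) 1.65 with hs5 | hs5
  · refine partD (c i1) (c i2) (c i3) (c i4) (c i5) (ha l12.le) (ha l23.le) (ha l34.le) (ha l45.le)
      hε hp hF hs hs5 (tail_sum_le fun m => (c (tl m)).T7 ((c (tl m)).s_ge_067 ?_))
    have a1 : (gam d).real (cell z (tl m)) ≤ (gam d).real (cell z i1) := ha (l15.trans (l5 m)).le
    have a2 : (gam d).real (cell z (tl m)) ≤ (gam d).real (cell z i2) := ha (l25.trans (l5 m)).le
    have a3 : (gam d).real (cell z (tl m)) ≤ (gam d).real (cell z i3) := ha (l35.trans (l5 m)).le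
    have a4 : (gam d).real (cell z (tl m)) ≤ (gam d).real (cell z i4) := ha (l45.trans (l5 m)).le
    linarith [(c i5).p_pos]
  have hv : z i1 + z i2 + z i3 + z i4 + z i5 + ∑ m, z (tl m) = 0 := by rw [← hsum z, h.sum_eq]
  have r1 := h.inner_tail fun m => l15.trans (l5 m)
  have r2 := h.inner_tail fun m => l25.trans (l5 m)
  have r3 := h.inner_tail fun m => l35.trans (l5 m)
  have r4 := h.inner_tail fun m => l45.trans (l5 m)
  have r5 := h.inner_tail l5
  have hη := h.norm_tail htl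
  have n12 := (h.hneg _ _ l12.ne).le
  have n13 := (h.hneg _ _ l13.ne).le
  have n14 := (h.hneg _ _ l14.ne).le
  have n15 := (h.hneg _ _ l15.ne).le
  have n23 := (h.hneg _ _ l23.ne).le
  have n24 := (h.hneg _ _ l24.ne).le
  have n25 := (h.hneg _ _ l25.ne).le
  have n34 := (h.hneg _ _ l34.ne).le
  have n35 := (h.hneg _ _ l35.ne).le
  have n45 := (h.hneg _ _ l45.ne).le
  have hcap := fun e he hdet => cap5 (z i1) (z i2) (z i3 + z i4) (z i5) _
    (by rw [← hv]; abel) n12 (by rw [inner_add_right]; linarith) n15 r1 n25 r2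
    (by rw [inner_add_left]; linarith) (by rw [inner_add_left]; linarith)
    r5 (g := 2) zero_le_two hη (A := cell z i5) (fun x hx => by
      simp only [inner_sub_right, sub_pos, inner_add_right, real_inner_smul_right]
      exact ⟨hx _ l15.ne, hx _ l25.ne, by linarith [hx _ l35.ne, hx _ l45.ne]⟩) (e := e) he hdet
  generalize ∑ m, z (tl m) = y at hv r1 r2 r3 r4 r5 hη
  have row : ∀ v : Euc d,
      ⟪v, z i1⟫ + ⟪v, z i2⟫ + ⟪v, z i3⟫ + ⟪v, z i4⟫ + ⟪v, z i5⟫ + ⟪v, y⟫ = 0 := by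
    intro v
    rw [← inner_add_right, ← inner_add_right, ← inner_add_right, ← inner_add_right,
      ← inner_add_right, hv, inner_zero_right]
  have q1 := row (z i1)
  have q2 := row (z i2)
  have q3 := row (z i3)
  have q4 := row (z i4)
  have q5 := row (z i5)
  have q6 := row y
  rw [real_inner_self_eq_norm_sq] at q1 q2 q3 q4 q5 q6
  rw [real_inner_comm (z i1)] at q2 q3 q4 q5 q6
  rw [real_inner_comm (z i2)] at q3 q4 q5 q6
  rw [real_inner_comm (z i3)] at q4 q5 q6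
  rw [real_inner_comm (z i4)] at q5 q6
  rw [real_inner_comm (z i5)] at q6
  refine partC (c i1) (c i2) (c i3) (c i4) (c i5) (ha l12.le) (ha l23.le) (ha l34.le)
    hε hp hF hs hs5
    (tail_sum_le fun m => (c (tl m)).m20 (ha (l5 m).le))
    (fun hq => tail_sum_le fun m => (c (tl m)).m18 (ha (l5 m).le) hq)
    (a12 := -⟪z i1, z i2⟫) (a13 := -⟪z i1, z i3⟫) (a14 := -⟪z i1, z i4⟫) (a23 := -⟪z i2, z i3⟫)
    (a24 := -⟪z i2, z i4⟫) (a34 := -⟪z i3, z i4⟫)
    (w1 := -⟪z i1, z i5⟫ + -⟪z i1, y⟫) (w2 := -⟪z i2, z i5⟫ + -⟪z i2, y⟫)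
    (w3 := -⟪z i3, z i5⟫ + -⟪z i3, y⟫) (w4 := -⟪z i4, z i5⟫ + -⟪z i4, y⟫)
    (by linarith) (by linarith) (by linarith) (by linarith)
    (by linarith) (by linarith) (by linarith) (by linarith) (by linarith) (by linarith)
    (by linarith) (by linarith) (by linarith) (by linarith) (by linarith)
    (h.norm_add_sq_le l13.ne) (h.norm_add_sq_le l14.ne) (h.norm_add_sq_le l23.ne)
    (h.norm_add_sq_le l24.ne) fun e he hdet => ?_
  have := hcap e he (by rw [inner_add_right, inner_add_right, neg_add, neg_add]; exact hdet)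
  norm_num at this ⊢
  exact this

lemma four_bound {v a b c : Euc d} (hv : v + a + b + c = 0) (hvc : ⟪v, c⟫ ≤ 0) {F : ℝ}
    (hF : F = ‖v‖ ^ 2 + ‖a‖ ^ 2 + ‖b‖ ^ 2 + ‖c‖ ^ 2) :
    0.4005438 * F + 0.7775553 * ‖v‖ ^ 2 - 0.1954749 * ‖c‖ ^ 2 - 0.1376351 ≤ F - HH ![a, b, c] := by
  have h1 : v = -(a + b + c) := by rw [← sub_eq_zero, ← hv]; abel
  have h2 : ‖v‖ ^ 2 = ‖a‖ ^ 2 + 2 * ⟪a, b⟫ + ‖b‖ ^ 2 + 2 * (⟪a, c⟫ + ⟪b, c⟫) + ‖c‖ ^ 2 := by
    rw [h1, norm_neg, norm_add_sq_real, norm_add_sq_real, inner_add_left]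
  have h3 : ⟪v, c⟫ = -(⟪a, c⟫ + ⟪b, c⟫ + ‖c‖ ^ 2) := by
    rw [h1, inner_neg_left, inner_add_left, inner_add_left, real_inner_self_eq_norm_sq]
  have p1 := sq_nonneg ‖a‖
  have p2 := sq_nonneg ‖b‖
  have p3 := sq_nonneg ‖c‖
  refine perimeter_bound ?_ ?_ (by linarith) (sq_nonneg _) p3
  · rw [norm_sub_sq_real, norm_sub_sq_real, norm_sub_sq_real]; linarith
  · rw [norm_sub_sq_real, norm_sub_sq_real]; linarith

lemma caseB {z : Fin 4 → Euc d} (h : Crit z) (hB : Bound d 3) {s : Fin 4 → ℝ}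
    (c : ∀ j, Cel (s j) ((gam d).real (cell z j)) (kap (s j)) (‖z j‖ ^ 2))
    (ha : Antitone (fun i => (gam d).real (cell z i))) (hs : s 3 ≤ 1.34) : False := by
  have hp := sum_measure_cell h.inj
  rw [Fin.sum_univ_four] at hp
  have hv := Crit.sum_eq (k := 3) h
  rw [Fin.sum_univ_four] at hv
  have hFe := Fin.sum_univ_four fun i => ‖z i‖ ^ 2
  have hd : ∀ j, ‖z j‖ ^ 2 ≤ 2 * kap (s j) - 3.7233 * kap (s j) ^ 2 := by
    intro j
    have h1 := Crit.F2 (n := 0) h hB j (c j).hs (c j).hp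
    have h2 : (3.7233 : ℝ) ≤ (((0 : ℕ) : ℝ) + 4) / (((0 : ℕ) : ℝ) + 3) * (8 * π / 9) := by
      push_cast
      linarith [pi_gt_d6]
    nlinarith [sq_nonneg (kap (s j))]
  have hr : ∀ j, ∑ i, ‖z i‖ ^ 2 - HH (fun l => z (j.succAbove l)) ≤ 4 / 3 * kap (s j) := by
    intro j
    have h1 := Crit.removal (n := 2) h j (c j).hp
    rw [Crit.HH_eq (k := 3) h] at h1
    norm_num at h1 ⊢
    linarith
  have m0 : HH (fun l => z ((0 : Fin 4).succAbove l)) ≤ HH ![z 1, z 2, z 3] :=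
    HH_mono fun l => ⟨l, by fin_cases l <;> rfl⟩
  have m1 : HH (fun l => z ((1 : Fin 4).succAbove l)) ≤ HH ![z 0, z 2, z 3] :=
    HH_mono fun l => ⟨l, by fin_cases l <;> rfl⟩
  have m2 : HH (fun l => z ((2 : Fin 4).succAbove l)) ≤ HH ![z 0, z 1, z 3] :=
    HH_mono fun l => ⟨l, by fin_cases l <;> rfl⟩
  have b0 := four_bound (v := z 0) (a := z 1) (b := z 2) (c := z 3) hv
    (h.hneg _ _ (by decide)).le hFe
  have b1 := four_bound (v := z 1) (a := z 0) (b := z 2) (c := z 3) (F := ∑ i, ‖z i‖ ^ 2)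
    (by rw [← hv]; abel) (h.hneg _ _ (by decide)).le (by rw [hFe]; ring)
  have b2 := four_bound (v := z 2) (a := z 0) (b := z 1) (c := z 3) (F := ∑ i, ‖z i‖ ^ 2)
    (by rw [← hv]; abel) (h.hneg _ _ (by decide)).le (by rw [hFe]; ring)
  exact partB (c 0) (c 1) (c 2) (c 3) (ha (by decide)) (ha (by decide)) (ha (by decide))
    (hd 0) (hd 1) (hd 2) (hd 3) hp hFe h.F_ge hs (by linarith [hr 0]) (by linarith [hr 1])
    (by linarith [hr 2])

lemma sum_four {n : ℕ} {M : Type} [AddCommMonoid M] (f : Fin (n + 4) → M) :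
    ∑ i, f i = f ⟨0, by omega⟩ + f ⟨1, by omega⟩ + f ⟨2, by omega⟩ + f ⟨3, by omega⟩
      + ∑ m : Fin n, f ⟨m + 4, by omega⟩ := by
  rw [Fin.sum_univ_succ, Fin.sum_univ_succ, Fin.sum_univ_succ, Fin.sum_univ_succ]
  simp only [add_assoc]
  rfl

lemma sum_five {n : ℕ} {M : Type} [AddCommMonoid M] (f : Fin (n + 5) → M) :
    ∑ i, f i = f ⟨0, by omega⟩ + f ⟨1, by omega⟩ + f ⟨2, by omega⟩ + f ⟨3, by omega⟩
      + f ⟨4, by omega⟩ + ∑ m : Fin n, f ⟨m + 5, by omega⟩ := by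
  rw [Fin.sum_univ_succ, Fin.sum_univ_succ, Fin.sum_univ_succ, Fin.sum_univ_succ,
    Fin.sum_univ_succ]
  simp only [add_assoc]
  rfl

lemma bound_step {n : ℕ} (hB : Bound d (n + 3)) : Bound d (n + 4) := by
  by_contra hn
  obtain ⟨z, h, ha⟩ := exists_sorted_crit (n := n + 2) hB hn
  choose s hs0 hs using fun j => Crit.exists_s (n := n + 2) h j
  have c := fun j => Crit.cel (n := n) h hB j (hs0 j) (hs j)
  rcases le_total 1.34 (s ⟨3, by omega⟩) with h4 | h4
  · exact caseA (k := n + 2) h c _ _ _ _ _ sum_four ha (by simp [Fin.lt_def])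
      (by simp [Fin.lt_def]) (by simp [Fin.lt_def]) (fun m => by simp [Fin.lt_def])
      (fun a b hab => by simpa [Fin.ext_iff] using hab) h4
  · rcases n with _ | n
    · exact caseB h hB c ha h4
    · exact caseC (k := n + 3) h c _ _ _ _ _ _ sum_five ha (by simp [Fin.lt_def])
        (by simp [Fin.lt_def]) (by simp [Fin.lt_def]) (by simp [Fin.lt_def])
        (fun m => by simp [Fin.lt_def]) (fun a b hab => by simpa [Fin.ext_iff] using hab) h4

theorem bound_all (k : ℕ) : Bound d k := by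
  have h : ∀ n, Bound d (n + 3) := fun n => by
    induction n with
    | zero => exact bound_three
    | succ n ih => exact bound_step ih
  exact bound_of_succ (bound_of_succ (bound_of_succ (h k)))

theorem propeller {k : ℕ} {A : Fin k → Set (Euc d)} (hA : ∀ i, NullMeasurableSet (A i) (gam d))
    (hd : Pairwise (Function.onFun (AEDisjoint (gam d)) A)) (hc : (gam d) (⋃ i, A i)ᶜ = 0) :
    ∑ i, ‖mom (A i)‖ ^ 2 ≤ 9 / (8 * π) := by
  rcases Nat.eq_zero_or_pos k with rfl | hk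
  · simp only [Finset.univ_eq_empty, Finset.sum_empty]; positivity
  have : Nonempty (Fin k) := ⟨⟨0, hk⟩⟩
  have h1 := sum_inner_mom_le hA hd hc fun i => mom (A i)
  simp only [real_inner_self_eq_norm_sq] at h1
  rw [← cc_sq]
  exact le_sq_of_le_mul_sqrt cc_pos.le (h1.trans (bound_all k _))

end Vale.Agent.P226
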