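import Vale.Agent.P226.Basic

open MeasureTheory ProbabilityTheory Set Real Filter Topology
open scoped RealInnerProductSpace

namespace Vale.Agent.P226

/-- Euclidean space -/
abbrev Euc (d : ℕ) := EuclideanSpace ℝ (Fin d)

/-- standard Gaussian on Euclidean space -/
noncomputable abbrev gam (d : ℕ) : Measure (Euc d) := stdGaussian (Euc d)

variable {d : ℕ}

lemma map_inner (y : Euc d) :
    (gam d).map (fun x => ⟪x, y⟫) = g1.map (fun t => ‖y‖ * t) := by
  have h1 : (gam d).map (innerSL ℝ y) = gaussianReal 0 (‖y‖₊ ^ 2) := by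
    rw [IsGaussian.map_eq_gaussianReal, integral_strongDual_stdGaussian, variance_dual_stdGaussian,
      innerSL_apply_norm]
    congr 1
    ext
    simp
  have h2 : (fun x : Euc d => ⟪x, y⟫) = innerSL ℝ y := by
    ext x; simp [real_inner_comm]
  rw [h2, h1, g1, gaussianReal_map_const_mul]
  congr 1
  · simp
  · ext; simp

lemma integrable_id_gam : Integrable (fun x : Euc d => x) (gam d) := IsGaussian.integrable_id

lemma integrable_inner (y : Euc d) : Integrable (fun x : Euc d => ⟪x, y⟫) (gam d) :=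
  integrable_id_gam.inner_const y

lemma integral_inner_gam (y : Euc d) : ∫ x, ⟪x, y⟫ ∂(gam d) = 0 := by
  simp_rw [real_inner_comm y]
  rw [integral_inner integrable_id_gam, integral_id_stdGaussian, inner_zero_right]

lemma integral_comp_inner (y : Euc d) {f : ℝ → ℝ} (hf : Continuous f) :
    ∫ x, f ⟪x, y⟫ ∂(gam d) = ∫ t, f (‖y‖ * t) ∂g1 := by
  rw [← integral_map (φ := fun x : Euc d => ⟪x, y⟫) (by fun_prop) hf.aestronglyMeasurable,
    map_inner, integral_map (by fun_prop) hf.aestronglyMeasurable]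

lemma measure_inner_preimage (y : Euc d) {s : Set ℝ} (hs : MeasurableSet s) :
    (gam d) {x | ⟪x, y⟫ ∈ s} = g1 {t | ‖y‖ * t ∈ s} := by
  have h1 : (gam d) {x | ⟪x, y⟫ ∈ s} = ((gam d).map (fun x => ⟪x, y⟫)) s := by
    rw [Measure.map_apply (by fun_prop) hs]; rfl
  rw [h1, map_inner, Measure.map_apply (by fun_prop) hs]; rfl

lemma measure_inner_eq_zero {y : Euc d} (hy : y ≠ 0) : (gam d) {x | ⟪x, y⟫ = 0} = 0 := by
  have := measure_inner_preimage y (measurableSet_singleton (0 : ℝ))
  simp only [mem_singleton_iff] at this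
  rw [this]
  have h2 : {t : ℝ | ‖y‖ * t = 0} = {0} := by
    ext t; simp [hy]
  rw [h2, measure_singleton]

lemma measureReal_inner_pos {y : Euc d} (hy : y ≠ 0) :
    (gam d).real {x | 0 < ⟪x, y⟫} = 1 / 2 := by
  have := measure_inner_preimage y (measurableSet_Ioi (a := (0 : ℝ)))
  simp only [mem_Ioi] at this
  have h2 : {t : ℝ | 0 < ‖y‖ * t} = Ioi 0 := by
    ext t; simp [norm_pos_iff.2 hy]
  rw [Measure.real, this, h2, ← Measure.real, g1_Ioi, Qt_zero]

lemma integral_posPart_g1 (s : ℝ) : ∫ t, max (t - s) 0 ∂g1 = psi s := by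
  rw [integral_g1, psi_eq_integral, ← integral_indicator measurableSet_Ioi]
  congr 1
  ext x
  by_cases hx : s < x
  · simp [indicator, hx, max_eq_left (sub_nonneg.2 hx.le), mul_comm]
  · simp [indicator, hx, max_eq_right (sub_nonpos.2 (not_lt.1 hx))]

lemma integral_posPart_inner (y : Euc d) (s : ℝ) :
    ∫ x, max (⟪x, y⟫ - s * ‖y‖) 0 ∂(gam d) = ‖y‖ * psi s := by
  rw [integral_comp_inner y (f := fun t => max (t - s * ‖y‖) 0) (by fun_prop),
    ← integral_posPart_g1, ← integral_const_mul]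
  congr 1
  ext t
  rw [mul_max_of_nonneg _ _ (norm_nonneg y)]
  congr 1 <;> ring

lemma psi_zero : psi 0 = 1 / √(2 * π) := by simp [psi, phi_zero]

lemma integral_abs_inner (y : Euc d) : ∫ x, |⟪x, y⟫| ∂(gam d) = 2 * ‖y‖ / √(2 * π) := by
  have h1 := integral_posPart_inner y 0
  have h2 : ∀ x : Euc d, |⟪x, y⟫| = 2 * max (⟪x, y⟫ - 0 * ‖y‖) 0 - ⟪x, y⟫ := by
    intro x
    rcases le_total 0 ⟪x, y⟫ with h | h
    · simp [abs_of_nonneg h, max_eq_left h]; ring
    · simp [abs_of_nonpos h, max_eq_right h]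
  simp_rw [h2]
  rw [integral_sub, integral_const_mul, h1, integral_inner_gam, psi_zero]
  · ring
  · refine Integrable.const_mul ?_ 2
    exact ((integrable_inner y).sub (integrable_const _)).pos_part
  · exact integrable_inner y

/-- first moment of a set -/
noncomputable def mom (A : Set (Euc d)) : Euc d := ∫ x in A, x ∂(gam d)

lemma inner_mom (A : Set (Euc d)) (y : Euc d) : ⟪mom A, y⟫ = ∫ x in A, ⟪x, y⟫ ∂(gam d) := by
  rw [mom, real_inner_comm, ← integral_inner integrable_id_gam.integrableOn]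
  simp_rw [real_inner_comm y]

lemma inner_mom_le (A : Set (Euc d)) (y : Euc d) (s : ℝ) :
    ⟪mom A, y⟫ ≤ ‖y‖ * (psi s + s * (gam d).real A) := by
  rw [inner_mom]
  have hi : Integrable (fun x : Euc d => max (⟪x, y⟫ - s * ‖y‖) 0) (gam d) :=
    ((integrable_inner y).sub (integrable_const _)).pos_part
  calc ∫ x in A, ⟪x, y⟫ ∂(gam d)
      ≤ ∫ x in A, (max (⟪x, y⟫ - s * ‖y‖) 0 + s * ‖y‖) ∂(gam d) := by
        apply integral_mono (integrable_inner y).integrableOn
          (hi.add (integrable_const _)).integrableOn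
        intro x
        have := le_max_left (⟪x, y⟫ - s * ‖y‖) 0
        simp only [Pi.add_apply]
        linarith
    _ = ∫ x in A, max (⟪x, y⟫ - s * ‖y‖) 0 ∂(gam d) + (gam d).real A * (s * ‖y‖) := by
        rw [integral_add hi.integrableOn (integrable_const _).integrableOn]
        simp
    _ ≤ ‖y‖ * psi s + (gam d).real A * (s * ‖y‖) := by
        rw [← integral_posPart_inner]
        have := setIntegral_le_integral (s := A) hi
          (Eventually.of_forall fun x => le_max_right _ _)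
        linarith
    _ = _ := by ring

lemma norm_mom_le {A : Set (Euc d)} {s : ℝ} (h : (gam d).real A = Qt s) : ‖mom A‖ ≤ phi s := by
  have h1 := inner_mom_le A (mom A) s
  rw [h, real_inner_self_eq_norm_sq] at h1
  have h2 : psi s + s * Qt s = phi s := by unfold psi; ring
  rw [h2] at h1
  rcases eq_or_lt_of_le (norm_nonneg (mom A)) with h0 | h0
  · rw [← h0]; exact (phi_pos s).le
  · nlinarith

lemma norm_mom_sq_le (A : Set (Euc d)) : ‖mom A‖ ^ 2 ≤ 1 / (2 * π) := by
  have h1 := inner_mom_le A (mom A) 0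
  rw [real_inner_self_eq_norm_sq, psi_zero, zero_mul, add_zero] at h1
  have h2 : ‖mom A‖ ≤ 1 / √(2 * π) := by
    rcases eq_or_lt_of_le (norm_nonneg (mom A)) with h0 | h0
    · rw [← h0]; positivity
    · nlinarith
  calc ‖mom A‖ ^ 2 ≤ (1 / √(2 * π)) ^ 2 := by gcongr
    _ = 1 / (2 * π) := by
      rw [div_pow, sq_sqrt (by positivity)]; norm_num

end Vale.Agent.P226
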