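import Vale.Agent.P226.Points

open MeasureTheory ProbabilityTheory Set Real Filter Topology

namespace Vale.Agent.P226

/-- what is known about one cell -/
structure Cel (s p k t : ℝ) : Prop where
  hs : 0 ≤ s
  hp : p = Qt s
  hk : k = kap s
  h1 : t ≤ phi s ^ 2
  h2 : t ≤ 2 * k - 2.7925 * k ^ 2

variable {s p k t : ℝ}

lemma Cel.p_pos (c : Cel s p k t) : 0 < p := by rw [c.hp]; exact Qt_pos s

lemma Cel.p_ge (c : Cel s p k t) {a : ℝ} (h : s ≤ a) : Qt a ≤ p := by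
  rw [c.hp]; exact strictAnti_Qt.antitone h

lemma Cel.p_le (c : Cel s p k t) {a : ℝ} (h : a ≤ s) : p ≤ Qt a := by
  rw [c.hp]; exact strictAnti_Qt.antitone h

lemma Cel.s_ge (c : Cel s p k t) {a : ℝ} (h : p ≤ Qt a) : a ≤ s := by
  rw [c.hp] at h; exact strictAnti_Qt.le_iff_ge.1 h

lemma Cel.s_le (c : Cel s p k t) {a : ℝ} (h : Qt a ≤ p) : s ≤ a := by
  rw [c.hp] at h; exact strictAnti_Qt.le_iff_ge.1 h

lemma Cel.lin (c : Cel s p k t) (k0 : ℝ) :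
    t ≤ (2 - 2 * 2.7925 * k0) * k + 2.7925 * k0 ^ 2 := by
  nlinarith [c.h2, sq_nonneg (k - k0)]

lemma Cel.two (c : Cel s p k t) : t ≤ 2 * k := by nlinarith [c.h2, sq_nonneg k]

lemma Cel.sq20 (c : Cel s p k t) : t ≤ 2 * p ^ 2 := by
  have := kap_le_sq s
  rw [← c.hk, ← c.hp] at this
  linarith [c.two]

lemma Cel.sq18 (c : Cel s p k t) (h : s ≤ 2.2) : t ≤ 1.8 * p ^ 2 := by
  have := kap_le_beta (β := 0.9) (by norm_num) (by norm_num) c.hs h (by norm_num)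
    (by nlinarith [kp220, pt220.2.2.1])
  rw [← c.hk, ← c.hp] at this
  linarith [c.two]

lemma Cel.sq17 (c : Cel s p k t) (h : s ≤ 1.47) : t ≤ 1.7 * p ^ 2 := by
  have := kap_le_beta (β := 0.85) (by norm_num) (by norm_num) c.hs h (by norm_num)
    (by nlinarith [kp147, pt147.2.2.1])
  rw [← c.hk, ← c.hp] at this
  linarith [c.two]

lemma Cel.m20 (c : Cel s p k t) {q : ℝ} (h : p ≤ q) : t ≤ 2 * q * p := by
  nlinarith [c.sq20, c.p_pos]

lemma Cel.m18 (c : Cel s p k t) {q : ℝ} (h : p ≤ q) (hq : 0.0155 ≤ q) : t ≤ 1.8 * q * p := by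
  rcases le_total s 2.2 with h1 | h1
  · nlinarith [c.sq18 h1, c.p_pos]
  · have h2 : p ≤ 0.0139035 := (c.p_le h1).trans pt220.2.2.2
    nlinarith [c.m20 h2, c.p_pos]

lemma Cel.m17 (c : Cel s p k t) {q : ℝ} (h : p ≤ q) (hq : 0.075 ≤ q) : t ≤ 1.7 * q * p := by
  rcases le_total s 1.47 with h1 | h1
  · nlinarith [c.sq17 h1, c.p_pos]
  · have h2 : p ≤ 0.0707809 := (c.p_le h1).trans pt147.2.2.2
    nlinarith [c.m18 h2 (by norm_num), c.p_pos]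

lemma Cel.tangent (c : Cel s p k t) {s0 a b q e α σ : ℝ} (h0 : 0 ≤ s0) (h1 : s0 ≤ 1)
    (hp : a ≤ phi s0 ∧ phi s0 ≤ b ∧ q ≤ Qt s0 ∧ Qt s0 ≤ e) (ha : 0 ≤ a) (hq : 0 ≤ q)
    (hσ : 2 * s0 * b ≤ σ) (hα : b ^ 2 - 2 * s0 * a * q ≤ α) (hα0 : 0 ≤ α)
    (hl : 2 * 0.1586553 ^ 2 ≤ α + σ * 0.1586553) : t ≤ α + σ * p := by
  obtain ⟨e1, e2, e3, -⟩ := hp
  have hp0 := c.p_pos
  rcases le_total s 1 with hs | hs
  · have h2 := phi_sq_tangent h0 h1 c.hs hs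
    rw [← c.hp] at h2
    have h3 : phi s0 ^ 2 ≤ b ^ 2 := by gcongr; exact (phi_pos s0).le
    have h4 : a * q ≤ phi s0 * Qt s0 := mul_le_mul e1 e3 hq (phi_pos s0).le
    have h5 : 2 * s0 * phi s0 ≤ σ := by nlinarith
    have h6 : 2 * s0 * phi s0 * p ≤ σ * p := by gcongr
    nlinarith [c.h1, mul_le_mul_of_nonneg_left h4 h0]
  · have h2 : p ≤ 0.1586553 := (c.p_le hs).trans pt100.2.2.2
    have h3 := c.m20 h2
    nlinarith

lemma Cel.ch_040_067 (c : Cel s p k t) (h1 : 0.4 ≤ s) (h2 : s ≤ 0.67) :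
    k ≤ -0.0518648 + 0.3968 * p := by
  rw [c.hk, c.hp]
  exact kap_chord (by norm_num) h1 h2 (by linarith [kp040, pt040.2.2.1])
    (by linarith [kp067, pt067.2.2.1])

lemma Cel.ch_0516_067 (c : Cel s p k t) (h1 : 0.516 ≤ s) (h2 : s ≤ 0.67) :
    k ≤ -0.0471402 + 0.3780 * p := by
  rw [c.hk, c.hp]
  exact kap_chord (by norm_num) h1 h2 (by linarith [kp0516, pt0516.2.2.1])
    (by linarith [kp067, pt067.2.2.1])

lemma Cel.ch_067_086 (c : Cel s p k t) (h1 : 0.67 ≤ s) (h2 : s ≤ 0.86) :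
    k ≤ -0.0327333 + 0.3207 * p := by
  rw [c.hk, c.hp]
  exact kap_chord (by norm_num) h1 h2 (by linarith [kp067, pt067.2.2.1])
    (by linarith [kp086, pt086.2.2.1])

lemma Cel.ch_086_117 (c : Cel s p k t) (h1 : 0.86 ≤ s) (h2 : s ≤ 1.17) :
    k ≤ -0.0170994 + 0.2405 * p := by
  rw [c.hk, c.hp]
  exact kap_chord (by norm_num) h1 h2 (by linarith [kp086, pt086.2.2.1])
    (by linarith [kp117, pt117.2.2.1])

lemma Cel.ch_117_134 (c : Cel s p k t) (h1 : 1.17 ≤ s) (h2 : s ≤ 1.34) :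
    k ≤ -0.0084102 + 0.1687 * p := by
  rw [c.hk, c.hp]
  exact kap_chord (by norm_num) h1 h2 (by linarith [kp117, pt117.2.2.1])
    (by linarith [kp134, pt134.2.2.1])

lemma Cel.ch_067_117 (c : Cel s p k t) (h1 : 0.67 ≤ s) (h2 : s ≤ 1.17) :
    k ≤ -0.0212934 + 0.2752 * p := by
  rw [c.hk, c.hp]
  exact kap_chord (by norm_num) h1 h2 (by linarith [kp067, pt067.2.2.1])
    (by linarith [kp117, pt117.2.2.1])

lemma Cel.ch_067_134 (c : Cel s p k t) (h1 : 0.67 ≤ s) (h2 : s ≤ 1.34) :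
    k ≤ -0.0161642 + 0.2548 * p := by
  rw [c.hk, c.hp]
  exact kap_chord (by norm_num) h1 h2 (by linarith [kp067, pt067.2.2.1])
    (by linarith [kp134, pt134.2.2.1])

lemma Cel.ch_067_165 (c : Cel s p k t) (h1 : 0.67 ≤ s) (h2 : s ≤ 1.65) :
    k ≤ -0.0090991 + 0.2267 * p := by
  rw [c.hk, c.hp]
  exact kap_chord (by norm_num) h1 h2 (by linarith [kp067, pt067.2.2.1])
    (by linarith [kp165, pt165.2.2.1])

lemma Cel.ch_086_165 (c : Cel s p k t) (h1 : 0.86 ≤ s) (h2 : s ≤ 1.65) :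
    k ≤ -0.0072989 + 0.1902 * p := by
  rw [c.hk, c.hp]
  exact kap_chord (by norm_num) h1 h2 (by linarith [kp086, pt086.2.2.1])
    (by linarith [kp165, pt165.2.2.1])

lemma Cel.G1 (c : Cel s p k t) : t ≤ 0.01278 + 0.36040 * p :=
  c.tangent (by norm_num) (by norm_num) pt0516 (by norm_num) (by norm_num) (by norm_num)
    (by norm_num) (by norm_num) (by norm_num)

lemma Cel.G2 (c : Cel s p k t) : t ≤ 0.07193 + 0.19334 * p :=
  c.tangent (by norm_num) (by norm_num) pt025 (by norm_num) (by norm_num) (by norm_num)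
    (by norm_num) (by norm_num) (by norm_num)

lemma Cel.G3 (c : Cel s p k t) : t ≤ 0.03411 + 0.29462 * p :=
  c.tangent (by norm_num) (by norm_num) pt040 (by norm_num) (by norm_num) (by norm_num)
    (by norm_num) (by norm_num) (by norm_num)

lemma Cel.T2 (c : Cel s p k t) (h1 : 0.67 ≤ s) (h2 : s ≤ 0.86) : t ≤ -0.05526 + 0.57693 * p := by
  linarith [c.lin 0.036, c.ch_067_086 h1 h2, c.p_pos]

lemma Cel.T1 (c : Cel s p k t) (h : s ≤ 0.86) : t ≤ 0.6 * p - 0.0596 := by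
  rcases le_total s 0.516 with h1 | h1
  · linarith [c.G1, c.p_ge h1, pt0516.2.2.1]
  · rcases le_total s 0.67 with h2 | h2
    · linarith [c.lin 0.064, c.ch_0516_067 h1 h2, c.p_le h1, pt0516.2.2.2]
    · linarith [c.T2 h2 h, c.p_ge h, pt086.2.2.1]

lemma Cel.T4 (c : Cel s p k t) (h1 : 0.67 ≤ s) (h2 : s ≤ 1.34) : t ≤ 0.6 * p - 0.04055 := by
  linarith [c.lin 0.009, c.ch_067_134 h1 h2, c.p_ge h2, pt134.2.2.1]

lemma Cel.T4' (c : Cel s p k t) (h1 : 0.67 ≤ s) (h2 : s ≤ 1.17) : t ≤ 0.6 * p - 0.0489 := by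
  linarith [c.lin 0.015, c.ch_067_117 h1 h2, c.p_ge h2, pt117.2.2.1]

lemma Cel.T5 (c : Cel s p k t) (h1 : 0.67 ≤ s) (h2 : s ≤ 1.65) : t ≤ 0.6 * p - 0.02544 := by
  linarith [c.lin 0.003, c.ch_067_165 h1 h2, c.p_ge h2, pt165.2.2.1]

lemma Cel.T6 (c : Cel s p k t) (h1 : 0.86 ≤ s) (h2 : s ≤ 1.65) : t ≤ 0.3604 * p - 0.0127 := by
  linarith [c.lin 0.02, c.ch_086_165 h1 h2, c.p_ge h2, pt165.2.2.1, c.p_le h1, pt086.2.2.2]

lemma Cel.T7 (c : Cel s p k t) (h1 : 0.67 ≤ s) : t ≤ 0.356 * p := by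
  rcases le_total s 1.65 with h2 | h2
  · linarith [c.lin 0.045, c.ch_067_165 h1 h2, c.p_le h1, pt067.2.2.2]
  · have h3 : p ≤ 0.0494715 := (c.p_le h2).trans pt165.2.2.2
    linarith [c.m20 h3, c.p_pos]

lemma Cel.T8 (c : Cel s p k t) (h1 : 0.86 ≤ s) : t ≤ 0.2935 * p := by
  rcases le_total s 1.65 with h2 | h2
  · linarith [c.lin 0.027, c.ch_086_165 h1 h2, c.p_le h1, pt086.2.2.2]
  · have h3 : p ≤ 0.0494715 := (c.p_le h2).trans pt165.2.2.2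
    linarith [c.m20 h3, c.p_pos]

lemma Cel.T9 (c : Cel s p k t) (h1 : 1.17 ≤ s) (h2 : s ≤ 1.34) : t ≤ -0.016165 + 0.328921 * p := by
  linarith [c.lin 0.009, c.ch_117_134 h1 h2, c.p_pos]

lemma Cel.s_ge_067 (c : Cel s p k t) (h : p ≤ 1 / 4) : 0.67 ≤ s :=
  c.s_ge (by linarith [pt067.2.2.1])

end Vale.Agent.P226
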