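import Vale.Agent.P226.Remove
import Vale.Agent.P226.Lines

open MeasureTheory ProbabilityTheory Set Real Filter Topology
open scoped RealInnerProductSpace

namespace Vale.Agent.P226

variable {d : ℕ}

lemma real_F2 {c F a b : ℝ} (hc : 0 < c) (hF : c ^ 2 < F) (h : F - c * √(F - a) ≤ b)
    (hb : b ^ 2 ≤ c ^ 2 * (c ^ 2 - a)) : c ^ 2 * a ≤ 2 * c ^ 2 * b - b ^ 2 := by
  have hc2 : 0 < c ^ 2 := by positivity
  have h0 : 0 ≤ c ^ 2 - a := by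
    by_contra hn
    push Not at hn
    nlinarith [sq_nonneg b, mul_pos hc2 (neg_pos.2 hn)]
  have hFa : 0 ≤ F - a := by linarith
  set y := √(F - a) with hy
  have hy0 : 0 ≤ y := sqrt_nonneg _
  have hy2 : y ^ 2 = F - a := sq_sqrt hFa
  have h1 : c ^ 2 - b ≤ c * y := by linarith
  have h2 : b ≤ c * y := by
    apply le_of_sq_le_sq _ (by positivity)
    · nlinarith
  nlinarith [mul_nonneg (sub_nonneg.2 h1) (sub_nonneg.2 h2)]

lemma kap_le_zero {s : ℝ} (hs : 0 ≤ s) : kap s ≤ 1 / (2 * π) := by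
  have h := kap_antitone (mem_Ici.2 le_rfl) (mem_Ici.2 hs) hs
  refine h.trans (le_of_eq ?_)
  rw [kap, psi_zero, phi_zero, ← sq, div_pow, sq_sqrt (by positivity)]
  norm_num

lemma kap_nonneg (s : ℝ) : 0 ≤ kap s := mul_nonneg (phi_pos s).le (psi_nonneg s)

lemma norm_sum_sq_le {ι : Type} [Fintype ι] (y : ι → Euc d) (h : ∀ i j, i ≠ j → ⟪y i, y j⟫ ≤ 0) :
    ‖∑ i, y i‖ ^ 2 ≤ ∑ i, ‖y i‖ ^ 2 := by
  classical
  rw [← real_inner_self_eq_norm_sq, sum_inner]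
  refine Finset.sum_le_sum fun i _ => ?_
  rw [inner_sum, ← Finset.add_sum_erase _ _ (Finset.mem_univ i), real_inner_self_eq_norm_sq]
  have : ∑ j ∈ Finset.univ.erase i, ⟪y i, y j⟫ ≤ 0 :=
    Finset.sum_nonpos fun j hj => h i j (Finset.ne_of_mem_erase hj).symm
  linarith

namespace Crit
variable {n : ℕ} {z : Fin (n + 2) → Euc d}

lemma exists_s (h : Crit z) (j : Fin (n + 2)) :
    ∃ s, 0 ≤ s ∧ (gam d).real (cell z j) = Qt s := by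
  obtain ⟨i, hi⟩ := exists_ne j
  have h1 : (gam d).real (cell z j) ≤ 1 / 2 := by
    rw [← measureReal_inner_pos (y := z j - z i) (sub_ne_zero.2 fun h' => hi (h.inj h').symm)]
    refine measureReal_mono fun x hx => ?_
    have := hx i hi
    simp only [mem_ofPred_eq, inner_sub_right]
    linarith
  have h2 : 0 < (gam d).real (cell z j) := by
    rcases eq_or_lt_of_le (measureReal_nonneg (μ := gam d) (s := cell z j)) with h0 | h0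
    · exfalso
      have h3 : (gam d) (cell z j) = 0 := (measureReal_eq_zero_iff (by finiteness)).1 h0.symm
      have h4 : z j = 0 := by
        rw [← h.hz j, mom, Measure.restrict_eq_zero.2 h3, integral_zero_measure]
      have := h.hneg i j hi
      rw [h4, inner_zero_right] at this
      exact lt_irrefl _ this
    · exact h0
  obtain ⟨s, hs⟩ := exists_Qt_eq h2 (by linarith)
  refine ⟨s, ?_, hs.symm⟩
  apply strictAnti_Qt.le_iff_ge.1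
  rw [hs, Qt_zero]; exact h1

lemma HH_remove (h : Crit z) (hB : Bound d (n + 1)) (j : Fin (n + 2)) :
    HH (fun l => z (j.succAbove l)) ≤
      cc * √(∑ i, ‖z i‖ ^ 2 - (n + 2) / (n + 1) * ‖z j‖ ^ 2) := by
  have hn : (0 : ℝ) < n + 1 := by positivity
  rw [← HH_sub_const _ (-((1 / (n + 1 : ℝ)) • z j))]
  refine (hB _).trans (le_of_eq ?_)
  congr 2
  have h1 : ∑ l, z (j.succAbove l) = -z j := by
    have := h.sum_eq
    rw [Fin.sum_univ_succAbove _ j] at this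
    exact eq_neg_of_add_eq_zero_right this
  simp_rw [sub_neg_eq_add, norm_add_sq_real, Finset.sum_add_distrib, ← Finset.mul_sum,
    ← sum_inner, h1]
  rw [Fin.sum_univ_succAbove (fun i => ‖z i‖ ^ 2) j, inner_neg_left, real_inner_smul_right,
    real_inner_self_eq_norm_sq, norm_smul, mul_pow, Real.norm_eq_abs, sq_abs]
  simp only [Finset.sum_const, Finset.card_univ, Fintype.card_fin, nsmul_eq_mul]
  push_cast
  field_simp
  ring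

lemma norm_sq_le (h : Crit z) (j : Fin (n + 2)) : ‖z j‖ ^ 2 ≤ 1 / (2 * π) := by
  rw [← h.hz j]; exact norm_mom_sq_le _

lemma norm_add_sq_le (h : Crit z) {i j : Fin (n + 2)} (hij : i ≠ j) :
    ‖z i‖ ^ 2 + ‖z j‖ ^ 2 - 2 * (-⟪z i, z j⟫) ≤ 0.159155 := by
  have h1 := norm_mom_sq_le (cell z i ∪ cell z j)
  rw [mom_union (disjoint_cell z hij) (measurableSet_cell z j), h.hz, h.hz,
    norm_add_sq_real] at h1
  have h2 : 1 / (2 * π) ≤ 0.159155 := by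
    rw [div_le_iff₀ (by positivity)]; linarith [pi_gt_d6]
  linarith

end Crit

lemma Crit.F2 {n : ℕ} {z : Fin (n + 4) → Euc d} (h : Crit z) (hB : Bound d (n + 3))
    (j : Fin (n + 4)) {s : ℝ} (hs0 : 0 ≤ s) (hs : (gam d).real (cell z j) = Qt s) :
    ‖z j‖ ^ 2 ≤ 2 * kap s - (n + 4) / (n + 3) * (8 * π / 9) * kap s ^ 2 := by
  have h1 := Crit.removal (n := n + 2) h j hs
  have h2 := Crit.HH_remove (n := n + 2) h hB j
  rw [h.HH_eq] at h1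
  have e : ((n + 2 : ℕ) + 2 : ℝ) / ((n + 2 : ℕ) + 1) = (n + 4) / (n + 3) := by
    push_cast; ring
  rw [e] at h1 h2
  set u : ℝ := (n + 4) / (n + 3) with hu
  have hn : (0 : ℝ) < n + 3 := by positivity
  have hu0 : 0 < u := by positivity
  have hu1 : u ≤ 4 / 3 := by
    rw [hu, div_le_div_iff₀ hn (by norm_num)]
    nlinarith [Nat.cast_nonneg (α := ℝ) n]
  have hpi := pi_pos
  have ht := Crit.norm_sq_le (n := n + 2) h j
  have hk := kap_le_zero hs0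
  have hk0 := kap_nonneg s
  have ha : u * ‖z j‖ ^ 2 ≤ 2 / (3 * π) := by
    calc u * ‖z j‖ ^ 2 ≤ 4 / 3 * (1 / (2 * π)) := by gcongr
      _ = 2 / (3 * π) := by field_simp; ring
  have hb : u * kap s ≤ 2 / (3 * π) := by
    calc u * kap s ≤ 4 / 3 * (1 / (2 * π)) := by gcongr
      _ = 2 / (3 * π) := by field_simp; ring
  have h3 := real_F2 (a := u * ‖z j‖ ^ 2) (b := u * kap s) cc_pos h.hF (by linarith) (by
    rw [cc_sq]
    calc (u * kap s) ^ 2 ≤ (2 / (3 * π)) ^ 2 := by gcongr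
      _ ≤ 9 / (8 * π) * (9 / (8 * π) - 2 / (3 * π)) := by
        have : 9 / (8 * π) * (9 / (8 * π) - 2 / (3 * π)) - (2 / (3 * π)) ^ 2
          = 41 / (576 * π ^ 2) := by field_simp; ring
        have h4 : 0 < 41 / (576 * π ^ 2) := by positivity
        linarith
      _ ≤ 9 / (8 * π) * (9 / (8 * π) - u * ‖z j‖ ^ 2) := by gcongr)
  rw [cc_sq] at h3
  have h4 : 9 / (8 * π) * u * (‖z j‖ ^ 2) ≤
      9 / (8 * π) * u * (2 * kap s - u * (8 * π / 9) * kap s ^ 2) := by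
    have : 9 / (8 * π) * u * (2 * kap s - u * (8 * π / 9) * kap s ^ 2)
      = 2 * (9 / (8 * π)) * (u * kap s) - (u * kap s) ^ 2 := by field_simp
    rw [this]; linarith
  exact le_of_mul_le_mul_left h4 (by positivity)

lemma Crit.cel {n : ℕ} {z : Fin (n + 4) → Euc d} (h : Crit z) (hB : Bound d (n + 3))
    (j : Fin (n + 4)) {s : ℝ} (hs0 : 0 ≤ s) (hs : (gam d).real (cell z j) = Qt s) :
    Cel s ((gam d).real (cell z j)) (kap s) (‖z j‖ ^ 2) := by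
  refine ⟨hs0, hs, rfl, ?_, ?_⟩
  · have := norm_mom_le hs
    rw [h.hz] at this
    gcongr
  · refine (h.F2 hB j hs0 hs).trans ?_
    have hn : (0 : ℝ) < n + 3 := by positivity
    have h1 : (1 : ℝ) ≤ (n + 4) / (n + 3) := by rw [le_div_iff₀ hn]; linarith
    have h2 : (2.7925 : ℝ) ≤ 8 * π / 9 := by linarith [pi_gt_d6]
    have h3 : (2.7925 : ℝ) ≤ (n + 4) / (n + 3) * (8 * π / 9) := by nlinarith
    nlinarith [sq_nonneg (kap s)]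

lemma cap5_real {a12 a13 a1j a1R a23 a2j a2R a3j a3R ajR s1 s2 r u N : ℝ}
    (h1j : a1j ≤ 0) (h1R : a1R ≤ 0) (h2j : a2j ≤ 0) (h2R : a2R ≤ 0) (h3j : a3j ≤ 0)
    (h3R : a3R ≤ 0) (hjR : ajR ≤ 0)
    (h : N = -a12 * (s1 - s2) ^ 2 + -a13 * s1 ^ 2 + -a1j * (-s1 - u) ^ 2 + -a1R * (-s1 - r) ^ 2
      + -a23 * s2 ^ 2 + -a2j * (-s2 - u) ^ 2 + -a2R * (-s2 - r) ^ 2 + -a3j * u ^ 2
      + -a3R * r ^ 2 + -ajR * (u - r) ^ 2) :
    (-a12 + -a13) * s1 ^ 2 - 2 * -a12 * s1 * s2 + (-a12 + -a23) * s2 ^ 2 ≤ N := by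
  have e1 := mul_nonneg (neg_nonneg.2 h1j) (sq_nonneg (-s1 - u))
  have e2 := mul_nonneg (neg_nonneg.2 h1R) (sq_nonneg (-s1 - r))
  have e3 := mul_nonneg (neg_nonneg.2 h2j) (sq_nonneg (-s2 - u))
  have e4 := mul_nonneg (neg_nonneg.2 h2R) (sq_nonneg (-s2 - r))
  have e5 := mul_nonneg (neg_nonneg.2 h3j) (sq_nonneg u)
  have e6 := mul_nonneg (neg_nonneg.2 h3R) (sq_nonneg r)
  have e7 := mul_nonneg (neg_nonneg.2 hjR) (sq_nonneg (u - r))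
  have e8 : (-a12 + -a13) * s1 ^ 2 - 2 * -a12 * s1 * s2 + (-a12 + -a23) * s2 ^ 2
      = -a12 * (s1 - s2) ^ 2 + -a13 * s1 ^ 2 + -a23 * s2 ^ 2 := by ring
  rw [e8, h]
  linarith

lemma norm_five (y1 y2 y3 yj yR : Euc d) (hsum : y1 + y2 + y3 + yj + yR = 0) (s1 s2 u r : ℝ) :
    ‖-s1 • y1 + -s2 • y2 + (0 : ℝ) • y3 + u • yj + r • yR‖ ^ 2 =
      -⟪y1, y2⟫ * (s1 - s2) ^ 2 + -⟪y1, y3⟫ * s1 ^ 2 + -⟪y1, yj⟫ * (-s1 - u) ^ 2
      + -⟪y1, yR⟫ * (-s1 - r) ^ 2 + -⟪y2, y3⟫ * s2 ^ 2 + -⟪y2, yj⟫ * (-s2 - u) ^ 2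
      + -⟪y2, yR⟫ * (-s2 - r) ^ 2 + -⟪y3, yj⟫ * u ^ 2 + -⟪y3, yR⟫ * r ^ 2
      + -⟪yj, yR⟫ * (u - r) ^ 2 := by
  have h2 := norm_sum_smul_sq ![y1, y2, y3, yj, yR] (by simpa [Fin.sum_univ_five] using hsum)
    ![-s1, -s2, 0, u, r]
  simp only [Fin.sum_univ_five, Matrix.cons_val_zero, Matrix.cons_val_one, Matrix.cons_val,
    real_inner_comm y1 y2, real_inner_comm y1 y3, real_inner_comm y1 yj,
    real_inner_comm y1 yR, real_inner_comm y2 y3, real_inner_comm y2 yj,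
    real_inner_comm y2 yR, real_inner_comm y3 yj, real_inner_comm y3 yR,
    real_inner_comm yj yR] at h2
  rw [h2]
  ring

lemma cap_sq {p X : ℝ} (hX : 1 ≤ X) (h : p ≤ (1 - 1 / √X) / 2) : 1 ≤ (1 - 2 * p) ^ 2 * X := by
  have hs : 0 < √X := sqrt_pos.2 (by linarith)
  have h3 : 1 / √X ≤ 1 - 2 * p := by linarith
  rw [div_le_iff₀ hs] at h3
  calc (1 : ℝ) = 1 ^ 2 := by norm_num
    _ ≤ ((1 - 2 * p) * √X) ^ 2 := by gcongr
    _ = _ := by rw [mul_pow, sq_sqrt (by linarith)]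

lemma cap5 (y1 y2 y3 yj yR : Euc d) (hsum : y1 + y2 + y3 + yj + yR = 0)
    (h12 : ⟪y1, y2⟫ ≤ 0) (h13 : ⟪y1, y3⟫ ≤ 0) (h1j : ⟪y1, yj⟫ ≤ 0) (h1R : ⟪y1, yR⟫ ≤ 0)
    (h2j : ⟪y2, yj⟫ ≤ 0) (h2R : ⟪y2, yR⟫ ≤ 0)
    (h3j : ⟪y3, yj⟫ ≤ 0) (h3R : ⟪y3, yR⟫ ≤ 0) (hjR : ⟪yj, yR⟫ ≤ 0) {g η : ℝ} (hg : 0 ≤ g)
    (hη : ‖yR‖ ^ 2 ≤ η) {A : Set (Euc d)}
    (hA : ∀ x ∈ A, 0 < ⟪x, yj - y1⟫ ∧ 0 < ⟪x, yj - y2⟫ ∧ 0 < ⟪x, g • yj - y3⟫) {e : ℝ}
    (he : 0 < e) (hdet : e ^ 2 ≤ (-⟪y1, y2⟫) * (-⟪y1, y3⟫) + (-⟪y1, y2⟫) * (-⟪y2, y3⟫)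
      + (-⟪y1, y3⟫) * (-⟪y2, y3⟫)) :
    1 ≤ (1 - 2 * (gam d).real A) ^ 2 * (1 + ((g + 3) ^ 2 * ‖yj‖ ^ 2 + η) / (2 * π * e)) := by
  have hw : yj - y1 + (yj - y2) + (g • yj - y3) = (g + 3) • yj + yR := by
    have : yR = -(y1 + y2 + y3 + yj) := eq_neg_of_add_eq_zero_right hsum
    rw [this]; module
  have hW : ‖yj - y1 + (yj - y2) + (g • yj - y3)‖ ^ 2 ≤ (g + 3) ^ 2 * ‖yj‖ ^ 2 + η := by
    rw [hw, norm_add_sq_real, norm_smul, mul_pow, Real.norm_eq_abs, sq_abs, real_inner_smul_left]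
    have := mul_nonneg (show 0 ≤ g + 3 by linarith) (neg_nonneg.2 hjR)
    linarith
  have hα : 0 < -⟪y1, y2⟫ + -⟪y1, y3⟫ := by
    by_contra hn
    have a1 : ⟪y1, y2⟫ = 0 := by linarith
    have a2 : ⟪y1, y3⟫ = 0 := by linarith
    rw [a1, a2] at hdet
    have := pow_pos he 2
    linarith
  have h1 := cap_bound (yj - y1) (yj - y2) (g • yj - y3) (α := -⟪y1, y2⟫ + -⟪y1, y3⟫)
    (β := -⟪y1, y2⟫ + -⟪y2, y3⟫) (γ := -⟪y1, y2⟫) he hα (by linarith) hW (by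
      intro s1 s2 r
      have h3 : s1 • (yj - y1) + s2 • (yj - y2) + r • (yj - y1 + (yj - y2) + (g • yj - y3))
          = -s1 • y1 + -s2 • y2 + (0 : ℝ) • y3 + (s1 + s2 + r * (g + 3)) • yj + r • yR := by
        rw [hw]; module
      rw [h3]
      exact cap5_real h1j h1R h2j h2R h3j h3R hjR (norm_five y1 y2 y3 yj yR hsum s1 s2 _ r))
  have h2 : (gam d).real A ≤ (gam d).real
      {x | 0 < ⟪x, yj - y1⟫ ∧ 0 < ⟪x, yj - y2⟫ ∧ 0 < ⟪x, g • yj - y3⟫} := measureReal_mono hA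
  have hη0 : 0 ≤ η := (sq_nonneg _).trans hη
  have h4 : 0 ≤ ((g + 3) ^ 2 * ‖yj‖ ^ 2 + η) / (2 * π * e) := by positivity
  exact cap_sq (by linarith) (h2.trans h1)

lemma perimeter_bound {a b c : Euc d} {F t τ : ℝ}
    (h1 : ‖a - b‖ ^ 2 + ‖a - c‖ ^ 2 + ‖b - c‖ ^ 2 = 3 * F - 4 * t)
    (h2 : ‖a - c‖ ^ 2 + ‖b - c‖ ^ 2 ≤ F - t + 3 * τ) (htF : t ≤ F) (ht : 0 ≤ t) (hτ : 0 ≤ τ) :
    0.4005438 * F + 0.7775553 * t - 0.1954749 * τ - 0.1376351 ≤ F - HH ![a, b, c] := by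
  rw [HH_three]
  have k := inv_sqrt_two_pi_bounds.2
  have e : (‖a - b‖ + ‖a - c‖ + ‖b - c‖) / (2 * √(2 * π))
      = (‖a - b‖ + ‖a - c‖ + ‖b - c‖) / 2 * (1 / √(2 * π)) := by
    have := sqrt_two_pi_pos
    field_simp
  have h3 : (‖a - b‖ + ‖a - c‖ + ‖b - c‖) / 2 * (1 / √(2 * π))
      ≤ (‖a - b‖ + ‖a - c‖ + ‖b - c‖) / 2 * 0.39894229 := by gcongr
  have h4 : ‖a - b‖ ≤ 0.28 + 25 / 28 * ‖a - b‖ ^ 2 := by nlinarith [sq_nonneg (‖a - b‖ - 0.56)]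
  have h5 : ‖a - c‖ ≤ 0.205 + 50 / 41 * ‖a - c‖ ^ 2 := by nlinarith [sq_nonneg (‖a - c‖ - 0.41)]
  have h6 : ‖b - c‖ ≤ 0.205 + 50 / 41 * ‖b - c‖ ^ 2 := by nlinarith [sq_nonneg (‖b - c‖ - 0.41)]
  rw [e]
  linarith

end Vale.Agent.P226
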