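import Vale.Agent.P226.Gauss

open MeasureTheory ProbabilityTheory Set Real Filter Topology
open scoped RealInnerProductSpace

namespace Vale.Agent.P226

variable {d : ℕ}

/-- support function of a finite family -/
noncomputable def sup {ι : Type} (v : ι → Euc d) (x : Euc d) : ℝ := ⨆ i, ⟪x, v i⟫

/-- expected maximum -/
noncomputable def HH {ι : Type} (v : ι → Euc d) : ℝ := ∫ x, sup v x ∂(gam d)

section
variable {ι : Type} [Fintype ι]

lemma le_sup (v : ι → Euc d) (x : Euc d) (i : ι) : ⟪x, v i⟫ ≤ sup v x :=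
  le_ciSup (f := fun i => ⟪x, v i⟫) (Finite.bddAbove_range _) i

lemma exists_sup_eq [Nonempty ι] (v : ι → Euc d) (x : Euc d) : ∃ i, sup v x = ⟪x, v i⟫ := by
  obtain ⟨i, hi⟩ := exists_eq_ciSup_of_finite (f := fun i => ⟪x, v i⟫)
  exact ⟨i, hi.symm⟩

omit [Fintype ι] in
lemma sup_le [Nonempty ι] {v : ι → Euc d} {x : Euc d} {a : ℝ} (h : ∀ i, ⟪x, v i⟫ ≤ a) :
    sup v x ≤ a := ciSup_le h

lemma continuous_sup (v : ι → Euc d) : Continuous (sup v) := by
  rcases isEmpty_or_nonempty ι with h | h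
  · have : sup v = fun _ => 0 := by ext x; simp [sup]
    rw [this]; exact continuous_const
  · have : sup v = fun x => Finset.univ.sup' Finset.univ_nonempty (fun i => ⟪x, v i⟫) := by
      ext x; rw [Finset.sup'_univ_eq_ciSup]; rfl
    rw [this]
    exact Continuous.finset_sup'_apply _ fun i _ => by fun_prop

lemma abs_sup_le (v : ι → Euc d) (x : Euc d) : |sup v x| ≤ ‖v‖ * ‖x‖ := by
  rcases isEmpty_or_nonempty ι with h | h
  · simp only [sup, Real.iSup_of_isEmpty, abs_zero]; positivity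
  · obtain ⟨i, hi⟩ := exists_sup_eq v x
    rw [hi, mul_comm]
    exact (abs_real_inner_le_norm _ _).trans (by gcongr; exact norm_le_pi_norm v i)

lemma integrable_sup (v : ι → Euc d) : Integrable (sup v) (gam d) := by
  refine Integrable.mono' (integrable_id_gam.norm.const_mul ‖v‖)
    (continuous_sup v).aestronglyMeasurable (Eventually.of_forall fun x => ?_)
  exact abs_sup_le v x

lemma sup_sub_le (v w : ι → Euc d) (x : Euc d) : sup v x - sup w x ≤ ‖v - w‖ * ‖x‖ := by
  rcases isEmpty_or_nonempty ι with h | h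
  · simp only [sup, Real.iSup_of_isEmpty, sub_self]; positivity
  · obtain ⟨i, hi⟩ := exists_sup_eq v x
    have h1 := le_sup w x i
    have h2 : ⟪x, v i⟫ - ⟪x, w i⟫ ≤ ‖v - w‖ * ‖x‖ := by
      rw [← inner_sub_right, mul_comm]
      exact (real_inner_le_norm _ _).trans (by gcongr; exact norm_le_pi_norm (v - w) i)
    linarith

lemma HH_sub_le (v w : ι → Euc d) : HH v - HH w ≤ (∫ x, ‖x‖ ∂(gam d)) * ‖v - w‖ := by
  rw [HH, HH, ← integral_sub (integrable_sup v) (integrable_sup w), mul_comm,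
    ← integral_const_mul]
  exact integral_mono ((integrable_sup v).sub (integrable_sup w))
    (integrable_id_gam.norm.const_mul _) (sup_sub_le v w)

lemma continuous_HH : Continuous (HH : (ι → Euc d) → ℝ) := by
  have hC : 0 ≤ ∫ x, ‖x‖ ∂(gam d) := integral_nonneg fun x => norm_nonneg x
  refine (LipschitzWith.of_le_add_mul (Real.toNNReal (∫ x, ‖x‖ ∂(gam d))) fun v w => ?_).continuous
  have := HH_sub_le v w
  rw [dist_eq_norm, Real.coe_toNNReal _ hC]
  linarith

omit [Fintype ι] in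
lemma HH_smul (v : ι → Euc d) {t : ℝ} (ht : 0 ≤ t) : HH (fun i => t • v i) = t * HH v := by
  rw [HH, HH, ← integral_const_mul]
  congr 1
  ext x
  simp only [sup, inner_smul_right]
  rw [Real.mul_iSup_of_nonneg ht]

lemma HH_sub_const [Nonempty ι] (v : ι → Euc d) (m : Euc d) : HH (fun i => v i - m) = HH v := by
  have : ∀ x, sup (fun i => v i - m) x = sup v x - ⟪x, m⟫ := by
    intro x
    apply le_antisymm
    · refine sup_le fun i => ?_
      rw [inner_sub_right]
      linarith [le_sup v x i]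
    · obtain ⟨i, hi⟩ := exists_sup_eq v x
      have := le_sup (fun i => v i - m) x i
      rw [inner_sub_right] at this
      linarith
  rw [HH, HH]
  simp_rw [this]
  rw [integral_sub (integrable_sup v) (integrable_inner m), integral_inner_gam, sub_zero]

lemma HH_mono {κ : Type} [Fintype κ] [Nonempty ι] {v : ι → Euc d} {w : κ → Euc d}
    (h : ∀ i, ∃ j, v i = w j) : HH v ≤ HH w := by
  refine integral_mono (integrable_sup v) (integrable_sup w) fun x => sup_le fun i => ?_
  obtain ⟨j, hj⟩ := h i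
  rw [hj]; exact le_sup w x j

/-- a partition up to null sets -/
lemma sum_inner_mom_le [Nonempty ι] {A : ι → Set (Euc d)}
    (hA : ∀ i, NullMeasurableSet (A i) (gam d))
    (hd : Pairwise (Function.onFun (AEDisjoint (gam d)) A)) (hc : (gam d) (⋃ i, A i)ᶜ = 0)
    (w : ι → Euc d) : ∑ i, ⟪mom (A i), w i⟫ ≤ HH w := by
  have h1 : HH w = ∑ i, ∫ x in A i, sup w x ∂(gam d) := by
    rw [HH, ← setIntegral_univ, ← setIntegral_congr_set (ae_eq_univ.2 hc),
      integral_iUnion_ae hA hd (integrable_sup w).integrableOn, tsum_fintype]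
  rw [h1]
  refine Finset.sum_le_sum fun i _ => ?_
  rw [inner_mom]
  exact integral_mono (integrable_inner _).integrableOn (integrable_sup w).integrableOn
    fun x => le_sup w x i

end

lemma max3_eq (a b c : ℝ) :
    max a (max b c) = (|a - b| + |a - c| + |b - c|) / 4 + (max a (max b c) - max (-a) (max (-b) (-c))) / 2 := by
  simp only [max_def, abs_eq_max_neg]
  split_ifs <;> linarith

lemma sup_three (a b c x : Euc d) : sup ![a, b, c] x = max ⟪x, a⟫ (max ⟪x, b⟫ ⟪x, c⟫) := by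
  apply le_antisymm
  · refine sup_le fun i => ?_
    fin_cases i <;> simp
  · refine max_le (le_sup ![a, b, c] x 0) (max_le (le_sup ![a, b, c] x 1) (le_sup ![a, b, c] x 2))

lemma HH_three (a b c : Euc d) :
    HH ![a, b, c] = (‖a - b‖ + ‖a - c‖ + ‖b - c‖) / (2 * √(2 * π)) := by
  have hneg : ∫ x, sup ![a, b, c] (-x) ∂(gam d) = HH ![a, b, c] := by
    have hm : (gam d).map (LinearIsometryEquiv.neg ℝ) = gam d := stdGaussian_map _
    conv_rhs => rw [HH, ← hm, integral_map (by fun_prop) (continuous_sup _).aestronglyMeasurable]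
    rfl
  have hi : Integrable (fun x => sup ![a, b, c] (-x)) (gam d) := by
    refine Integrable.mono' (integrable_id_gam.norm.const_mul ‖![a, b, c]‖)
      ((continuous_sup _).comp continuous_neg).aestronglyMeasurable (Eventually.of_forall fun x => ?_)
    simpa using abs_sup_le ![a, b, c] (-x)
  have h1 : ∀ x : Euc d, sup ![a, b, c] x =
      (|⟪x, a - b⟫| + |⟪x, a - c⟫| + |⟪x, b - c⟫|) / 4
        + (sup ![a, b, c] x - sup ![a, b, c] (-x)) / 2 := by
    intro x
    simp only [sup_three, inner_neg_left, inner_sub_right]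
    exact max3_eq _ _ _
  have h2 : HH ![a, b, c] = ∫ x, ((|⟪x, a - b⟫| + |⟪x, a - c⟫| + |⟪x, b - c⟫|) / 4
        + (sup ![a, b, c] x - sup ![a, b, c] (-x)) / 2) ∂(gam d) := by
    rw [HH]; exact integral_congr_ae (Eventually.of_forall h1)
  have i1 := (integrable_inner (a - b)).abs
  have i2 := (integrable_inner (a - c)).abs
  have i3 := (integrable_inner (b - c)).abs
  have i12 : Integrable (fun x : Euc d => |⟪x, a - b⟫| + |⟪x, a - c⟫|) (gam d) := i1.add i2
  have i123 : Integrable (fun x : Euc d => |⟪x, a - b⟫| + |⟪x, a - c⟫| + |⟪x, b - c⟫|) (gam d) :=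
    i12.add i3
  have i4 : Integrable (fun x : Euc d => sup ![a, b, c] x - sup ![a, b, c] (-x)) (gam d) :=
    (integrable_sup _).sub hi
  rw [h2, integral_add (i123.div_const 4) (i4.div_const 2), integral_div, integral_div,
    integral_add i12 i3, integral_add i1 i2, integral_sub (integrable_sup _) hi, hneg,
    integral_abs_inner, integral_abs_inner, integral_abs_inner]
  have := sqrt_two_pi_pos
  rw [HH]
  field_simp
  ring

/-- the propeller constant -/
noncomputable def cc : ℝ := 3 / (2 * √(2 * π))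

lemma cc_pos : 0 < cc := by unfold cc; have := sqrt_two_pi_pos; positivity

lemma cc_sq : cc ^ 2 = 9 / (8 * π) := by
  unfold cc
  rw [div_pow, mul_pow, sq_sqrt (by positivity)]
  ring

lemma HH_three_le (a b c : Euc d) : HH ![a, b, c] ≤ cc * √(‖a‖ ^ 2 + ‖b‖ ^ 2 + ‖c‖ ^ 2) := by
  rw [HH_three]
  have h1 : ‖a - b‖ ^ 2 + ‖a - c‖ ^ 2 + ‖b - c‖ ^ 2 ≤ 3 * (‖a‖ ^ 2 + ‖b‖ ^ 2 + ‖c‖ ^ 2) := by
    have h := sq_nonneg ‖a + b + c‖
    rw [norm_add_sq_real, norm_add_sq_real, inner_add_left] at h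
    rw [norm_sub_sq_real, norm_sub_sq_real, norm_sub_sq_real]
    linarith
  have h2 : ‖a - b‖ + ‖a - c‖ + ‖b - c‖ ≤ 3 * √(‖a‖ ^ 2 + ‖b‖ ^ 2 + ‖c‖ ^ 2) := by
    have : 3 * √(‖a‖ ^ 2 + ‖b‖ ^ 2 + ‖c‖ ^ 2) = √(9 * (‖a‖ ^ 2 + ‖b‖ ^ 2 + ‖c‖ ^ 2)) := by
      rw [sqrt_mul (by norm_num), show (9 : ℝ) = 3 ^ 2 by norm_num, sqrt_sq (by norm_num)]
    rw [this]
    apply le_sqrt_of_sq_le
    nlinarith [sq_nonneg (‖a - b‖ - ‖a - c‖), sq_nonneg (‖a - b‖ - ‖b - c‖),
      sq_nonneg (‖a - c‖ - ‖b - c‖)]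
  have := sqrt_two_pi_pos
  unfold cc
  rw [div_mul_eq_mul_div]
  gcongr

end Vale.Agent.P226
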