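import Vale.Agent.P226.Tail

open MeasureTheory ProbabilityTheory Set Real Filter Topology

namespace Vale.Agent.P226

lemma encl (m : ℕ) {s a b c e : ℝ} (hs : 0 ≤ s) (h0 : 0 ≤ expS (2 * m) s)
    (h0' : 0 ≤ erfS (2 * m) s) (h1' : 0 ≤ expS (2 * m + 1) s) (h2' : 0 ≤ erfS (2 * m + 1) s)
    (h1 : a ≤ expS (2 * m) s * 0.39894228) (h2 : expS (2 * m + 1) s * 0.39894229 ≤ b)
    (h3 : c ≤ 1 / 2 - erfS (2 * m + 1) s * 0.39894229)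
    (h4 : 1 / 2 - erfS (2 * m) s * 0.39894228 ≤ e) :
    a ≤ phi s ∧ phi s ≤ b ∧ c ≤ Qt s ∧ Qt s ≤ e := by
  obtain ⟨k1, k2⟩ := inv_sqrt_two_pi_bounds
  have e1 := phi_ge m s
  have e2 := phi_le' m s
  have e3 := Qt_ge m hs
  have e4 := Qt_le m hs
  rw [div_eq_mul_one_div] at e1 e2
  rw [div_eq_mul_one_div (erfS _ _)] at e3 e4
  refine ⟨?_, ?_, ?_, ?_⟩
  · nlinarith [mul_le_mul_of_nonneg_left k1 h0]
  · nlinarith [mul_le_mul_of_nonneg_left k2 h1']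
  · nlinarith [mul_le_mul_of_nonneg_left k2 h2']
  · nlinarith [mul_le_mul_of_nonneg_left k1 h0']

lemma kap_le_of {s b c k : ℝ} (hs : 0 ≤ s) (h1 : phi s ≤ b) (h2 : c ≤ Qt s)
    (h3 : b * (b - s * c) ≤ k) : kap s ≤ k := by
  have h4 : psi s ≤ b - s * c := by
    unfold psi; nlinarith [mul_le_mul_of_nonneg_left h2 hs]
  have h5 := psi_nonneg s
  have h6 := phi_pos s
  unfold kap
  calc phi s * psi s ≤ b * (b - s * c) := mul_le_mul h1 h4 h5 (by linarith)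
    _ ≤ k := h3

lemma pt025 : (0.3866681 : ℝ) ≤ phi 0.25 ∧ phi 0.25 ≤ 0.3866682 ∧
    (0.4012936 : ℝ) ≤ Qt 0.25 ∧ Qt 0.25 ≤ 0.4012937 := by
  apply encl 3 <;> norm_num [expS, erfS, Finset.sum_range_succ, Nat.factorial]

lemma kp025 : kap 0.25 ≤ 0.1107205 :=
  kap_le_of (by norm_num) pt025.2.1 pt025.2.2.1 (by norm_num)

lemma pt040 : (0.3682701 : ℝ) ≤ phi 0.4 ∧ phi 0.4 ≤ 0.3682702 ∧
    (0.3445782 : ℝ) ≤ Qt 0.4 ∧ Qt 0.4 ≤ 0.3445783 := by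
  apply encl 3 <;> norm_num [expS, erfS, Finset.sum_range_succ, Nat.factorial]

lemma kp040 : kap 0.4 ≤ 0.0848638 :=
  kap_le_of (by norm_num) pt040.2.1 pt040.2.2.1 (by norm_num)

lemma pt0516 : (0.3492153 : ℝ) ≤ phi 0.516 ∧ phi 0.516 ≤ 0.3492154 ∧
    (0.3029271 : ℝ) ≤ Qt 0.516 ∧ Qt 0.516 ≤ 0.3029273 := by
  apply encl 3 <;> norm_num [expS, erfS, Finset.sum_range_succ, Nat.factorial]

lemma kp0516 : kap 0.516 ≤ 0.0673655 :=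
  kap_le_of (by norm_num) pt0516.2.1 pt0516.2.2.1 (by norm_num)

lemma pt067 : (0.3187371 : ℝ) ≤ phi 0.67 ∧ phi 0.67 ≤ 0.3187372 ∧
    (0.2514288 : ℝ) ≤ Qt 0.67 ∧ Qt 0.67 ≤ 0.2514289 := by
  apply encl 4 <;> norm_num [expS, erfS, Finset.sum_range_succ, Nat.factorial]

lemma kp067 : kap 0.67 ≤ 0.0478998 :=
  kap_le_of (by norm_num) pt067.2.1 pt067.2.2.1 (by norm_num)

lemma pt086 : (0.2756182 : ℝ) ≤ phi 0.86 ∧ phi 0.86 ≤ 0.2756183 ∧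
    (0.1948945 : ℝ) ≤ Qt 0.86 ∧ Qt 0.86 ≤ 0.1948946 := by
  apply encl 4 <;> norm_num [expS, erfS, Finset.sum_range_succ, Nat.factorial]

lemma kp086 : kap 0.86 ≤ 0.0297693 :=
  kap_le_of (by norm_num) pt086.2.1 pt086.2.2.1 (by norm_num)

lemma pt100 : (0.2419707 : ℝ) ≤ phi 1 ∧ phi 1 ≤ 0.2419708 ∧
    (0.1586552 : ℝ) ≤ Qt 1 ∧ Qt 1 ≤ 0.1586553 := by
  apply encl 5 <;> norm_num [expS, erfS, Finset.sum_range_succ, Nat.factorial]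

lemma kp100 : kap 1 ≤ 0.0201600 :=
  kap_le_of (by norm_num) pt100.2.1 pt100.2.2.1 (by norm_num)

lemma pt117 : (0.2012135 : ℝ) ≤ phi 1.17 ∧ phi 1.17 ≤ 0.2012136 ∧
    (0.1210004 : ℝ) ≤ Qt 1.17 ∧ Qt 1.17 ≤ 0.1210005 := by
  apply encl 5 <;> norm_num [expS, erfS, Finset.sum_range_succ, Nat.factorial]

lemma kp117 : kap 1.17 ≤ 0.0120011 :=
  kap_le_of (by norm_num) pt117.2.1 pt117.2.2.1 (by norm_num)

lemma pt134 : (0.1625550 : ℝ) ≤ phi 1.34 ∧ phi 1.34 ≤ 0.1625551 ∧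
    (0.0901226 : ℝ) ≤ Qt 1.34 ∧ Qt 1.34 ≤ 0.0901227 := by
  apply encl 6 <;> norm_num [expS, erfS, Finset.sum_range_succ, Nat.factorial]

lemma kp134 : kap 1.34 ≤ 0.0067934 :=
  kap_le_of (by norm_num) pt134.2.1 pt134.2.2.1 (by norm_num)

lemma pt147 : (0.1354180 : ℝ) ≤ phi 1.47 ∧ phi 1.47 ≤ 0.1354181 ∧
    (0.0707808 : ℝ) ≤ Qt 1.47 ∧ Qt 1.47 ≤ 0.0707809 := by
  apply encl 6 <;> norm_num [expS, erfS, Finset.sum_range_succ, Nat.factorial]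

lemma kp147 : kap 1.47 ≤ 0.0042482 :=
  kap_le_of (by norm_num) pt147.2.1 pt147.2.2.1 (by norm_num)

lemma pt165 : (0.1022649 : ℝ) ≤ phi 1.65 ∧ phi 1.65 ≤ 0.1022650 ∧
    (0.0494714 : ℝ) ≤ Qt 1.65 ∧ Qt 1.65 ≤ 0.0494715 := by
  apply encl 7 <;> norm_num [expS, erfS, Finset.sum_range_succ, Nat.factorial]

lemma kp165 : kap 1.65 ≤ 0.0021105 :=
  kap_le_of (by norm_num) pt165.2.1 pt165.2.2.1 (by norm_num)

lemma pt220 : (0.0354745 : ℝ) ≤ phi 2.2 ∧ phi 2.2 ≤ 0.0354746 ∧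
    (0.0139034 : ℝ) ≤ Qt 2.2 ∧ Qt 2.2 ≤ 0.0139035 := by
  apply encl 9 <;> norm_num [expS, erfS, Finset.sum_range_succ, Nat.factorial]

lemma kp220 : kap 2.2 ≤ 0.0001734 :=
  kap_le_of (by norm_num) pt220.2.1 pt220.2.2.1 (by norm_num)

end Vale.Agent.P226
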