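import Vale.Agent.P226.Basic

open MeasureTheory ProbabilityTheory Set Real Filter Topology

namespace Vale.Agent.P226

noncomputable def kap (s : ℝ) : ℝ := phi s * psi s

lemma tail_mono_of_deriv {f f' : ℝ → ℝ} {a b : ℝ} (hab : a ≤ b)
    (hf : ∀ x, a ≤ x → x ≤ b → HasDerivAt f (f' x) x)
    (h0 : ∀ x, a ≤ x → x ≤ b → 0 ≤ f' x) : f a ≤ f b := by
  have hmono : MonotoneOn f (Icc a b) := by
    apply monotoneOn_of_deriv_nonneg (convex_Icc a b)
    · exact fun x hx => (hf x hx.1 hx.2).continuousAt.continuousWithinAt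
    · intro x hx
      have hx' := interior_subset hx
      exact (hf x hx'.1 hx'.2).differentiableAt.differentiableWithinAt
    · intro x hx
      have hx' := interior_subset hx
      rw [(hf x hx'.1 hx'.2).deriv]
      exact h0 x hx'.1 hx'.2
  exact hmono (left_mem_Icc.2 hab) (right_mem_Icc.2 hab) hab

lemma tail_anti_of_deriv {f f' : ℝ → ℝ} {a b : ℝ} (hab : a ≤ b)
    (hf : ∀ x, a ≤ x → x ≤ b → HasDerivAt f (f' x) x)
    (h0 : ∀ x, a ≤ x → x ≤ b → f' x ≤ 0) : f b ≤ f a := by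
  have := tail_mono_of_deriv (f := fun x => -f x) (f' := fun x => -f' x) hab
    (fun x h1 h2 => (hf x h1 h2).fun_neg) (fun x h1 h2 => by linarith [h0 x h1 h2])
  linarith

lemma hasDerivAt_kap (s : ℝ) : HasDerivAt kap (-(phi s * (s * psi s + Qt s))) s := by
  unfold kap
  refine ((hasDerivAt_phi s).fun_mul (hasDerivAt_psi s)).congr_deriv ?_
  ring

lemma hasDerivAt_K1 (s : ℝ) : HasDerivAt (fun s => s * psi s + Qt s) (-(2 * s * Qt s)) s := by
  refine (((hasDerivAt_id' s).fun_mul (hasDerivAt_psi s)).fun_add (hasDerivAt_Qt s)).congr_deriv ?_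
  unfold psi; ring

lemma K1_anti {a b : ℝ} (ha : 0 ≤ a) (hab : a ≤ b) : b * psi b + Qt b ≤ a * psi a + Qt a :=
  tail_anti_of_deriv (f := fun s => s * psi s + Qt s) hab (fun x _ _ => hasDerivAt_K1 x)
    (fun x h1 _ => by
      have := mul_nonneg (le_trans ha h1) (Qt_nonneg x)
      linarith)

lemma tendsto_mul_phi_atTop : Tendsto (fun s => s * phi s) atTop (𝓝 0) := by
  have h2 : Tendsto (fun s : ℝ => 2 / √(2 * π) * s⁻¹) atTop (𝓝 0) := by
    simpa using tendsto_inv_atTop_zero.const_mul (2 / √(2 * π))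
  refine tendsto_of_tendsto_of_tendsto_of_le_of_le' tendsto_const_nhds h2 ?_ ?_
  · filter_upwards [eventually_ge_atTop 0] with s hs
    exact mul_nonneg hs (phi_pos s).le
  · filter_upwards [eventually_gt_atTop 0] with s hs
    unfold phi
    have h1 : s ^ 2 / 2 ≤ exp (s ^ 2 / 2) := by linarith [add_one_le_exp (s ^ 2 / 2)]
    have h3 : s ^ 2 / 2 * exp (-s ^ 2 / 2) ≤ 1 := by
      calc s ^ 2 / 2 * exp (-s ^ 2 / 2) ≤ exp (s ^ 2 / 2) * exp (-s ^ 2 / 2) := by gcongr
        _ = 1 := by rw [← exp_add]; simp [neg_div]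
    have h4 := sqrt_two_pi_pos
    rw [← mul_div_assoc, div_mul_eq_mul_div, div_le_div_iff_of_pos_right h4, ← div_eq_mul_inv,
      le_div_iff₀ hs]
    nlinarith

theorem kap_le_sq (s : ℝ) : kap s ≤ Qt s ^ 2 := by
  have hJ : ∀ x, x * phi x - (x ^ 2 + 1) * Qt x ≤ 0 := by
    intro x
    refine ge_of_tendsto tendsto_mul_phi_atTop ?_
    filter_upwards [eventually_ge_atTop x] with y hy
    have := tail_mono_of_deriv (f := fun x => x * phi x - (x ^ 2 + 1) * Qt x)
      (f' := fun x => 2 * psi x) hy (fun z _ _ => by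
        refine (((hasDerivAt_id' z).fun_mul (hasDerivAt_phi z)).fun_sub
          (((hasDerivAt_pow 2 z).add_const 1).fun_mul (hasDerivAt_Qt z))).congr_deriv ?_
        unfold psi; simp; ring) (fun z _ _ => by linarith [psi_nonneg z])
    have h2 : 0 ≤ (y ^ 2 + 1) * Qt y := mul_nonneg (by positivity) (Qt_nonneg y)
    linarith
  have hk : Tendsto (fun y => -kap y) atTop (𝓝 0) := by
    have := (tendsto_phi_atTop.mul tendsto_psi_atTop).neg
    simpa [kap] using this
  have : 0 ≤ Qt s ^ 2 - kap s := by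
    refine le_of_tendsto hk ?_
    filter_upwards [eventually_ge_atTop s] with y hy
    have := tail_anti_of_deriv (f := fun x => Qt x ^ 2 - kap x)
      (f' := fun x => phi x * (x * phi x - (x ^ 2 + 1) * Qt x)) hy (fun z _ _ => by
        refine (((hasDerivAt_Qt z).fun_pow 2).fun_sub (hasDerivAt_kap z)).congr_deriv ?_
        unfold psi; simp; ring)
      (fun z _ _ => mul_nonpos_of_nonneg_of_nonpos (phi_pos z).le (hJ z))
    nlinarith [sq_nonneg (Qt y)]
  linarith

theorem kap_antitone : AntitoneOn kap (Ici 0) := by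
  intro a ha b _ hab
  refine tail_anti_of_deriv hab (fun x _ _ => hasDerivAt_kap x) (fun x h1 _ => ?_)
  have h0 : 0 ≤ x := le_trans ha h1
  have := mul_nonneg (phi_pos x).le (add_nonneg (mul_nonneg h0 (psi_nonneg x)) (Qt_nonneg x))
  linarith

theorem kap_le_beta {β s s1 : ℝ} (hβ : 1/2 < β) (hβ1 : β < 1) (hs : 0 ≤ s) (hs1 : s ≤ s1)
    (hc : s1 ^ 2 * (1 - β) ≤ (2 * β - 1) ^ 2) (h1 : kap s1 ≤ β * Qt s1 ^ 2) :
    kap s ≤ β * Qt s ^ 2 := by
  have hβ0 : 0 < β := by linarith
  set m : ℝ → ℝ := fun x => (√(x ^ 2 + 4 * β) - x) / (2 * β) with hm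
  have hpos : ∀ x : ℝ, 0 < x ^ 2 + 4 * β := fun x => by positivity
  have hR : ∀ x : ℝ, √(x ^ 2 + 4 * β) ^ 2 = x ^ 2 + 4 * β := fun x => sq_sqrt (hpos x).le
  have hR0 : ∀ x : ℝ, 0 < √(x ^ 2 + 4 * β) := fun x => sqrt_pos.2 (hpos x)
  have hm1 : ∀ x, β * m x ^ 2 + x * m x = 1 := by
    intro x
    simp only [hm]
    have := hR x
    generalize √(x ^ 2 + 4 * β) = R at this
    field_simp
    nlinarith
  have hm0 : ∀ x, 0 < m x := by
    intro x
    apply div_pos _ (by positivity)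
    have : x < √(x ^ 2 + 4 * β) := lt_sqrt_of_sq_lt (by linarith)
    linarith
  have hmd : ∀ x, HasDerivAt m (-(m x / √(x ^ 2 + 4 * β))) x := by
    intro x
    have h := (((((hasDerivAt_pow 2 x).add_const (4 * β)).sqrt (hpos x).ne').fun_sub
      (hasDerivAt_id' x)).div_const (2 * β))
    refine h.congr_deriv ?_
    have := (hR0 x).ne'
    simp only [hm]
    field_simp
    simp
    ring
  have hG1 : phi s1 * m s1 ≤ Qt s1 := by
    by_contra hlt
    push Not at hlt
    have a1 := Qt_pos s1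
    have a2 := phi_pos s1
    have a3 : 0 ≤ s1 := le_trans hs hs1
    unfold kap psi at h1
    have a4 : β * Qt s1 ^ 2 < β * (phi s1 * m s1) ^ 2 := by gcongr
    have a5 : s1 * phi s1 * Qt s1 ≤ s1 * phi s1 * (phi s1 * m s1) := by gcongr
    have a6 : β * (phi s1 * m s1) ^ 2 + s1 * phi s1 * (phi s1 * m s1) = phi s1 ^ 2 := by
      linear_combination phi s1 ^ 2 * hm1 s1
    nlinarith
  have hG := tail_anti_of_deriv (f := fun x => Qt x - phi x * m x)
    (f' := fun x => -(phi x * (m x * (β * m x - 1 / √(x ^ 2 + 4 * β))))) hs1 (fun x _ _ => by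
      refine ((hasDerivAt_Qt x).fun_sub ((hasDerivAt_phi x).fun_mul (hmd x))).congr_deriv ?_
      linear_combination phi x * hm1 x) (fun x hx1 hx2 => by
      have x0 : 0 ≤ x := le_trans hs hx1
      have b1 : x ^ 2 * (1 - β) ≤ (2 * β - 1) ^ 2 :=
        le_trans (by gcongr) hc
      have b2 : x * √(x ^ 2 + 4 * β) ≤ x ^ 2 + 4 * β - 2 := by
        apply le_of_sq_le_sq _ (by nlinarith [sq_nonneg x]) |>.trans le_rfl
        rw [mul_pow, hR]
        nlinarith
      have b3 : 1 / √(x ^ 2 + 4 * β) ≤ β * m x := by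
        rw [div_le_iff₀ (hR0 x)]
        simp only [hm]
        have := hR x
        generalize √(x ^ 2 + 4 * β) = R at this b2
        field_simp
        nlinarith
      have := mul_nonneg (phi_pos x).le (mul_nonneg (hm0 x).le (sub_nonneg.2 b3))
      linarith)
  have hGs : phi s * m s ≤ Qt s := by
    linarith
  have a2 := phi_pos s
  have a0 := hm0 s
  have a4 : β * (phi s * m s) ^ 2 ≤ β * Qt s ^ 2 := by gcongr
  have a5 : s * phi s * (phi s * m s) ≤ s * phi s * Qt s := by gcongr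
  have a6 : β * (phi s * m s) ^ 2 + s * phi s * (phi s * m s) = phi s ^ 2 := by
    linear_combination phi s ^ 2 * hm1 s
  unfold kap psi
  nlinarith

theorem kap_chord {a b s α β : ℝ} (ha : 0 ≤ a) (has : a ≤ s) (hsb : s ≤ b)
    (h1 : kap a ≤ α + β * Qt a) (h2 : kap b ≤ α + β * Qt b) : kap s ≤ α + β * Qt s := by
  have hD : ∀ x, HasDerivAt (fun x => α + β * Qt x - kap x)
      (phi x * (x * psi x + Qt x - β)) x := by
    intro x
    refine ((((hasDerivAt_Qt x).const_mul β).const_add α).fun_sub (hasDerivAt_kap x)).congr_deriv ?_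
    ring
  by_cases h : β ≤ s * psi s + Qt s
  · have := tail_mono_of_deriv has (fun x _ _ => hD x) (fun x hx1 hx2 =>
      mul_nonneg (phi_pos x).le (by linarith [K1_anti (le_trans ha hx1) hx2]))
    linarith
  · have := tail_anti_of_deriv hsb (fun x _ _ => hD x) (fun x hx1 _ =>
      mul_nonpos_of_nonneg_of_nonpos (phi_pos x).le
        (by linarith [K1_anti (le_trans ha has) hx1]))
    linarith

theorem phi_sq_tangent {s s0 : ℝ} (h0 : 0 ≤ s0) (h1 : s0 ≤ 1) (hs0 : 0 ≤ s) (hs1 : s ≤ 1) :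
    phi s ^ 2 ≤ phi s0 ^ 2 + 2 * s0 * phi s0 * (Qt s - Qt s0) := by
  have hg : ∀ x y, 0 ≤ x → x ≤ y → y ≤ 1 → x * phi x ≤ y * phi y := by
    intro x y hx hxy hy
    refine tail_mono_of_deriv (f := fun x => x * phi x) (f' := fun x => (1 - x ^ 2) * phi x) hxy
      (fun z _ _ => ?_) (fun z a b => mul_nonneg (by nlinarith) (phi_pos z).le)
    refine ((hasDerivAt_id' z).fun_mul (hasDerivAt_phi z)).congr_deriv ?_
    ring
  have hD : ∀ x, HasDerivAt (fun x => 2 * s0 * phi s0 * Qt x - phi x ^ 2)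
      (2 * phi x * (x * phi x - s0 * phi s0)) x := by
    intro x
    refine (((hasDerivAt_Qt x).const_mul (2 * s0 * phi s0)).fun_sub
      ((hasDerivAt_phi x).fun_pow 2)).congr_deriv ?_
    simp; ring
  rcases le_total s0 s with h | h
  · have := tail_mono_of_deriv h (fun x _ _ => hD x) (fun x hx1 hx2 =>
      mul_nonneg (by linarith [phi_pos x]) (by linarith [hg s0 x h0 hx1 (le_trans hx2 hs1)]))
    linarith
  · have := tail_anti_of_deriv h (fun x _ _ => hD x) (fun x hx1 hx2 =>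
      mul_nonpos_of_nonneg_of_nonpos (by linarith [phi_pos x])
        (by linarith [hg x s0 (le_trans hs0 hx1) hx2 h1]))
    linarith

noncomputable def expS (n : ℕ) (s : ℝ) : ℝ :=
  ∑ k ∈ Finset.range n, (-(s ^ 2 / 2)) ^ k / (k.factorial : ℝ)

noncomputable def erfS (n : ℕ) (s : ℝ) : ℝ :=
  ∑ k ∈ Finset.range n, (-1) ^ k * s ^ (2 * k + 1) / (2 ^ k * (k.factorial : ℝ) * (2 * k + 1))

theorem inv_sqrt_two_pi_bounds : (0.39894228 : ℝ) ≤ 1 / √(2 * π) ∧ 1 / √(2 * π) ≤ 0.39894229 := by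
  have h1 := pi_gt_d20
  have h2 := pi_lt_d20
  have h0 := sqrt_two_pi_pos
  constructor
  · rw [le_div_iff₀ h0, ← le_div_iff₀' (by norm_num)]
    apply sqrt_le_iff.2 ⟨by norm_num, ?_⟩
    norm_num at h2 ⊢
    linarith
  · rw [div_le_iff₀ h0, ← div_le_iff₀' (by norm_num)]
    apply le_sqrt_of_sq_le
    norm_num at h1 ⊢
    linarith

lemma exp_neg_alt (n : ℕ) (y : ℝ) (hy : 0 ≤ y) :
    0 ≤ (-1 : ℝ) ^ n * (exp (-y) - ∑ k ∈ Finset.range n, (-y) ^ k / (k.factorial : ℝ)) := by
  induction n generalizing y with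
  | zero => simpa using (exp_pos _).le
  | succ n ih =>
    have hS : ∀ x : ℝ, HasDerivAt (fun y : ℝ => ∑ k ∈ Finset.range (n + 1),
        (-y) ^ k / (k.factorial : ℝ)) (-∑ k ∈ Finset.range n, (-x) ^ k / (k.factorial : ℝ)) x := by
      intro x
      simp only [Finset.sum_range_succ', pow_zero]
      rw [← Finset.sum_neg_distrib]
      apply HasDerivAt.add_const
      refine HasDerivAt.fun_sum fun k _ => ?_
      refine (((hasDerivAt_neg' x).fun_pow (k + 1)).div_const _).congr_deriv ?_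
      have : ((k + 1).factorial : ℝ) = (k + 1) * k.factorial := by
        rw [Nat.factorial_succ]; push_cast; ring
      rw [this]
      have h1 : (k.factorial : ℝ) ≠ 0 := by positivity
      have h2 : (k : ℝ) + 1 ≠ 0 := by positivity
      simp only [Nat.add_sub_cancel]
      push_cast
      field_simp
    have := tail_mono_of_deriv (f := fun y => (-1 : ℝ) ^ (n + 1) * (exp (-y) -
        ∑ k ∈ Finset.range (n + 1), (-y) ^ k / (k.factorial : ℝ)))
      (f' := fun y => (-1 : ℝ) ^ n * (exp (-y) -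
        ∑ k ∈ Finset.range n, (-y) ^ k / (k.factorial : ℝ))) hy (fun x _ _ => by
        refine ((((hasDerivAt_neg' x).exp).fun_sub (hS x)).const_mul _).congr_deriv ?_
        ring) (fun x hx _ => ih x hx)
    refine le_trans (le_of_eq ?_) this
    simp [Finset.sum_range_succ']

theorem phi_ge (m : ℕ) (s : ℝ) : expS (2 * m) s / √(2 * π) ≤ phi s := by
  have := exp_neg_alt (2 * m) (s ^ 2 / 2) (by positivity)
  rw [pow_mul, neg_one_sq, one_pow, one_mul] at this
  unfold phi expS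
  apply div_le_div_of_nonneg_right _ sqrt_two_pi_pos.le
  rw [neg_div]
  linarith

theorem phi_le' (m : ℕ) (s : ℝ) : phi s ≤ expS (2 * m + 1) s / √(2 * π) := by
  have := exp_neg_alt (2 * m + 1) (s ^ 2 / 2) (by positivity)
  rw [pow_succ, pow_mul, neg_one_sq, one_pow, one_mul] at this
  unfold phi expS
  apply div_le_div_of_nonneg_right _ sqrt_two_pi_pos.le
  rw [neg_div]
  linarith

lemma hasDerivAt_erfS (n : ℕ) (s : ℝ) : HasDerivAt (erfS n) (expS n s) s := by
  unfold erfS expS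
  refine HasDerivAt.fun_sum fun k _ => ?_
  refine (((hasDerivAt_pow (2 * k + 1) s).const_mul ((-1) ^ k)).div_const _).congr_deriv ?_
  have h1 : (k.factorial : ℝ) ≠ 0 := by positivity
  have h2 : 2 * (k : ℝ) + 1 ≠ 0 := by positivity
  simp only [Nat.add_sub_cancel]
  push_cast
  rw [neg_pow (s ^ 2 / 2), div_pow, ← pow_mul]
  field_simp

lemma erfS_zero (n : ℕ) : erfS n 0 = 0 := by simp [erfS]

theorem Qt_ge (m : ℕ) {s : ℝ} (hs : 0 ≤ s) : 1 / 2 - erfS (2 * m + 1) s / √(2 * π) ≤ Qt s := by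
  have := tail_mono_of_deriv (f := fun x => Qt x + erfS (2 * m + 1) x / √(2 * π))
    (f' := fun x => -phi x + expS (2 * m + 1) x / √(2 * π)) hs
    (fun x _ _ => (hasDerivAt_Qt x).fun_add ((hasDerivAt_erfS _ x).div_const _))
    (fun x _ _ => by linarith [phi_le' m x])
  simp only [Qt_zero, erfS_zero, zero_div, add_zero] at this
  linarith

theorem Qt_le (m : ℕ) {s : ℝ} (hs : 0 ≤ s) : Qt s ≤ 1 / 2 - erfS (2 * m) s / √(2 * π) := by
  have := tail_anti_of_deriv (f := fun x => Qt x + erfS (2 * m) x / √(2 * π))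
    (f' := fun x => -phi x + expS (2 * m) x / √(2 * π)) hs
    (fun x _ _ => (hasDerivAt_Qt x).fun_add ((hasDerivAt_erfS _ x).div_const _))
    (fun x _ _ => by linarith [phi_ge m x])
  simp only [Qt_zero, erfS_zero, zero_div, add_zero] at this
  linarith

end Vale.Agent.P226
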