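import Vale.Agent.P226.Crit
import Vale.Agent.P226.Ehrhard2
import Vale.Agent.P226.Density
import Vale.Agent.P226.Tail
import Vale.Agent.P226.Cap

open MeasureTheory ProbabilityTheory Set Real Filter Topology
open scoped RealInnerProductSpace

namespace Vale.Agent.P226

variable {d : ℕ}

lemma norm_sum_smul_sq {ι : Type} [Fintype ι] (z : ι → Euc d) (hz : ∑ i, z i = 0) (t : ι → ℝ) :
    ‖∑ i, t i • z i‖ ^ 2 = (∑ i, ∑ j, (-⟪z i, z j⟫) * (t i - t j) ^ 2) / 2 := by
  have h0 : ∀ i, ∑ j, ⟪z i, z j⟫ = 0 := fun i => by rw [← inner_sum, hz, inner_zero_right]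
  have h0' : ∀ j, ∑ i, ⟪z i, z j⟫ = 0 := fun j => by rw [← sum_inner, hz, inner_zero_left]
  have h1 : ‖∑ i, t i • z i‖ ^ 2 = ∑ i, ∑ j, t i * t j * ⟪z i, z j⟫ := by
    rw [← real_inner_self_eq_norm_sq, sum_inner]
    refine Finset.sum_congr rfl fun i _ => ?_
    rw [inner_sum]
    refine Finset.sum_congr rfl fun j _ => ?_
    rw [real_inner_smul_left, real_inner_smul_right]; ring
  have h2 : ∑ i, ∑ j, t i ^ 2 * ⟪z i, z j⟫ = 0 := by
    simp_rw [← Finset.mul_sum, h0]; simp
  have h3 : ∑ i, ∑ j, t j ^ 2 * ⟪z i, z j⟫ = 0 := by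
    rw [Finset.sum_comm]
    simp_rw [← Finset.mul_sum, h0']; simp
  have h4 : ∑ i, ∑ j, (-⟪z i, z j⟫) * (t i - t j) ^ 2 =
      2 * (∑ i, ∑ j, t i * t j * ⟪z i, z j⟫) - (∑ i, ∑ j, t i ^ 2 * ⟪z i, z j⟫)
        - ∑ i, ∑ j, t j ^ 2 * ⟪z i, z j⟫ := by
    simp_rw [Finset.mul_sum, ← Finset.sum_sub_distrib]
    refine Finset.sum_congr rfl fun i _ => Finset.sum_congr rfl fun j _ => by ring
  rw [h4, h1, h2, h3]; ring

namespace Crit
variable {k : ℕ} {z : Fin (k + 1) → Euc d}

lemma term_nonneg (h : Crit z) (t : Fin (k + 1) → ℝ) (i j : Fin (k + 1)) :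
    0 ≤ (-⟪z i, z j⟫) * (t i - t j) ^ 2 := by
  by_cases hij : i = j
  · simp [hij]
  · exact mul_nonneg (neg_nonneg.2 (h.hneg i j hij).le) (sq_nonneg _)

lemma exists_dual (h : Crit z) (j : Fin (k + 1)) :
    ∃ x0 : Euc d, ∀ i, ⟪x0, z i⟫ = (if i = j then 1 else 0) - 1 / (k + 1 : ℝ) := by
  let L : (Fin (k + 1) → ℝ) →ₗ[ℝ] (Fin (k + 1) → ℝ) :=
    { toFun := fun t i => ⟪∑ m, t m • z m, z i⟫ + ∑ m, t m
      map_add' := fun s t => by
        ext i
        simp only [Pi.add_apply, add_smul, Finset.sum_add_distrib, inner_add_left]; ring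
      map_smul' := fun c t => by
        ext i
        simp only [Pi.smul_apply, smul_eq_mul, RingHom.id_apply, mul_smul, ← Finset.smul_sum,
          real_inner_smul_left, ← Finset.mul_sum]; ring }
  have hL : ∀ t i, L t i = ⟪∑ m, t m • z m, z i⟫ + ∑ m, t m := fun _ _ => rfl
  have hsum : ∀ t, ∑ i, L t i = (k + 1 : ℝ) * ∑ m, t m := by
    intro t
    simp_rw [hL]
    rw [Finset.sum_add_distrib, ← inner_sum, h.sum_eq, inner_zero_right]
    simp
  have hk : (0 : ℝ) < k + 1 := by positivity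
  have hinj : Function.Injective L := by
    rw [injective_iff_map_eq_zero]
    intro t ht
    have h1 : ∑ m, t m = 0 := by
      have := hsum t
      rw [ht] at this
      simp only [Pi.zero_apply, Finset.sum_const_zero] at this
      exact (mul_eq_zero.1 this.symm).resolve_left hk.ne'
    have h2 : ∀ i, ⟪∑ m, t m • z m, z i⟫ = 0 := fun i => by
      have := congr_fun ht i
      rw [hL, h1, add_zero] at this
      exact this
    have h3 : ‖∑ m, t m • z m‖ ^ 2 = 0 := by
      rw [← real_inner_self_eq_norm_sq, inner_sum]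
      simp_rw [real_inner_smul_right, h2]; simp
    rw [norm_sum_smul_sq z h.sum_eq] at h3
    have h4 : ∑ i, ∑ l, (-⟪z i, z l⟫) * (t i - t l) ^ 2 = 0 := by linarith
    have h5 : ∀ i, t i = t 0 := fun i => by
      by_contra hne
      have hi0 : i ≠ 0 := fun h' => hne (by rw [h'])
      have := (Finset.sum_eq_zero_iff_of_nonneg
        (fun i _ => Finset.sum_nonneg fun l _ => h.term_nonneg t i l)).1 h4 i (Finset.mem_univ i)
      have := (Finset.sum_eq_zero_iff_of_nonneg
        (fun l _ => h.term_nonneg t i l)).1 this 0 (Finset.mem_univ _)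
      rcases mul_eq_zero.1 this with h6 | h6
      · linarith [h.hneg i 0 hi0]
      · exact hne (sub_eq_zero.1 (pow_eq_zero_iff two_ne_zero |>.1 h6))
    have h6 : t 0 = 0 := by
      simp_rw [h5] at h1
      simp only [Finset.sum_const, Finset.card_univ, Fintype.card_fin, nsmul_eq_mul] at h1
      push_cast at h1
      exact (mul_eq_zero.1 h1).resolve_left hk.ne'
    ext i; rw [h5, h6]; rfl
  obtain ⟨t, ht⟩ := (LinearMap.injective_iff_surjective.1 hinj)
    (fun i => (if i = j then 1 else 0) - 1 / (k + 1 : ℝ))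
  have h1 : ∑ m, t m = 0 := by
    have := hsum t
    rw [ht, Finset.sum_sub_distrib] at this
    simp only [Finset.sum_ite_eq', Finset.mem_univ, if_true, Finset.sum_const, Finset.card_univ,
      Fintype.card_fin, nsmul_eq_mul] at this
    push_cast at this
    rw [mul_one_div_cancel hk.ne', sub_self] at this
    exact (mul_eq_zero.1 this.symm).resolve_left hk.ne'
  refine ⟨∑ m, t m • z m, fun i => ?_⟩
  have := congr_fun ht i
  rw [hL, h1, add_zero] at this
  exact this

end Crit

lemma integrable_exp_inner (v : Euc d) (c : ℝ) :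
    Integrable (fun x : Euc d => exp (⟪x, v⟫ - c)) (gam d) := by
  have h1 : Integrable (fun t : ℝ => exp t) ((gam d).map (fun x => ⟪x, v⟫)) := by
    rw [map_inner, integrable_map_measure (by fun_prop) (by fun_prop)]
    exact integrable_exp_mul_gaussianReal ‖v‖
  rw [integrable_map_measure (by fun_prop) (by fun_prop)] at h1
  simp_rw [exp_sub]
  exact h1.div_const _

lemma shift_lower {A : Set (Euc d)} (hA : MeasurableSet A) (x0 : Euc d) (ε : ℝ) :
    exp (-(ε ^ 2 * ‖x0‖ ^ 2 / 2)) * ((gam d).real A + ε * ⟪mom A, x0⟫) ≤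
      (gam d).real {x | x + ε • x0 ∈ A} := by
  rw [stdGaussian_shift d A hA, inner_mom]
  have h1 : exp (-(ε ^ 2 * ‖x0‖ ^ 2 / 2)) * ((gam d).real A + ε * ∫ x in A, ⟪x, x0⟫ ∂(gam d)) =
      ∫ x in A, exp (-(ε ^ 2 * ‖x0‖ ^ 2 / 2)) * (1 + ε * ⟪x, x0⟫) ∂(gam d) := by
    rw [integral_const_mul, integral_add (integrable_const _).integrableOn
      ((integrable_inner x0).const_mul ε).integrableOn, integral_const_mul]
    simp
  rw [h1]
  refine integral_mono (((integrable_const _).add
    ((integrable_inner x0).const_mul ε)).const_mul _).integrableOn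
    (integrable_exp_inner _ _).integrableOn fun x => ?_
  simp only [real_inner_smul_right, norm_smul, mul_pow, Real.norm_eq_abs, sq_abs]
  rw [sub_eq_add_neg, exp_add, mul_comm]
  gcongr
  linarith [add_one_le_exp (ε * ⟪x, x0⟫)]

lemma tangent_bound {T : ℝ → ℝ} (hC : Convex ℝ {q : ℝ × ℝ | Phi q.2 < T q.1}) {s f L : ℝ}
    (h0 : T 0 = Qt s) (hlow : ∀ ε, 0 < ε → exp (-(ε ^ 2 * L / 2)) * (Qt s + ε * f) ≤ T (-ε))
    {t : ℝ} (ht : 0 < t) : T t ≤ Qt (s + t * (f / phi s)) := by
  by_contra hcon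
  push Not at hcon
  set m := f / phi s with hm
  have hphi := phi_pos s
  rw [← Phi_neg] at hcon
  obtain ⟨η, hη, hη2⟩ : ∃ η, 0 < η ∧ Phi (-(s + t * m) + η) < T t := by
    have hc : ContinuousAt (fun η => Phi (-(s + t * m) + η)) 0 :=
      (continuous_Phi.comp (by fun_prop)).continuousAt
    have : ∀ᶠ η in 𝓝 (0 : ℝ), Phi (-(s + t * m) + η) < T t :=
      hc.eventually (gt_mem_nhds (by simpa using hcon))
    obtain ⟨η, h1, h2⟩ := ((this.filter_mono nhdsWithin_le_nhds).and
      (self_mem_nhdsWithin (s := Ioi (0 : ℝ)))).exists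
    exact ⟨η, h2, h1⟩
  set η' := η / (2 * t) with hη'
  have hη'0 : 0 < η' := by positivity
  have hd : HasDerivAt (fun ε => exp (-(ε ^ 2 * L / 2)) * (Qt s + ε * f)
      - Phi (-s + ε * (m - η'))) (phi s * η') 0 := by
    have e1 : HasDerivAt (fun ε : ℝ => -(ε ^ 2 * L / 2)) 0 0 := by
      have := (((hasDerivAt_pow 2 (0 : ℝ)).mul_const L).div_const 2).fun_neg
      exact this.congr_deriv (by simp)
    have e2 : HasDerivAt (fun ε : ℝ => Qt s + ε * f) f 0 := by
      have := ((hasDerivAt_id' (0 : ℝ)).mul_const f).const_add (Qt s)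
      exact this.congr_deriv (by simp)
    have e3 : HasDerivAt (fun ε : ℝ => -s + ε * (m - η')) (m - η') 0 := by
      have := ((hasDerivAt_id' (0 : ℝ)).mul_const (m - η')).const_add (-s)
      exact this.congr_deriv (by simp)
    have e4 := (hasDerivAt_Phi (-s + 0 * (m - η'))).comp (0 : ℝ) e3
    have := (e1.exp.fun_mul e2).fun_sub e4
    refine this.congr_deriv ?_
    simp only [zero_mul, add_zero, phi_neg, mul_zero, ne_eq, OfNat.ofNat_ne_zero,
      not_false_eq_true, zero_pow, zero_div, neg_zero, exp_zero, one_mul, zero_add]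
    rw [hm]; field_simp; ring
  have hs := hd.tendsto_slope_zero_right
  obtain ⟨ε, hε1, hε⟩ := ((hs.eventually (lt_mem_nhds (mul_pos hphi hη'0))).and
    (self_mem_nhdsWithin (s := Ioi (0 : ℝ)))).exists
  have hε0 : 0 < ε := hε
  simp only [zero_add, smul_eq_mul, ne_eq, OfNat.ofNat_ne_zero, not_false_eq_true, zero_pow,
    zero_mul, zero_div, neg_zero, exp_zero, add_zero, one_mul, Phi_neg, sub_self, sub_zero] at hε1
  have hpos : 0 < exp (-(ε ^ 2 * L / 2)) * (Qt s + ε * f) - Phi (-s + ε * (m - η')) :=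
    (pos_iff_pos_of_mul_pos hε1).1 (inv_pos.2 hε0)
  have hp1 : ((-ε, -s + ε * (m - η')) : ℝ × ℝ) ∈ {q : ℝ × ℝ | Phi q.2 < T q.1} := by
    have := hlow ε hε0
    show Phi _ < T _
    linarith
  have hp2 : ((t, -(s + t * m) + η) : ℝ × ℝ) ∈ {q : ℝ × ℝ | Phi q.2 < T q.1} := hη2
  have hte : 0 < t + ε := by positivity
  have h3 := hC hp1 hp2 (a := t / (t + ε)) (b := ε / (t + ε)) (by positivity) (by positivity)
    (by field_simp)
  have e1 : (t / (t + ε)) • ((-ε, -s + ε * (m - η')) : ℝ × ℝ)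
      + (ε / (t + ε)) • ((t, -(s + t * m) + η) : ℝ × ℝ) = (0, -s + ε * η / (2 * (t + ε))) := by
    ext
    · simp only [Prod.fst_add, Prod.smul_fst, smul_eq_mul]; field_simp; ring
    · simp only [Prod.snd_add, Prod.smul_snd, smul_eq_mul]; rw [hη']; field_simp; ring
  rw [e1] at h3
  have h4 : Phi (-s + ε * η / (2 * (t + ε))) < T 0 := h3
  rw [h0, ← Phi_neg] at h4
  have h5 := strictMono_Phi.lt_iff_lt.1 h4
  have : 0 < ε * η / (2 * (t + ε)) := by positivity
  linarith

lemma integral_Qt_affine (s : ℝ) {m : ℝ} (hm : 0 < m) :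
    IntegrableOn (fun t => Qt (s + t * m)) (Ioi 0) ∧
      ∫ t in Ioi 0, Qt (s + t * m) = psi s / m := by
  have hd : ∀ t, HasDerivAt (fun t => -psi (s + t * m) / m) (Qt (s + t * m)) t := by
    intro t
    have e3 : HasDerivAt (fun t : ℝ => s + t * m) m t := by
      have := ((hasDerivAt_id' t).mul_const m).const_add s
      exact this.congr_deriv (by simp)
    have := (((hasDerivAt_psi (s + t * m)).comp t e3).fun_neg).div_const m
    refine this.congr_deriv ?_
    field_simp
  have ht : Tendsto (fun t => -psi (s + t * m) / m) atTop (𝓝 0) := by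
    have h1 : Tendsto (fun t : ℝ => s + t * m) atTop atTop :=
      tendsto_atTop_add_const_left _ _ (tendsto_id.atTop_mul_const hm)
    have := ((tendsto_psi_atTop.comp h1).neg).div_const m
    simpa using this
  have hi := integrableOn_Ioi_deriv_of_nonneg' (a := 0) (fun t _ => hd t)
    (fun t _ => Qt_nonneg _) ht
  refine ⟨hi, ?_⟩
  rw [integral_Ioi_of_hasDerivAt_of_tendsto' (fun t _ => hd t) hi ht]
  simp [neg_div]

theorem Crit.removal {n : ℕ} {z : Fin (n + 2) → Euc d} (h : Crit z) (j : Fin (n + 2)) {s : ℝ}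
    (hs : (gam d).real (cell z j) = Qt s) :
    HH z - HH (fun l => z (j.succAbove l)) ≤ (n + 2) / (n + 1) * kap s := by
  obtain ⟨x0, hx0⟩ := h.exists_dual j
  let K : Set (ℝ × Euc d) := {q | ∀ i, i ≠ j → ⟪q.2, z i⟫ + q.1 < ⟪q.2, z j⟫}
  have hK : Convex ℝ K := by
    intro q1 h1 q2 h2 a b ha hb hab i hi
    have e1 := h1 i hi
    have e2 := h2 i hi
    simp only [Prod.snd_add, Prod.smul_snd, Prod.fst_add, Prod.smul_fst, smul_eq_mul,
      inner_add_left, real_inner_smul_left]
    rcases eq_or_lt_of_le ha with ha0 | ha0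
    · have hb1 : b = 1 := by linarith
      rw [← ha0, hb1]; linarith
    · nlinarith [mul_lt_mul_of_pos_left e1 ha0, mul_le_mul_of_nonneg_left e2.le hb]
  have hKm : MeasurableSet K := by
    have : K = ⋂ i, ⋂ (_ : i ≠ j), {q : ℝ × Euc d | ⟪q.2, z i⟫ + q.1 < ⟪q.2, z j⟫} := by
      ext q; simp [K]
    rw [this]
    exact (isOpen_iInter_of_finite fun i => isOpen_iInter_of_finite fun _ =>
      isOpen_lt (by fun_prop) (by fun_prop)).measurableSet
  let T : ℝ → ℝ := fun t => (gam d).real (Prod.mk t ⁻¹' K)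
  have hC : Convex ℝ {q : ℝ × ℝ | Phi q.2 < T q.1} := ehrhard_std d K hK hKm
  have hT0 : T 0 = Qt s := by
    rw [← hs]
    simp only [T]
    congr 1
    ext x; simp [K, cell]
  have hn1 : (0 : ℝ) < n + 1 := by positivity
  have hn2 : (0 : ℝ) < n + 2 := by positivity
  set f : ℝ := (n + 1) / (n + 2) with hf
  have hf0 : 0 < f := by positivity
  have hmom : ⟪mom (cell z j), x0⟫ = f := by
    rw [h.hz, real_inner_comm, hx0, if_pos rfl, hf]
    push_cast
    field_simp; ring
  have hlow : ∀ ε, 0 < ε → exp (-(ε ^ 2 * ‖x0‖ ^ 2 / 2)) * (Qt s + ε * f) ≤ T (-ε) := by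
    intro ε _
    have h1 := shift_lower (measurableSet_cell z j) x0 ε
    rw [hs, hmom] at h1
    refine h1.trans (le_of_eq ?_)
    simp only [T]
    congr 1
    ext x
    simp only [cell, mem_ofPred_eq, mem_preimage, K, inner_add_left, real_inner_smul_left, hx0]
    refine forall_congr' fun i => forall_congr' fun hi => ?_
    rw [if_neg hi, if_pos trivial]
    constructor <;> intro h' <;> linarith
  have hTt : ∀ t, 0 < t → T t ≤ Qt (s + t * (f / phi s)) := fun t ht =>
    tangent_bound hC hT0 hlow ht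
  set z' : Fin (n + 1) → Euc d := fun l => z (j.succAbove l) with hz'
  have hW : ∀ x, sup z x - sup z' x = max (⟪x, z j⟫ - sup z' x) 0 := by
    intro x
    have h1 : sup z' x ≤ sup z x := sup_le fun l => le_sup z x _
    have h2 := le_sup z x j
    have h3 : sup z x ≤ max ⟪x, z j⟫ (sup z' x) := by
      refine sup_le fun i => ?_
      by_cases hi : i = j
      · rw [hi]; exact le_max_left _ _
      · obtain ⟨m, hm⟩ := Fin.exists_succAbove_eq hi
        rw [← hm]
        exact (le_sup z' x m).trans (le_max_right _ _)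
    rcases le_total ⟪x, z j⟫ (sup z' x) with h4 | h4
    · rw [max_eq_right h4] at h3
      rw [max_eq_right (by linarith)]; linarith
    · rw [max_eq_left h4] at h3
      rw [max_eq_left (by linarith)]; linarith
  have hWi : Integrable (fun x => max (⟪x, z j⟫ - sup z' x) 0) (gam d) :=
    ((integrable_inner _).sub (integrable_sup z')).pos_part
  have hm0 : 0 < f / phi s := div_pos hf0 (phi_pos s)
  obtain ⟨hQi, hQ⟩ := integral_Qt_affine s hm0
  rw [HH, HH, ← integral_sub (integrable_sup z) (integrable_sup z')]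
  simp_rw [hW]
  rw [hWi.integral_eq_integral_meas_lt (Eventually.of_forall fun x => le_max_right _ _)]
  calc ∫ t in Ioi 0, (gam d).real {x | t < max (⟪x, z j⟫ - sup z' x) 0}
      ≤ ∫ t in Ioi 0, Qt (s + t * (f / phi s)) := by
        refine integral_mono_of_nonneg (Eventually.of_forall fun t => measureReal_nonneg) hQi ?_
        refine (ae_restrict_iff' measurableSet_Ioi).2 (Eventually.of_forall fun t ht => ?_)
        have ht0 : 0 < t := ht
        refine le_trans (measureReal_mono ?_) (hTt t ht0)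
        intro x hx i hi
        obtain ⟨m, hm⟩ := Fin.exists_succAbove_eq hi
        have h1 := le_sup z' x m
        simp only [mem_ofPred_eq, lt_max_iff] at hx
        rcases hx with hx | hx
        · rw [← hm]
          show ⟪x, z' m⟫ + t < ⟪x, z j⟫
          linarith
        · linarith
    _ = (n + 2) / (n + 1) * kap s := by
        rw [hQ, hf, kap]
        have := phi_pos s
        field_simp

end Vale.Agent.P226
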